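import Mathlib

/-! # Row 133 (S0182): parameters, words, names, lists (sections 0-3 of note 12067)

Interface file: definitions of the parameters `nn mm NN KK hh tt`, of the words `W s`,
blocks, names, Hamming distance, lists, bad pairs, and of the predicate `CombGood`
(= the conclusion of THEOREM COMB). -/

set_option autoImplicit false

open Finset

namespace Crest.Agent.R133

/-! ## section 0: parameters -/

/-- `n_s = 2 (⌊√s⌋ + 20)` -/
def nn (s : ℕ) : ℕ := 2 * (Nat.sqrt s + 20)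

/-- `m_s = n_s ^ 2` -/
def mm (s : ℕ) : ℕ := nn s ^ 2

/-- `N_0 = 1`, `N_{s+1} = m_s N_s` -/
def NN : ℕ → ℕ
  | 0 => 1
  | s + 1 => mm s * NN s

/-- `K_0 = 2`, `K_{s+1} = K_s ^ (m_s - 1)` -/
def KK : ℕ → ℕ
  | 0 => 2
  | s + 1 => KK s ^ (mm s - 1)

/-- `t_s = n_s N_s` -/
def tt (s : ℕ) : ℕ := nn s * NN s

/-- `h_s = log K_s / N_s` -/
noncomputable def hh (s : ℕ) : ℝ := Real.log (KK s) / NN s

/-- `κ_s = 1 / m_s` -/
noncomputable def kap (s : ℕ) : ℝ := 1 / (mm s : ℝ)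

/-- `λ_s = 9 h_s` -/
noncomputable def lam (s : ℕ) : ℝ := 9 * hh s

/-- `ρ = 1 / 1000` -/
noncomputable def rho : ℝ := 1 / 1000

/-! ## section 1: words, blocks, names -/

/-- `W_0 = {0,1}`, `W_{s+1} = (Fin (m_s - 1) → W_s)` -/
def W : ℕ → Type
  | 0 => Bool
  | s + 1 => Fin (mm s - 1) → W s

instance instFintypeW : ∀ s, Fintype (W s)
  | 0 => inferInstanceAs (Fintype Bool)
  | s + 1 => by
      haveI := instFintypeW s
      exact inferInstanceAs (Fintype (Fin (mm s - 1) → W s))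

instance instDecidableEqW : ∀ s, DecidableEq (W s)
  | 0 => inferInstanceAs (DecidableEq Bool)
  | s + 1 => by
      haveI := instDecidableEqW s
      exact inferInstanceAs (DecidableEq (Fin (mm s - 1) → W s))

instance instInhabitedW : ∀ s, Inhabited (W s)
  | 0 => inferInstanceAs (Inhabited Bool)
  | s + 1 => by
      haveI := instInhabitedW s
      exact inferInstanceAs (Inhabited (Fin (mm s - 1) → W s))

instance instMeasurableSpaceW (s : ℕ) : MeasurableSpace (W s) := ⊤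

instance instDiscreteMeasurableSpaceW (s : ℕ) : DiscreteMeasurableSpace (W s) :=
  ⟨fun _ => trivial⟩

/-- a choice sequence `τ_s : W_{s+1} → W_s` -/
abbrev Tau : Type := ∀ s, W (s + 1) → W s

/-- `τ_s` is balanced: all fibres have the same size -/
def Balanced {s : ℕ} (σ : W (s + 1) → W s) : Prop :=
  ∀ t : W s, (univ.filter (fun u => σ u = t)).card * KK s = KK (s + 1)

/-- `blk_s(w)_j = w_j` for `j < m_s - 1`, and `τ_s(w)` for `j = m_s - 1`
(and for all larger `j`, junk). -/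
def blk (τ : Tau) (s : ℕ) (w : W (s + 1)) (j : ℕ) : W s :=
  if h : j < mm s - 1 then (show Fin (mm s - 1) → W s from w) ⟨j, h⟩ else τ s w

/-- the name of a word: concatenation of the names of its blocks; only the
letters `i < N_s` are meaningful -/
def nm (τ : Tau) : ∀ s, W s → ℕ → Bool
  | 0, w, _ => (show Bool from w)
  | s + 1, w, i => nm τ s (blk τ s w (i / NN s)) (i % NN s)

/-- Hamming distance of two names on the window `[0,N)` -/
def ham (N : ℕ) (x y : ℕ → Bool) : ℕ := ((range N).filter (fun i => x i ≠ y i)).card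

/-- shift of a name -/
def sh {α : Type*} (a : ℕ) (x : ℕ → α) : ℕ → α := fun i => x (a + i)

/-- shift of a set of letter positions -/
def shS (a : ℕ) (γ : Set ℕ) : Set ℕ := {l | a + l ∈ γ}

/-! ## section 2: lists -/

open Classical in
/-- `List_s(z,γ)` with respect to `s_0`: words of `W_s` whose `s_0`-letters at the positions
`j ∈ γ` are `ρ N_{s0}`-close to the corresponding chunk of `z`. -/
noncomputable def Lst (τ : Tau) (s0 s : ℕ) (z : ℕ → Bool) (γ : Set ℕ) : Finset (W s) :=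
  univ.filter (fun w => ∀ j < NN s / NN s0, j ∈ γ →
    (ham (NN s0) (sh (j * NN s0) (nm τ s w)) (sh (j * NN s0) z) : ℝ) ≤ rho * NN s0)

/-- `∏_{j<m_s} n_j`, `n_j = |List_s(z_j,γ_j)|` -/
noncomputable def prodLst (τ : Tau) (s0 s : ℕ) (z : ℕ → Bool) (γ : Set ℕ) : ℝ :=
  ∏ j ∈ range (mm s), ((Lst τ s0 s (sh (j * NN s) z) (shS (j * (NN s / NN s0)) γ)).card : ℝ)

/-- bad pairs `Bd_{s0,s}` -/
def Bd (τ : Tau) (s0 s : ℕ) (z : ℕ → Bool) (γ : Set ℕ) : Prop :=
  prodLst τ s0 s z γ ≤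
    KK s * Real.exp (-3 * ((NN (s + 1) / NN s0 : ℕ) : ℝ)) / (NN (s + 1) : ℝ) ^ 3

/-- `Z_s(l) = (1/K_s) Σ_{w,w'} exp(-l ham(w,w'))` -/
noncomputable def Z (τ : Tau) (s : ℕ) (l : ℝ) : ℝ :=
  (1 / (KK s : ℝ)) * ∑ w : W s, ∑ w' : W s,
    Real.exp (-l * (ham (NN s) (nm τ s w) (nm τ s w') : ℝ))

/-- extension of a finite word by `false` -/
def ext {N : ℕ} (z : Fin N → Bool) : ℕ → Bool := fun i => if h : i < N then z ⟨i, h⟩ else false

/-- a (sub)probability vector on `{0,1}^N` -/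
def IsLaw {N : ℕ} (p : (Fin N → Bool) → ℝ) : Prop := (∀ z, 0 ≤ p z) ∧ ∑ z, p z ≤ 1

open Classical in
/-- the `p`-mass of `{z : ∃ γ, (z,γ) ∈ Bd_{s0,s}, u ∈ List_{s+1}(z,γ)}` -/
noncomputable def badMass (τ : Tau) (s0 s : ℕ) (p : (Fin (NN (s + 1)) → Bool) → ℝ)
    (u : W (s + 1)) : ℝ :=
  ∑ z ∈ univ.filter (fun z : Fin (NN (s + 1)) → Bool =>
    ∃ γ : Set ℕ, Bd τ s0 s (ext z) γ ∧ u ∈ Lst τ s0 (s + 1) (ext z) γ), p z

/-! ## section 3: the conclusion of THEOREM COMB -/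

/-- conclusion of THEOREM COMB -/
structure CombGood (τ : Tau) (Lw : ∀ s, Finset ((Fin (NN (s + 1)) → Bool) → ℝ)) : Prop where
  bal : ∀ s, Balanced (τ s)
  B : ∀ s, Z τ (s + 1) (lam (s + 1)) ≤ 1 + 4 * Z τ s (lam (s + 1)) ^ (mm s) / KK s
  P1 : ∀ s0 s, s0 ≤ s → ∀ (z : ℕ → Bool) (γ : Set ℕ),
    ((Lst τ s0 (s + 1) z γ).card : ℝ) ≤ 30 * prodLst τ s0 s z γ / KK s + 10 * NN (s + 1)
  P2 : ∀ s0 s, s0 ≤ s → ∀ p ∈ Lw s,
    (Nat.card {u : W (s + 1) //
      1 / ((NN (s + 1) : ℝ) ^ 2 * KK (s + 1)) ≤ badMass τ s0 s p u} : ℝ)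
      < (KK (s + 1) : ℝ) / NN (s + 1)

/-- THEOREM COMB as a Prop (proved in R133/Comb.lean) -/
def StComb : Prop :=
  ∀ Lw : ∀ s, Finset ((Fin (NN (s + 1)) → Bool) → ℝ),
    (∀ s, ∀ p ∈ Lw s, IsLaw p) →
    (∀ s, ((Lw s).card : ℝ) ≤ Real.exp (Real.exp (hh (s + 1) * NN (s + 1) / 2))) →
    ∃ τ : Tau, CombGood τ Lw

/-- CONSEQUENCE of (B) (proved in R133/CombZeta.lean) -/
def StZeta : Prop :=
  ∀ τ : Tau, (∀ s, Z τ (s + 1) (lam (s + 1)) ≤ 1 + 4 * Z τ s (lam (s + 1)) ^ (mm s) / KK s) →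
    ∀ s, Real.log (Z τ s (lam s)) ≤ 0.01 * Real.log (KK s)

end Crest.Agent.R133
private theorem rz_bde4dc9a64 : type_of% @_root_.Crest.Agent.R133.KK.eq_def := @_root_.Crest.Agent.R133.KK.eq_def -- L29
private theorem rz_148b43c867 : type_of% @_root_.Crest.Agent.R133.KK.eq_1 := @_root_.Crest.Agent.R133.KK.eq_1 -- L29
private theorem rz_48d85de415 : type_of% @_root_.Crest.Agent.R133.NN.eq_def := @_root_.Crest.Agent.R133.NN.eq_def -- L24
private theorem rz_101b980a4a : type_of% @_root_.Crest.Agent.R133.NN.eq_1 := @_root_.Crest.Agent.R133.NN.eq_1 -- L24
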