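import Mathlib
import Crest.Agent.R133.CombBasic

-- ▼ part R133/CombPair
section

/-! # Row 133, section 3: the pair estimate for (B) -/

set_option autoImplicit false

open Finset

namespace Crest.Agent.R133.Comb

variable {B : Type*} [Fintype B] [DecidableEq B]

/-- number of permutations with two prescribed values does not depend on the values -/
lemma card_perm_pair_eq (u u' : B) {b b' d d' : B} (hb : b ≠ b') (hd : d ≠ d') :
    (univ.filter (fun π : Equiv.Perm B => π u = b ∧ π u' = b')).card =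
    (univ.filter (fun π : Equiv.Perm B => π u = d ∧ π u' = d')).card := by
  classical
  let ρ : Equiv.Perm B := Equiv.swap (Equiv.swap b d b') d' * Equiv.swap b d
  have hx : Equiv.swap b d b' ≠ d := by
    intro h
    have : Equiv.swap b d b' = Equiv.swap b d b := by rw [h, Equiv.swap_apply_left]
    exact hb ((Equiv.swap b d).injective this).symm
  have hρb : ρ b = d := by
    show Equiv.swap (Equiv.swap b d b') d' (Equiv.swap b d b) = d
    rw [Equiv.swap_apply_left]
    exact Equiv.swap_apply_of_ne_of_ne hx.symm hd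
  have hρb' : ρ b' = d' := by
    show Equiv.swap (Equiv.swap b d b') d' (Equiv.swap b d b') = d'
    rw [Equiv.swap_apply_left]
  refine card_bij' (fun π _ => ρ * π) (fun π _ => ρ⁻¹ * π) ?_ ?_ ?_ ?_
  · intro π hπ
    simp only [mem_filter, mem_univ, true_and] at hπ ⊢
    simp [hπ.1, hπ.2, hρb, hρb']
  · intro π hπ
    simp only [mem_filter, mem_univ, true_and] at hπ ⊢
    simp only [Equiv.Perm.mul_apply, hπ.1, hπ.2]
    constructor
    · rw [Equiv.Perm.inv_eq_iff_eq]; exact hρb.symm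
    · rw [Equiv.Perm.inv_eq_iff_eq]; exact hρb'.symm
  · intro π _; simp
  · intro π _; simp

/-- `c · U (U-1) = U!` -/
lemma card_perm_pair (u u' : B) (hu : u ≠ u') {b b' : B} (hb : b ≠ b') :
    (univ.filter (fun π : Equiv.Perm B => π u = b ∧ π u' = b')).card *
      (Fintype.card B * (Fintype.card B - 1)) = (Fintype.card B).factorial := by
  classical
  have h1 : (univ : Finset (Equiv.Perm B)).card =
      ∑ x ∈ (univ : Finset (B × B)).filter (fun x => x.1 ≠ x.2),
        (univ.filter (fun π : Equiv.Perm B => (π u, π u') = x)).card := by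
    apply card_eq_sum_card_fiberwise
    intro π _
    simp only [coe_filter, Set.mem_setOf_eq, mem_univ, true_and]
    intro h
    exact hu (π.injective h)
  have h2 : ∀ x ∈ (univ : Finset (B × B)).filter (fun x => x.1 ≠ x.2),
      (univ.filter (fun π : Equiv.Perm B => (π u, π u') = x)).card =
      (univ.filter (fun π : Equiv.Perm B => π u = b ∧ π u' = b')).card := by
    intro x hx
    simp only [mem_filter, mem_univ, true_and] at hx
    rw [← card_perm_pair_eq u u' hx hb]
    congr 1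
    ext π
    simp only [mem_filter, mem_univ, true_and]
    rw [Prod.ext_iff]
  rw [sum_congr rfl h2, sum_const, smul_eq_mul] at h1
  have h3 : ((univ : Finset (B × B)).filter (fun x => x.1 ≠ x.2)).card =
      Fintype.card B * (Fintype.card B - 1) := by
    have h4 : (univ : Finset (B × B)).filter (fun x => x.1 ≠ x.2) = (univ : Finset B).offDiag := by
      ext x; simp [mem_offDiag]
    rw [h4, offDiag_card, card_univ, Nat.mul_sub, mul_one]
  rw [card_univ, Fintype.card_perm, h3] at h1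
  rw [h1, mul_comm]

/-- average over permutations of a nonnegative function of two distinct places -/
lemma sum_perm_pair_le (u u' : B) (hu : u ≠ u') (F : B → B → ℝ) (hF : ∀ b b', 0 ≤ F b b') :
    (∑ π : Equiv.Perm B, F (π u) (π u')) * (Fintype.card B : ℝ) ^ 2 ≤
      2 * (Fintype.card B).factorial * ∑ b : B, ∑ b' : B, F b b' := by
  classical
  have hU : 2 ≤ Fintype.card B := by
    have : 1 < Fintype.card B := Fintype.one_lt_card_iff.mpr ⟨u, u', hu⟩
    omega
  -- split the sum over permutations according to the pair of values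
  have h1 : (∑ π : Equiv.Perm B, F (π u) (π u')) =
      ∑ x ∈ (univ : Finset (B × B)).filter (fun x => x.1 ≠ x.2),
        ∑ π ∈ univ.filter (fun π : Equiv.Perm B => (π u, π u') = x), F (π u) (π u') := by
    rw [sum_fiberwise_of_maps_to (s := (univ : Finset (Equiv.Perm B)))
      (t := (univ : Finset (B × B)).filter (fun x => x.1 ≠ x.2)) (g := fun π => (π u, π u'))]
    intro π _
    simp only [mem_filter, mem_univ, true_and]
    intro h
    exact hu (π.injective h)
  have h2 : ∀ x ∈ (univ : Finset (B × B)).filter (fun x => x.1 ≠ x.2),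
      (∑ π ∈ univ.filter (fun π : Equiv.Perm B => (π u, π u') = x), F (π u) (π u')) *
        (Fintype.card B : ℝ) ^ 2 ≤ 2 * (Fintype.card B).factorial * F x.1 x.2 := by
    intro x hx
    simp only [mem_filter, mem_univ, true_and] at hx
    have h3 : ∑ π ∈ univ.filter (fun π : Equiv.Perm B => (π u, π u') = x), F (π u) (π u') =
        (univ.filter (fun π : Equiv.Perm B => π u = x.1 ∧ π u' = x.2)).card * F x.1 x.2 := by
      have h4 : univ.filter (fun π : Equiv.Perm B => (π u, π u') = x) =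
          univ.filter (fun π : Equiv.Perm B => π u = x.1 ∧ π u' = x.2) := by
        ext π
        simp only [mem_filter, mem_univ, true_and]
        rw [Prod.ext_iff]
      rw [h4, ← nsmul_eq_mul, ← sum_const]
      apply sum_congr rfl
      intro π hπ
      simp only [mem_filter, mem_univ, true_and] at hπ
      rw [hπ.1, hπ.2]
    have h5 := card_perm_pair u u' hu hx
    set c := (univ.filter (fun π : Equiv.Perm B => π u = x.1 ∧ π u' = x.2)).card with hc
    rw [h3]
    have h6 : (c : ℝ) * (Fintype.card B : ℝ) ^ 2 ≤ 2 * (Fintype.card B).factorial := by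
      rw [← h5]
      push_cast
      rw [Nat.cast_sub (by omega)]
      have : (2 : ℝ) ≤ Fintype.card B := by exact_mod_cast hU
      have hc0 : (0 : ℝ) ≤ c := by positivity
      have : (Fintype.card B : ℝ) ^ 2 ≤ 2 * (Fintype.card B * (Fintype.card B - 1)) := by nlinarith
      push_cast
      nlinarith
    calc (c : ℝ) * F x.1 x.2 * (Fintype.card B : ℝ) ^ 2
        = ((c : ℝ) * (Fintype.card B : ℝ) ^ 2) * F x.1 x.2 := by ring
      _ ≤ _ := mul_le_mul_of_nonneg_right h6 (hF _ _)
  rw [h1, sum_mul]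
  refine (sum_le_sum h2).trans ?_
  rw [← mul_sum]
  apply mul_le_mul_of_nonneg_left _ (by positivity)
  calc ∑ x ∈ (univ : Finset (B × B)).filter (fun x => x.1 ≠ x.2), F x.1 x.2
      ≤ ∑ x : B × B, F x.1 x.2 :=
        sum_le_sum_of_subset_of_nonneg (filter_subset _ _) (fun _ _ _ => hF _ _)
    _ = ∑ b : B, ∑ b' : B, F b b' := by
        rw [← univ_product_univ, sum_product]

variable {A : Type*} [Fintype A] [DecidableEq A]

/-- balanced sums -/
lemma sum_balanced (β : B → A) (K U : ℕ) (hβ : ∀ a, (univ.filter (fun b => β b = a)).card * K = U)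
    (f : A → ℝ) : (∑ b, f (β b)) * K = U * ∑ a, f a := by
  classical
  have h1 : ∑ b, f (β b) = ∑ a, ∑ b ∈ univ.filter (fun b => β b = a), f (β b) := by
    rw [sum_fiberwise]
  rw [h1, sum_mul, mul_sum]
  apply sum_congr rfl
  intro a _
  have : ∑ b ∈ univ.filter (fun b => β b = a), f (β b) =
      (univ.filter (fun b => β b = a)).card * f a := by
    rw [← nsmul_eq_mul, ← sum_const]
    apply sum_congr rfl
    intro b hb
    simp only [mem_filter, mem_univ, true_and] at hb
    rw [hb]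
  rw [this]
  have h2 : ((univ.filter (fun b => β b = a)).card : ℝ) * K = U := by exact_mod_cast hβ a
  calc _ = (((univ.filter (fun b => β b = a)).card : ℝ) * K) * f a := by ring
    _ = _ := by rw [h2]

/-- (B), summed form: `Σ_π Σ_{u ≠ u'} g(u,u') e(βπu,βπu') ≤ U! (2/K²) (Σ g)(Σ e)` -/
lemma sum_perm_offdiag_le (β : B → A) (K : ℕ) (hK : 0 < K)
    (hβ : ∀ a, (univ.filter (fun b => β b = a)).card * K = Fintype.card B)
    (g : B → B → ℝ) (hg : ∀ u u', 0 ≤ g u u') (e : A → A → ℝ) (he : ∀ a a', 0 ≤ e a a')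
    (hB : 0 < Fintype.card B) :
    ∑ π : Equiv.Perm B, ∑ x ∈ (univ : Finset B).offDiag, g x.1 x.2 * e (β (π x.1)) (β (π x.2)) ≤
      (Fintype.card B).factorial * (2 / (K : ℝ) ^ 2) * (∑ u, ∑ u', g u u') * ∑ a, ∑ a', e a a' := by
  classical
  have hU : (0 : ℝ) < Fintype.card B := by exact_mod_cast hB
  have hKr : (0 : ℝ) < K := by exact_mod_cast hK
  rw [sum_comm]
  set E := ∑ a, ∑ a', e a a' with hE
  have hE0 : 0 ≤ E := sum_nonneg fun _ _ => sum_nonneg fun _ _ => he _ _
  have hee : (∑ b : B, ∑ b' : B, e (β b) (β b')) * K ^ 2 = (Fintype.card B : ℝ) ^ 2 * E := by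
    have h1 : ∀ b : B, (∑ b' : B, e (β b) (β b')) * K = Fintype.card B * ∑ a', e (β b) a' :=
      fun b => sum_balanced β K _ hβ (fun a' => e (β b) a')
    have h2 : (∑ b : B, ∑ a', e (β b) a') * K = Fintype.card B * E :=
      sum_balanced β K _ hβ (fun a => ∑ a', e a a')
    calc (∑ b : B, ∑ b' : B, e (β b) (β b')) * (K : ℝ) ^ 2
        = (∑ b : B, (∑ b' : B, e (β b) (β b')) * K) * K := by rw [← sum_mul]; ring
      _ = (Fintype.card B : ℝ) * ((∑ b : B, ∑ a', e (β b) a') * K) := by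
          rw [sum_congr rfl (fun b _ => h1 b), ← mul_sum]; ring
      _ = _ := by rw [h2]; ring
  have key : ∀ x ∈ (univ : Finset B).offDiag,
      ∑ π : Equiv.Perm B, g x.1 x.2 * e (β (π x.1)) (β (π x.2)) ≤
        g x.1 x.2 * ((Fintype.card B).factorial * (2 / (K : ℝ) ^ 2) * E) := by
    intro x hx
    rw [mem_offDiag] at hx
    rw [← mul_sum]
    apply mul_le_mul_of_nonneg_left _ (hg _ _)
    have h1 := sum_perm_pair_le x.1 x.2 hx.2.2 (fun b b' => e (β b) (β b')) (fun _ _ => he _ _)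
    have h2 : (∑ π : Equiv.Perm B, e (β (π x.1)) (β (π x.2))) * (Fintype.card B : ℝ) ^ 2 * K ^ 2 ≤
        2 * (Fintype.card B).factorial * ((Fintype.card B : ℝ) ^ 2 * E) := by
      rw [← hee]
      calc _ ≤ (2 * (Fintype.card B).factorial * ∑ b : B, ∑ b' : B, e (β b) (β b')) * (K : ℝ) ^ 2 :=
            mul_le_mul_of_nonneg_right h1 (by positivity)
        _ = _ := by ring
    have h3 : (0 : ℝ) < (Fintype.card B : ℝ) ^ 2 * K ^ 2 := by positivity
    rw [← mul_le_mul_iff_left₀ h3]
    calc _ = (∑ π : Equiv.Perm B, e (β (π x.1)) (β (π x.2))) * (Fintype.card B : ℝ) ^ 2 * K ^ 2 := by ring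
      _ ≤ _ := h2
      _ = _ := by field_simp
  refine (sum_le_sum key).trans ?_
  rw [← sum_mul]
  have h4 : ∑ x ∈ (univ : Finset B).offDiag, g x.1 x.2 ≤ ∑ u, ∑ u', g u u' := by
    calc _ ≤ ∑ x ∈ (univ : Finset B) ×ˢ (univ : Finset B), g x.1 x.2 :=
          sum_le_sum_of_subset_of_nonneg (fun x hx => by simp) (fun _ _ _ => hg _ _)
      _ = _ := by rw [sum_product]
  calc (∑ x ∈ (univ : Finset B).offDiag, g x.1 x.2) * ((Fintype.card B).factorial * (2 / (K : ℝ) ^ 2) * E)
      ≤ (∑ u, ∑ u', g u u') * ((Fintype.card B).factorial * (2 / (K : ℝ) ^ 2) * E) :=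
        mul_le_mul_of_nonneg_right h4 (by positivity)
    _ = _ := by ring

/-- Markov for finite averages -/
lemma card_markov {ι : Type*} [Fintype ι] (f : ι → ℝ) (hf : ∀ i, 0 ≤ f i) (c : ℝ) (hc : 0 < c)
    (h : ∑ i, f i ≤ Fintype.card ι * c) :
    (((univ.filter (fun i => 2 * c < f i)).card : ℕ) : ℝ) ≤ Fintype.card ι / 2 := by
  classical
  have h1 : ((univ.filter (fun i => 2 * c < f i)).card : ℝ) * (2 * c) ≤ ∑ i, f i := by
    rw [← nsmul_eq_mul, ← sum_const]
    calc ∑ _i ∈ univ.filter (fun i => 2 * c < f i), (2 * c)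
        ≤ ∑ i ∈ univ.filter (fun i => 2 * c < f i), f i := by
          apply sum_le_sum
          intro i hi
          simp only [mem_filter, mem_univ, true_and] at hi
          exact hi.le
      _ ≤ _ := sum_le_sum_of_subset_of_nonneg (filter_subset _ _) (fun _ _ _ => hf _)
  have h2 := h1.trans h
  have h3 : ((univ.filter (fun i => 2 * c < f i)).card : ℝ) * 2 ≤ Fintype.card ι := by
    have : ((univ.filter (fun i => 2 * c < f i)).card : ℝ) * 2 * c ≤ Fintype.card ι * c := by
      linarith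
    exact le_of_mul_le_mul_right this hc
  linarith

end Crest.Agent.R133.Comb
end

-- ▼ part R133/CombStep
section

/-! # Row 133, section 3: one stage, concrete form -/

set_option autoImplicit false

open Finset

namespace Crest.Agent.R133

/-- the coordinates of a word of level `s+1` -/
def co {s : ℕ} (u : W (s + 1)) : Fin (mm s - 1) → W s := u

/-- first coordinate -/
def fst (s : ℕ) (u : W (s + 1)) : W s := co u ⟨0, by have := mm_ge s; omega⟩

lemma fst_balanced (s : ℕ) : Balanced (fst s) := by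
  classical
  have h0 : 0 < mm s - 1 := by have := mm_ge s; omega
  intro t
  have key : ∀ t' : W s, (univ.filter (fun u => fst s u = t')).card =
      (univ.filter (fun u => fst s u = t)).card := by
    intro t'
    refine card_bij' (fun u _ => (Function.update (co u) ⟨0, h0⟩ t : Fin (mm s - 1) → W s))
      (fun u _ => (Function.update (co u) ⟨0, h0⟩ t' : Fin (mm s - 1) → W s)) ?_ ?_ ?_ ?_
    · intro u hu
      refine mem_filter.mpr ⟨mem_univ _, ?_⟩
      show Function.update (co u) ⟨0, h0⟩ t ⟨0, h0⟩ = t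
      simp
    · intro u hu
      refine mem_filter.mpr ⟨mem_univ _, ?_⟩
      show Function.update (co u) ⟨0, h0⟩ t' ⟨0, h0⟩ = t'
      simp
    · intro u hu
      simp only [mem_filter, mem_univ, true_and] at hu
      show Function.update (Function.update (co u) ⟨0, h0⟩ t) ⟨0, h0⟩ t' = co u
      rw [Function.update_idem]
      conv_rhs => rw [← Function.update_eq_self ⟨0, h0⟩ (co u)]
      congr 1
      exact hu.symm
    · intro u hu
      simp only [mem_filter, mem_univ, true_and] at hu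
      show Function.update (Function.update (co u) ⟨0, h0⟩ t') ⟨0, h0⟩ t = co u
      rw [Function.update_idem]
      conv_rhs => rw [← Function.update_eq_self ⟨0, h0⟩ (co u)]
      congr 1
      exact hu.symm
  have h1 : (univ : Finset (W (s + 1))).card =
      ∑ t' : W s, (univ.filter (fun u => fst s u = t')).card :=
    card_eq_sum_card_fiberwise (fun u _ => mem_univ _)
  rw [sum_congr rfl (fun t' _ => key t'), sum_const, card_univ, card_univ, card_W, card_W,
    smul_eq_mul] at h1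
  rw [h1, mul_comm]

/-- update of the choice sequence at level `s` -/
noncomputable def upd (τ : Tau) (s : ℕ) (σ : W (s + 1) → W s) : Tau := Function.update τ s σ

lemma upd_self (τ : Tau) (s : ℕ) (σ : W (s + 1) → W s) : upd τ s σ s = σ := by
  unfold upd; simp

lemma upd_lt (τ : Tau) (s : ℕ) (σ : W (s + 1) → W s) (i : ℕ) (h : i < s) : upd τ s σ i = τ i := by
  unfold upd; exact Function.update_of_ne (by omega) _ _

lemma blk_upd_lt (τ : Tau) (s : ℕ) (σ : W (s + 1) → W s) (u : W (s + 1)) (j : ℕ)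
    (h : j < mm s - 1) : blk (upd τ s σ) s u j = co u ⟨j, h⟩ := blk_lt _ _ _ _ h

lemma blk_upd_last (τ : Tau) (s : ℕ) (σ : W (s + 1) → W s) (u : W (s + 1)) :
    blk (upd τ s σ) s u (mm s - 1) = σ u := by
  rw [blk_last _ _ _ _ le_rfl, upd_self]

lemma range_mm (s : ℕ) : range (mm s) = insert (mm s - 1) (range (mm s - 1)) := by
  have := mm_ge s
  conv_lhs => rw [show mm s = (mm s - 1) + 1 by omega]
  exact range_add_one

/-- the candidates: `u_j ∈ Lst_s(z_j,γ_j)` for `j < m-1` -/
noncomputable def cand (τ : Tau) (s0 s : ℕ) (z : ℕ → Bool) (γ : Set ℕ) : Finset (W (s + 1)) :=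
  (Fintype.piFinset (fun j : Fin (mm s - 1) =>
    Lst τ s0 s (sh (j * NN s) z) (shS (j * (NN s / NN s0)) γ)) : Finset (Fin (mm s - 1) → W s))

/-- the last list -/
noncomputable def lastL (τ : Tau) (s0 s : ℕ) (z : ℕ → Bool) (γ : Set ℕ) : Finset (W s) :=
  Lst τ s0 s (sh ((mm s - 1) * NN s) z) (shS ((mm s - 1) * (NN s / NN s0)) γ)

lemma mem_cand {τ : Tau} {s0 s : ℕ} {z : ℕ → Bool} {γ : Set ℕ} {u : W (s + 1)} :
    u ∈ cand τ s0 s z γ ↔ ∀ j : Fin (mm s - 1), co u j ∈
      Lst τ s0 s (sh (j * NN s) z) (shS (j * (NN s / NN s0)) γ) := by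
  unfold cand co
  exact Fintype.mem_piFinset

lemma card_cand_mul (τ : Tau) (s0 s : ℕ) (z : ℕ → Bool) (γ : Set ℕ) :
    ((cand τ s0 s z γ).card : ℝ) * ((lastL τ s0 s z γ).card : ℝ) = prodLst τ s0 s z γ := by
  unfold prodLst
  rw [range_mm, prod_insert (by simp), mul_comm]
  congr 1
  unfold cand
  have h1 : (Fintype.piFinset (fun j : Fin (mm s - 1) =>
    Lst τ s0 s (sh (j * NN s) z) (shS (j * (NN s / NN s0)) γ))).card =
    ∏ j : Fin (mm s - 1), (Lst τ s0 s (sh (j * NN s) z) (shS (j * (NN s / NN s0)) γ)).card :=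
    Fintype.card_piFinset _
  have h2 : ∏ j : Fin (mm s - 1), (Lst τ s0 s (sh (j * NN s) z) (shS (j * (NN s / NN s0)) γ)).card =
      ∏ j ∈ range (mm s - 1), (Lst τ s0 s (sh (j * NN s) z) (shS (j * (NN s / NN s0)) γ)).card :=
    Fin.prod_univ_eq_prod_range
      (fun j => (Lst τ s0 s (sh (j * NN s) z) (shS (j * (NN s / NN s0)) γ)).card) (mm s - 1)
  rw [h2] at h1
  have h3 := congrArg (Nat.cast : ℕ → ℝ) h1
  rw [Nat.cast_prod] at h3
  exact h3

lemma mem_Lst_upd {τ : Tau} {s0 s : ℕ} (h : s0 ≤ s) {σ : W (s + 1) → W s} {z : ℕ → Bool}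
    {γ : Set ℕ} {u : W (s + 1)} :
    u ∈ Lst (upd τ s σ) s0 (s + 1) z γ ↔ u ∈ cand τ s0 s z γ ∧ σ u ∈ lastL τ s0 s z γ := by
  have hL : ∀ z γ, Lst (upd τ s σ) s0 s z γ = Lst τ s0 s z γ := fun z γ =>
    Lst_congrT (fun i hi => upd_lt τ s σ i hi) s0 z γ
  have hm := mm_ge s
  rw [mem_Lst_succ h, mem_cand]
  constructor
  · intro H
    refine ⟨fun j => ?_, ?_⟩
    · have := H j (by have := j.2; omega)
      rwa [hL, blk_upd_lt _ _ _ _ _ j.2] at this
    · have := H (mm s - 1) (by omega)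
      rwa [hL, blk_upd_last] at this
  · rintro ⟨H1, H2⟩ j hj
    rw [hL]
    by_cases hj' : j < mm s - 1
    · rw [blk_upd_lt _ _ _ _ _ hj']
      exact H1 ⟨j, hj'⟩
    · have : j = mm s - 1 := by omega
      subst this
      rw [blk_upd_last]
      exact H2

lemma card_Lst_upd {τ : Tau} {s0 s : ℕ} (h : s0 ≤ s) (σ : W (s + 1) → W s) (z : ℕ → Bool)
    (γ : Set ℕ) :
    (Lst (upd τ s σ) s0 (s + 1) z γ).card =
      ((cand τ s0 s z γ).filter (fun u => σ u ∈ lastL τ s0 s z γ)).card := by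
  congr 1
  ext u
  rw [mem_Lst_upd h, mem_filter]

lemma prodLst_upd (τ : Tau) (s0 s : ℕ) (σ : W (s + 1) → W s) (z : ℕ → Bool) (γ : Set ℕ) :
    prodLst (upd τ s σ) s0 s z γ = prodLst τ s0 s z γ :=
  prodLst_congrT (fun i hi => upd_lt τ s σ i hi) s0 z γ

lemma Bd_upd (τ : Tau) (s0 s : ℕ) (σ : W (s + 1) → W s) (z : ℕ → Bool) (γ : Set ℕ) :
    Bd (upd τ s σ) s0 s z γ ↔ Bd τ s0 s z γ :=
  Bd_congrT (fun i hi => upd_lt τ s σ i hi) s0 z γ

/-! ## (B) -/

/-- `e(t,t') = exp(-l ham(t,t'))` -/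
noncomputable def ek (τ : Tau) (s : ℕ) (l : ℝ) (t t' : W s) : ℝ :=
  Real.exp (-l * (ham (NN s) (nm τ s t) (nm τ s t') : ℝ))

/-- the product over the free coordinates -/
noncomputable def gk (τ : Tau) (s : ℕ) (l : ℝ) (u u' : W (s + 1)) : ℝ :=
  ∏ j : Fin (mm s - 1), ek τ s l (co u j) (co u' j)

lemma ek_pos (τ : Tau) (s : ℕ) (l : ℝ) (t t' : W s) : 0 < ek τ s l t t' := Real.exp_pos _

lemma gk_pos (τ : Tau) (s : ℕ) (l : ℝ) (u u' : W (s + 1)) : 0 < gk τ s l u u' :=
  prod_pos fun _ _ => ek_pos _ _ _ _ _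

lemma sum_ek (τ : Tau) (s : ℕ) (l : ℝ) : ∑ t, ∑ t', ek τ s l t t' = KK s * Z τ s l := by
  unfold Z ek
  have : (KK s : ℝ) ≠ 0 := by exact_mod_cast (KK_pos s).ne'
  field_simp

lemma sum_gk (τ : Tau) (s : ℕ) (l : ℝ) :
    ∑ u, ∑ u', gk τ s l u u' = (KK s * Z τ s l) ^ (mm s - 1) := by
  rw [← sum_ek]
  have h1 : ∑ u : W (s + 1), ∑ u' : W (s + 1), gk τ s l u u' =
      ∑ u : Fin (mm s - 1) → W s, ∑ u' : Fin (mm s - 1) → W s,
        ∏ j : Fin (mm s - 1), ek τ s l (u j) (u' j) := rfl
  rw [h1]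
  have h2 : ∀ u : Fin (mm s - 1) → W s, ∑ u' : Fin (mm s - 1) → W s,
        ∏ j : Fin (mm s - 1), ek τ s l (u j) (u' j) =
        ∏ j : Fin (mm s - 1), ∑ t', ek τ s l (u j) t' := by
    intro u
    rw [Fintype.prod_sum]
  rw [sum_congr rfl (fun u _ => h2 u)]
  rw [← Fintype.prod_sum (fun (_ : Fin (mm s - 1)) (t : W s) => ∑ t', ek τ s l t t')]
  simp

lemma ham_upd (τ : Tau) (s : ℕ) (σ : W (s + 1) → W s) (u u' : W (s + 1)) :
    ham (NN (s + 1)) (nm (upd τ s σ) (s + 1) u) (nm (upd τ s σ) (s + 1) u') =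
      (∑ j : Fin (mm s - 1), ham (NN s) (nm τ s (co u j)) (nm τ s (co u' j))) +
        ham (NN s) (nm τ s (σ u)) (nm τ s (σ u')) := by
  have hnm : nm (upd τ s σ) s = nm τ s := nm_congr (fun i hi => upd_lt τ s σ i hi)
  rw [ham_nm_succ, range_mm, sum_insert (by simp), hnm, blk_upd_last, blk_upd_last, add_comm]
  congr 1
  rw [← Fin.sum_univ_eq_sum_range
    (fun j => ham (NN s) (nm τ s (blk (upd τ s σ) s u j)) (nm τ s (blk (upd τ s σ) s u' j)))]
  apply sum_congr rfl
  intro j _
  rw [blk_upd_lt _ _ _ _ _ j.2, blk_upd_lt _ _ _ _ _ j.2]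

lemma exp_ham_upd (τ : Tau) (s : ℕ) (l : ℝ) (σ : W (s + 1) → W s) (u u' : W (s + 1)) :
    Real.exp (-l * (ham (NN (s + 1)) (nm (upd τ s σ) (s + 1) u)
      (nm (upd τ s σ) (s + 1) u') : ℝ)) = gk τ s l u u' * ek τ s l (σ u) (σ u') := by
  unfold gk ek
  rw [ham_upd, ← Real.exp_sum, ← Real.exp_add]
  congr 1
  push_cast
  rw [mul_add, mul_sum]

lemma Z_upd (τ : Tau) (s : ℕ) (l : ℝ) (σ : W (s + 1) → W s) :
    Z (upd τ s σ) (s + 1) l = 1 + (1 / (KK (s + 1) : ℝ)) *
      ∑ x ∈ (univ : Finset (W (s + 1))).offDiag, gk τ s l x.1 x.2 * ek τ s l (σ x.1) (σ x.2) := by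
  have hU : (KK (s + 1) : ℝ) ≠ 0 := by exact_mod_cast (KK_pos (s + 1)).ne'
  unfold Z
  simp only [exp_ham_upd]
  rw [← sum_product', ← diag_union_offDiag, sum_union (disjoint_diag_offDiag _), mul_add]
  congr 1
  rw [sum_diag]
  have : ∀ u : W (s + 1), gk τ s l u u * ek τ s l (σ u) (σ u) = 1 := by
    intro u
    unfold gk ek
    simp [ham_self]
  rw [sum_congr rfl (fun u _ => this u), sum_const, card_univ, card_W]
  field_simp
  simp

/-- (B) fails for at most half of the permutations -/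
lemma badB (τ : Tau) (s : ℕ) (l : ℝ) :
    (((univ.filter (fun π : Equiv.Perm (W (s + 1)) =>
      ¬ (Z (upd τ s (fun u => fst s (π u))) (s + 1) l ≤ 1 + 4 * Z τ s l ^ (mm s) / KK s))).card : ℕ) : ℝ)
      ≤ (Fintype.card (Equiv.Perm (W (s + 1))) : ℝ) / 2 := by
  classical
  have hK : (0 : ℝ) < KK s := by exact_mod_cast KK_pos s
  have hU : (0 : ℝ) < KK (s + 1) := by exact_mod_cast KK_pos (s + 1)
  have hZ : 0 < Z τ s l := lt_of_lt_of_le one_pos (Z_ge_one τ s l)
  have hm := mm_ge s
  set f : Equiv.Perm (W (s + 1)) → ℝ := fun π =>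
    Z (upd τ s (fun u => fst s (π u))) (s + 1) l - 1 with hf
  set c : ℝ := 2 * Z τ s l ^ (mm s) / KK s with hc
  have hc0 : 0 < c := by positivity
  have h1 := Comb.sum_perm_offdiag_le (fst s) (KK s) (KK_pos s)
    (by rw [card_W]; exact fst_balanced s) (gk τ s l) (fun _ _ => (gk_pos _ _ _ _ _).le)
    (ek τ s l) (fun _ _ => (ek_pos _ _ _ _ _).le) (by rw [card_W]; exact KK_pos _)
  rw [sum_gk, sum_ek, card_W] at h1
  have h2 : ∑ π, f π ≤ Fintype.card (Equiv.Perm (W (s + 1))) * c := by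
    rw [Fintype.card_perm, card_W]
    have h3 : ∑ π, f π = (1 / (KK (s + 1) : ℝ)) * ∑ π : Equiv.Perm (W (s + 1)),
        ∑ x ∈ (univ : Finset (W (s + 1))).offDiag,
          gk τ s l x.1 x.2 * ek τ s l (fst s (π x.1)) (fst s (π x.2)) := by
      rw [mul_sum]
      apply sum_congr rfl
      intro π _
      rw [hf]
      simp only
      rw [Z_upd]
      ring
    rw [h3]
    calc _ ≤ (1 / (KK (s + 1) : ℝ)) * (((KK (s + 1)).factorial : ℝ) * (2 / (KK s : ℝ) ^ 2) *
          (KK s * Z τ s l) ^ (mm s - 1) * (KK s * Z τ s l)) :=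
          mul_le_mul_of_nonneg_left h1 (by positivity)
      _ = ((KK (s + 1)).factorial : ℝ) * c := by
          have h4 : (KK (s + 1) : ℝ) = (KK s : ℝ) ^ (mm s - 1) := by
            rw [KK_succ]; push_cast; rfl
          obtain ⟨k, hk⟩ : ∃ k, mm s = k + 1 := ⟨mm s - 1, by omega⟩
          rw [hc, h4, hk]
          simp only [Nat.add_sub_cancel]
          rw [mul_pow]
          field_simp
          ring
  have h3 := Comb.card_markov f (fun π => by
    rw [hf]; simp only; have := Z_ge_one (upd τ s (fun u => fst s (π u))) (s + 1) l; linarith)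
    c hc0 h2
  refine le_trans ?_ h3
  have h4 : (univ.filter (fun π : Equiv.Perm (W (s + 1)) =>
      ¬ (Z (upd τ s (fun u => fst s (π u))) (s + 1) l ≤ 1 + 4 * Z τ s l ^ (mm s) / KK s))) ⊆
      univ.filter (fun π => 2 * c < f π) := by
    intro π hπ
    simp only [mem_filter, mem_univ, true_and, not_le] at hπ ⊢
    rw [hf, hc]
    simp only
    have : 2 * (2 * Z τ s l ^ mm s / (KK s : ℝ)) = 4 * Z τ s l ^ (mm s) / KK s := by ring
    rw [this]
    linarith
  exact_mod_cast card_le_card h4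

end Crest.Agent.R133
end

-- ▼ part R133/CombPerm
section

/-!
Row 133 (S0182), section 3: probability-free permutation estimates (helper943).
-/

namespace Crest.Agent.R133.CombPerm

open Finset

variable {α B : Type*} [Fintype α] [DecidableEq α] [Fintype B] [DecidableEq B]

/-- number of permutations fixing every point of `S`. -/
theorem card_fix (S : Finset α) :
    Fintype.card {π : Equiv.Perm α // ∀ a, a ∈ S → π a = a} = (Fintype.card α - S.card).factorial := by
  have e := Equiv.Perm.subtypeEquivSubtypePerm (fun a : α => a ∉ S)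
  have h1 : Fintype.card {π : Equiv.Perm α // ∀ a, a ∈ S → π a = a}
      = Fintype.card {f : Equiv.Perm α // ∀ a, ¬ (a ∉ S) → f a = a} := by
    apply Fintype.card_congr
    exact Equiv.subtypeEquivRight (fun f => by simp)
  rw [h1, ← Fintype.card_congr e, Fintype.card_perm]
  congr 1
  rw [Fintype.card_subtype_compl]
  simp

/-- number of permutations with a prescribed restriction to `S`. -/
theorem card_restr (S : Finset α) (r : α → α) :
    (univ.filter (fun π : Equiv.Perm α => ∀ a ∈ S, π a = r a)).card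
      ≤ (Fintype.card α - S.card).factorial := by
  classical
  rcases (univ.filter (fun π : Equiv.Perm α => ∀ a ∈ S, π a = r a)).eq_empty_or_nonempty with h | ⟨π₀, h₀⟩
  · simp [h]
  · rw [← card_fix S]
    rw [Fintype.card_subtype]
    apply Finset.card_le_card_of_injOn (fun π => π.trans π₀.symm)
    · intro π hπ
      simp only [coe_filter, mem_univ, true_and, Set.mem_ofPred_eq] at hπ ⊢
      simp only [mem_filter, mem_univ, true_and] at h₀
      intro a ha
      simp [hπ a ha, ← h₀ a ha]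
    · intro π _ π' _ h
      have := congrArg (fun x => x.trans π₀) h
      simpa [Equiv.trans_assoc] using this

/-- `#{π : ∀ u ∈ S, π u ∈ G u} ≤ (∏_{u∈S} |G u|) (U-|S|)!`. -/
theorem card_le_prod (S : Finset α) (G : α → Finset α) :
    (univ.filter (fun π : Equiv.Perm α => ∀ u ∈ S, π u ∈ G u)).card
      ≤ (∏ u ∈ S, (G u).card) * (Fintype.card α - S.card).factorial := by
  classical
  let f : Equiv.Perm α → (∀ a ∈ S, α) := fun π a _ => π a
  have hmap : ∀ π ∈ (univ.filter (fun π : Equiv.Perm α => ∀ u ∈ S, π u ∈ G u)), f π ∈ S.pi G := by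
    intro π hπ
    simp only [mem_filter, mem_univ, true_and] at hπ
    rw [Finset.mem_pi]
    intro a ha
    exact hπ a ha
  have := Finset.card_le_mul_card_image_of_maps_to hmap
    ((Fintype.card α - S.card).factorial) (by
      intro g _
      let r : α → α := fun a => if h : a ∈ S then g a h else a
      refine le_trans (Finset.card_le_card ?_) (card_restr S r)
      intro π hπ
      simp only [mem_filter, mem_univ, true_and] at hπ ⊢
      intro a ha
      have := congrFun (congrFun hπ.2 a) ha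
      simp [r, ha, ← this, f])
  rw [Finset.card_pi] at this
  rw [mul_comm]
  exact this

/-- `(U/2)^k (U-k)! ≤ U!` for `2k ≤ U` (real form). -/
theorem fact_le (U k : ℕ) (h : 2 * k ≤ U) :
    ((U : ℝ) / 2) ^ k * ((U - k).factorial : ℝ) ≤ (U.factorial : ℝ) := by
  have h1 : (U + 1 - k) ^ k ≤ U.descFactorial k := Nat.pow_sub_le_descFactorial U k
  have h2 : (U - k).factorial * U.descFactorial k = U.factorial :=
    Nat.factorial_mul_descFactorial (by omega)
  have h3 : ((U : ℝ) / 2) ^ k ≤ ((U + 1 - k : ℕ) : ℝ) ^ k := by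
    apply pow_le_pow_left₀ (by positivity)
    have : (U : ℝ) ≤ 2 * ((U + 1 - k : ℕ) : ℝ) := by
      exact_mod_cast (by omega : U ≤ 2 * (U + 1 - k))
    linarith
  have h4 : ((U + 1 - k : ℕ) : ℝ) ^ k ≤ (U.descFactorial k : ℝ) := by exact_mod_cast h1
  calc ((U : ℝ) / 2) ^ k * ((U - k).factorial : ℝ)
      ≤ (U.descFactorial k : ℝ) * ((U - k).factorial : ℝ) := by
        apply mul_le_mul_of_nonneg_right (h3.trans h4) (by positivity)
    _ = (U.factorial : ℝ) := by rw [← h2]; push_cast; ring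

/-- Joint bound: for `|S| ≤ U/2`,
`#{π : ∀ u ∈ S, π u ∈ G u} ≤ U! ∏ 2|G u|/U`. -/
theorem card_le_real (S : Finset α) (G : α → Finset α) (hS : 2 * S.card ≤ Fintype.card α) :
    ((univ.filter (fun π : Equiv.Perm α => ∀ u ∈ S, π u ∈ G u)).card : ℝ)
      ≤ (Fintype.card α).factorial * ∏ u ∈ S, (2 * (G u).card / (Fintype.card α : ℝ)) := by
  have h1 : ((univ.filter (fun π : Equiv.Perm α => ∀ u ∈ S, π u ∈ G u)).card : ℝ)
      ≤ (∏ u ∈ S, ((G u).card : ℝ)) * (Fintype.card α - S.card).factorial := by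
    exact_mod_cast card_le_prod S G
  refine h1.trans ?_
  rcases Nat.eq_zero_or_pos (Fintype.card α) with h0 | h0
  · have : S = ∅ := by
      rw [← Finset.card_eq_zero]; omega
    subst this
    simp [h0]
  · have hU : (0 : ℝ) < Fintype.card α := by exact_mod_cast h0
    have h2 : ∏ u ∈ S, (2 * (G u).card / (Fintype.card α : ℝ))
        = (∏ u ∈ S, ((G u).card : ℝ)) / ((Fintype.card α : ℝ) / 2) ^ S.card := by
      rw [← Finset.prod_const, ← Finset.prod_div_distrib]
      apply Finset.prod_congr rfl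
      intro u _
      field_simp
    rw [h2, mul_div_assoc', le_div_iff₀ (by positivity)]
    have h3 := fact_le (Fintype.card α) S.card hS
    have h4 : (0 : ℝ) ≤ ∏ u ∈ S, ((G u).card : ℝ) := by positivity
    calc (∏ u ∈ S, ((G u).card : ℝ)) * (Fintype.card α - S.card).factorial * ((Fintype.card α : ℝ) / 2) ^ S.card
        = (∏ u ∈ S, ((G u).card : ℝ)) * (((Fintype.card α : ℝ) / 2) ^ S.card * (Fintype.card α - S.card).factorial) := by ring
      _ ≤ (∏ u ∈ S, ((G u).card : ℝ)) * ((Fintype.card α).factorial : ℝ) :=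
          mul_le_mul_of_nonneg_left h3 h4
      _ = _ := by ring

/-- elementary symmetric sums: `∑_{|S|=k} ∏_{u∈S} x u ≤ (∑ x)^k / k!`. -/
theorem esymm_le {ι : Type*} [DecidableEq ι] (s : Finset ι) (x : ι → ℝ) (hx : ∀ i, 0 ≤ x i) (k : ℕ) :
    ∑ S ∈ s.powersetCard k, ∏ u ∈ S, x u ≤ (∑ u ∈ s, x u) ^ k / (k.factorial : ℝ) := by
  induction s using Finset.induction_on generalizing k with
  | empty =>
    rcases k with _ | k
    · simp
    · rw [Finset.powersetCard_eq_empty.mpr (by simp)]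
      simp
  | insert a s ha ih =>
    rcases k with _ | k
    · simp
    · rw [Finset.powersetCard_succ_insert ha, Finset.sum_union, Finset.sum_image]
      · have h1 : ∀ S ∈ s.powersetCard k, ∏ u ∈ insert a S, x u = x a * ∏ u ∈ S, x u := by
          intro S hS
          rw [Finset.prod_insert]
          intro h
          exact ha ((Finset.mem_powersetCard.mp hS).1 h)
        rw [Finset.sum_congr rfl h1, ← Finset.mul_sum, Finset.sum_insert ha]
        set X := ∑ u ∈ s, x u with hX
        have hX0 : 0 ≤ X := Finset.sum_nonneg (fun i _ => hx i)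
        have hb : X ^ (k + 1) + (k + 1 : ℝ) * x a * X ^ k ≤ (x a + X) ^ (k + 1) := by
          clear ih h1
          induction k with
          | zero => simp; linarith
          | succ k ihk =>
            have e1 : (x a + X) ^ (k + 1 + 1) = (x a + X) * (x a + X) ^ (k + 1) := by ring
            rw [e1]
            have e2 := mul_le_mul_of_nonneg_left ihk (add_nonneg (hx a) hX0)
            refine le_trans ?_ e2
            have h0 : 0 ≤ (k + 1 : ℝ) * (x a) ^ 2 * X ^ k := by positivity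
            have h9 : (x a + X) * (X ^ (k + 1) + (k + 1 : ℝ) * x a * X ^ k)
                = X ^ (k + 1 + 1) + ((k + 1 : ℕ) + 1 : ℝ) * x a * X ^ (k + 1)
                  + (k + 1 : ℝ) * (x a) ^ 2 * X ^ k := by
              push_cast; ring
            rw [h9]
            linarith
        have i1 := ih (k + 1)
        have i2 := ih k
        have hk : (0 : ℝ) < (k.factorial : ℝ) := by positivity
        have hk1 : ((k + 1).factorial : ℝ) = (k + 1 : ℝ) * (k.factorial : ℝ) := by
          rw [Nat.factorial_succ]; push_cast; ring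
        calc ∑ S ∈ powersetCard (k + 1) s, ∏ u ∈ S, x u + x a * ∑ S ∈ powersetCard k s, ∏ u ∈ S, x u
            ≤ X ^ (k + 1) / ((k + 1).factorial : ℝ) + x a * (X ^ k / (k.factorial : ℝ)) :=
              add_le_add i1 (mul_le_mul_of_nonneg_left i2 (hx a))
          _ = (X ^ (k + 1) + (k + 1 : ℝ) * x a * X ^ k) / ((k + 1).factorial : ℝ) := by
              rw [hk1]; field_simp
          _ ≤ (x a + X) ^ (k + 1) / ((k + 1).factorial : ℝ) := by
              apply div_le_div_of_nonneg_right hb (by positivity)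
      · intro S hS T hT h
        simp only [Finset.mem_coe, Finset.mem_powersetCard] at hS hT
        have hS' : a ∉ S := fun h => ha (hS.1 h)
        have hT' : a ∉ T := fun h => ha (hT.1 h)
        rw [← Finset.erase_insert hS', ← Finset.erase_insert hT', h]
      · rw [Finset.disjoint_left]
        intro S hS hS'
        rw [Finset.mem_image] at hS'
        obtain ⟨T, _, rfl⟩ := hS'
        exact ha ((Finset.mem_powersetCard.mp hS).1 (Finset.mem_insert_self a T))

/-- `k^k ≤ e^k k!`. -/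
theorem pow_le_exp_fact (k : ℕ) : (k : ℝ) ^ k ≤ Real.exp k * (k.factorial : ℝ) := by
  have := Real.pow_div_factorial_le_exp (k : ℝ) (by positivity) k
  rw [div_le_iff₀ (by positivity)] at this
  exact this

/-- Tail bound: for `1 ≤ k`, `2k ≤ U`,
`#{π : k ≤ #{u : π u ∈ G u}} ≤ U! (2e (∑ |G u|/U)/k)^k`. -/
theorem tail (G : α → Finset α) (k : ℕ) (hk : 1 ≤ k) (hkU : 2 * k ≤ Fintype.card α) :
    ((univ.filter (fun π : Equiv.Perm α => k ≤ (univ.filter (fun u => π u ∈ G u)).card)).card : ℝ)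
      ≤ (Fintype.card α).factorial *
        (2 * Real.exp 1 * (∑ u, ((G u).card : ℝ) / (Fintype.card α : ℝ)) / k) ^ k := by
  classical
  have h1 : (univ.filter (fun π : Equiv.Perm α => k ≤ (univ.filter (fun u => π u ∈ G u)).card))
      ⊆ (univ.powersetCard k).biUnion
        (fun S => univ.filter (fun π : Equiv.Perm α => ∀ u ∈ S, π u ∈ G u)) := by
    intro π hπ
    simp only [mem_filter, mem_univ, true_and] at hπ
    obtain ⟨S, hS, hSc⟩ := Finset.exists_subset_card_eq hπ
    rw [Finset.mem_biUnion]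
    refine ⟨S, ?_, ?_⟩
    · simp [Finset.mem_powersetCard, hSc]
    · simp only [mem_filter, mem_univ, true_and]
      intro u hu
      have := hS hu
      simpa using this
  have h2 : ((univ.filter (fun π : Equiv.Perm α => k ≤ (univ.filter (fun u => π u ∈ G u)).card)).card : ℝ)
      ≤ ∑ S ∈ univ.powersetCard k,
        ((univ.filter (fun π : Equiv.Perm α => ∀ u ∈ S, π u ∈ G u)).card : ℝ) := by
    have := (Finset.card_le_card h1).trans Finset.card_biUnion_le
    exact_mod_cast this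
  refine h2.trans ?_
  have h3 : ∑ S ∈ univ.powersetCard k,
        ((univ.filter (fun π : Equiv.Perm α => ∀ u ∈ S, π u ∈ G u)).card : ℝ)
      ≤ ∑ S ∈ (univ : Finset α).powersetCard k,
        ((Fintype.card α).factorial : ℝ) * ∏ u ∈ S, (2 * (G u).card / (Fintype.card α : ℝ)) := by
    apply Finset.sum_le_sum
    intro S hS
    apply card_le_real
    rw [(Finset.mem_powersetCard.mp hS).2]
    exact hkU
  refine h3.trans ?_
  rw [← Finset.mul_sum]
  apply mul_le_mul_of_nonneg_left _ (by positivity)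
  have h4 := esymm_le (univ : Finset α) (fun u => (2 * (G u).card / (Fintype.card α : ℝ)))
    (fun i => by positivity) k
  refine h4.trans ?_
  have hk0 : (0 : ℝ) < k := by exact_mod_cast hk
  have h5 : ∑ u : α, (2 * ((G u).card : ℝ) / (Fintype.card α : ℝ))
      = 2 * ∑ u, ((G u).card : ℝ) / (Fintype.card α : ℝ) := by
    rw [Finset.mul_sum]
    apply Finset.sum_congr rfl
    intro u _
    ring
  rw [h5]
  set X := ∑ u, ((G u).card : ℝ) / (Fintype.card α : ℝ) with hX
  have hX0 : 0 ≤ X := Finset.sum_nonneg (fun i _ => by positivity)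
  clear_value X
  have h6' : (Real.exp 1) ^ k = Real.exp k := by
    rw [← Real.exp_nat_mul, mul_one]
  have h6 : (2 * Real.exp 1 * X / k) ^ k = (2 * X) ^ k * (Real.exp k) / (k : ℝ) ^ k := by
    rw [div_pow, show 2 * Real.exp 1 * X = (2 * X) * Real.exp 1 by ring, mul_pow, h6']
  rw [h6, div_le_div_iff₀ (by positivity) (by positivity)]
  have h7 := pow_le_exp_fact k
  calc (2 * X) ^ k * (k : ℝ) ^ k ≤ (2 * X) ^ k * (Real.exp k * (k.factorial : ℝ)) := by
        exact mul_le_mul_of_nonneg_left h7 (pow_nonneg (mul_nonneg zero_le_two hX0) k)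
    _ = (2 * X) ^ k * Real.exp k * (k.factorial : ℝ) := by ring

/-- A map all of whose fibres have the same size. -/
def Balanced (β : α → B) : Prop :=
  ∀ b, (univ.filter (fun a => β a = b)).card * Fintype.card B = Fintype.card α

omit [DecidableEq α] in
theorem Balanced.card_preimage {β : α → B} (h : Balanced β) (F : Finset B) :
    (univ.filter (fun a => β a ∈ F)).card * Fintype.card B = F.card * Fintype.card α := by
  classical
  have h1 : (univ.filter (fun a => β a ∈ F)).card
      = ∑ b ∈ F, (univ.filter (fun a => β a = b)).card := by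
    rw [Finset.card_eq_sum_card_fiberwise (f := β) (t := F)]
    · apply Finset.sum_congr rfl
      intro b hb
      congr 1
      ext a
      simp only [mem_filter, mem_univ, true_and]
      constructor
      · rintro ⟨_, h⟩; exact h
      · intro h; exact ⟨h ▸ hb, h⟩
    · intro a ha
      simpa using ha
  rw [h1, Finset.sum_mul, Finset.sum_congr rfl (fun b _ => h b)]
  simp


omit [DecidableEq α] in
/-- `|β⁻¹ F| / U = |F| / K`. -/
theorem Balanced.ratio {β : α → B} (h : Balanced β) (hU : 0 < Fintype.card α) (F : Finset B) :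
    ((univ.filter (fun a => β a ∈ F)).card : ℝ) / (Fintype.card α : ℝ)
      = (F.card : ℝ) / (Fintype.card B : ℝ) := by
  have hU' : (0 : ℝ) < Fintype.card α := by exact_mod_cast hU
  have hK : 0 < Fintype.card B := by
    obtain ⟨a⟩ := Fintype.card_pos_iff.mp hU
    exact Fintype.card_pos_iff.mpr ⟨β a⟩
  have hK' : (0 : ℝ) < Fintype.card B := by exact_mod_cast hK
  rw [div_eq_div_iff hU'.ne' hK'.ne']
  exact_mod_cast h.card_preimage F


/-- Balanced tail bound:
`#{π : k ≤ #{u : β (π u) ∈ F u}} ≤ U! (2e (∑ |F u|/K)/k)^k`. -/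
theorem tail_balanced {β : α → B} (h : Balanced β) (F : α → Finset B) (k : ℕ) (hk : 1 ≤ k)
    (hkU : 2 * k ≤ Fintype.card α) :
    ((univ.filter (fun π : Equiv.Perm α =>
        k ≤ (univ.filter (fun u => β (π u) ∈ F u)).card)).card : ℝ)
      ≤ (Fintype.card α).factorial *
        (2 * Real.exp 1 * (∑ u, ((F u).card : ℝ) / (Fintype.card B : ℝ)) / k) ^ k := by
  have h0 : 0 < Fintype.card α := by omega
  have := tail (fun u => univ.filter (fun a => β a ∈ F u)) k hk hkU
  simp only [mem_filter, mem_univ, true_and] at this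
  refine this.trans (le_of_eq ?_)
  congr 4
  apply Finset.sum_congr rfl
  intro u _
  rw [h.ratio h0]


end Crest.Agent.R133.CombPerm
end

-- ▼ part R133/CombOne
section

/-! # Row 133, section 3: the events (P1), (P2') for one stage, abstract form (helper90) -/

set_option autoImplicit false

open Finset

namespace Crest.Agent.R133.Comb

open Crest.Agent.R133.CombPerm

variable {α B : Type*} [Fintype α] [DecidableEq α] [Fintype B] [DecidableEq B]

lemma exp_one_sq_le : Real.exp 1 ^ 2 ≤ 7.5 := by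
  have h := Real.exp_one_lt_d9
  have h0 := Real.exp_pos 1
  nlinarith

/-- `(2eμ/k)^k ≤ e^{-k}` if `2e²μ ≤ k` -/
lemma pow_le_exp_neg {μ : ℝ} (hμ : 0 ≤ μ) (k : ℕ) (hk : 1 ≤ k)
    (h : 2 * Real.exp 1 ^ 2 * μ ≤ k) :
    (2 * Real.exp 1 * μ / k) ^ k ≤ Real.exp (-(k : ℝ)) := by
  have hk0 : (0 : ℝ) < k := by exact_mod_cast hk
  have he := Real.exp_pos 1
  have h1 : 2 * Real.exp 1 * μ / k ≤ Real.exp (-1) := by
    rw [div_le_iff₀ hk0, Real.exp_neg, inv_mul_eq_div, le_div_iff₀ he]
    calc 2 * Real.exp 1 * μ * Real.exp 1 = 2 * Real.exp 1 ^ 2 * μ := by ring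
      _ ≤ k := h
  calc (2 * Real.exp 1 * μ / k) ^ k ≤ (Real.exp (-1)) ^ k :=
        pow_le_pow_left₀ (by positivity) h1 k
    _ = Real.exp (-(k : ℝ)) := by
        rw [← Real.exp_nat_mul]; congr 1; ring

/-- event (P1) -/
theorem p1 {β : α → B} (h : CombPerm.Balanced β) (V : Finset α) (F : Finset B) (N : ℕ)
    (hN : 1 ≤ N) :
    ((univ.filter (fun π : Equiv.Perm α =>
      30 * ((V.card : ℝ) * F.card / Fintype.card B) + 10 * N <
        ((V.filter (fun u => β (π u) ∈ F)).card : ℝ))).card : ℝ) ≤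
      (Fintype.card α).factorial * Real.exp (-4 * N) := by
  classical
  set μ : ℝ := (V.card : ℝ) * F.card / Fintype.card B with hμ
  have hμ0 : 0 ≤ μ := by positivity
  have hN' : (1 : ℝ) ≤ N := by exact_mod_cast hN
  set k : ℕ := ⌈2 * Real.exp 1 ^ 2 * μ + 4 * N⌉₊ with hk
  have hkge : 2 * Real.exp 1 ^ 2 * μ + 4 * N ≤ k := Nat.le_ceil _
  have hklt : (k : ℝ) < 2 * Real.exp 1 ^ 2 * μ + 4 * N + 1 := Nat.ceil_lt_add_one (by positivity)
  have he2 := exp_one_sq_le
  have hk2 : 2 * (k : ℝ) ≤ 30 * μ + 10 * N := by nlinarith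
  have hk1 : 1 ≤ k := by
    have : (1 : ℝ) ≤ k := by
      have : 0 ≤ 2 * Real.exp 1 ^ 2 * μ := by positivity
      linarith
    exact_mod_cast this
  by_cases hkU : 2 * k ≤ Fintype.card α
  · -- main case
    have h1 := tail_balanced h (fun u => if u ∈ V then F else ∅) k hk1 hkU
    have h2 : ∑ u : α, (((if u ∈ V then F else ∅ : Finset B).card : ℝ) / Fintype.card B) = μ := by
      have : ∀ u : α, (((if u ∈ V then F else ∅ : Finset B).card : ℝ) / Fintype.card B) =
          if u ∈ V then (F.card : ℝ) / Fintype.card B else 0 := by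
        intro u; split_ifs <;> simp
      rw [sum_congr rfl (fun u _ => this u), ← sum_filter]
      simp only [filter_mem_eq_inter, univ_inter, sum_const, nsmul_eq_mul]
      rw [hμ]; ring
    rw [h2] at h1
    have h3 : ((univ.filter (fun π : Equiv.Perm α =>
      30 * μ + 10 * N < ((V.filter (fun u => β (π u) ∈ F)).card : ℝ))).card : ℝ) ≤
      ((univ.filter (fun π : Equiv.Perm α =>
        k ≤ (univ.filter (fun u => β (π u) ∈ (if u ∈ V then F else ∅ : Finset B))).card)).card : ℝ) := by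
      norm_cast
      apply card_le_card
      intro π hπ
      simp only [mem_filter, mem_univ, true_and] at hπ ⊢
      have h4 : univ.filter (fun u => β (π u) ∈ (if u ∈ V then F else ∅ : Finset B)) =
          V.filter (fun u => β (π u) ∈ F) := by
        ext u
        simp only [mem_filter, mem_univ, true_and]
        by_cases hu : u ∈ V <;> simp [hu]
      rw [h4]
      have : (k : ℝ) ≤ ((V.filter (fun u => β (π u) ∈ F)).card : ℝ) := by
        have : (0 : ℝ) ≤ k := by positivity
        push_cast at hπ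
        linarith
      exact_mod_cast this
    refine h3.trans (h1.trans ?_)
    apply mul_le_mul_of_nonneg_left _ (by positivity)
    refine (pow_le_exp_neg hμ0 k hk1 (by linarith)).trans ?_
    apply Real.exp_le_exp.mpr
    have : 0 ≤ 2 * Real.exp 1 ^ 2 * μ := by positivity
    linarith
  · -- trivial case: the event is empty
    have h1 : (univ.filter (fun π : Equiv.Perm α =>
      30 * μ + 10 * N < ((V.filter (fun u => β (π u) ∈ F)).card : ℝ))) = ∅ := by
      apply filter_eq_empty_iff.mpr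
      intro π _
      rw [not_lt]
      have h2 : ((V.filter (fun u => β (π u) ∈ F)).card : ℝ) ≤ Fintype.card α := by
        exact_mod_cast card_le_univ _
      have h3 : (Fintype.card α : ℝ) ≤ 2 * k := by
        have : Fintype.card α ≤ 2 * k := by omega
        exact_mod_cast this
      linarith
    rw [h1]
    simp only [card_empty, Nat.cast_zero]
    positivity

/-- event (P2') -/
theorem p2 {β : α → B} (h : CombPerm.Balanced β) (H : α → Finset B) (M N : ℕ) (hM : 2 ≤ M)
    (hN : 4 ≤ N) (hU : 4 ≤ Fintype.card α)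
    (hH : ∑ u, ((H u).card : ℝ) / Fintype.card B ≤
      Fintype.card α * 2 ^ M * Real.exp (-3 * M) / N) :
    ((univ.filter (fun π : Equiv.Perm α =>
      (Fintype.card α : ℝ) / N ≤ ((univ.filter (fun u => β (π u) ∈ H u)).card : ℝ))).card : ℝ) ≤
      (Fintype.card α).factorial * Real.exp (-((Fintype.card α : ℝ) / N)) := by
  classical
  have hN' : (4 : ℝ) ≤ N := by exact_mod_cast hN
  have hU' : (4 : ℝ) ≤ Fintype.card α := by exact_mod_cast hU
  set U : ℝ := ((Fintype.card α : ℕ) : ℝ) with hUdef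
  set k : ℕ := ⌈U / N⌉₊ with hk
  have hkge : U / N ≤ k := Nat.le_ceil _
  have hklt : (k : ℝ) < U / N + 1 := Nat.ceil_lt_add_one (by positivity)
  have hUN : U / N ≤ U / 4 := by
    apply div_le_div_of_nonneg_left (by positivity) (by norm_num) hN'
  have hk1 : 1 ≤ k := by
    rw [hk]
    exact Nat.ceil_pos.mpr (by positivity)
  have hkU : 2 * k ≤ Fintype.card α := by
    have : (2 : ℝ) * k ≤ Fintype.card α := by
      rw [← hUdef]; linarith
    exact_mod_cast this
  have h1 := tail_balanced h H k hk1 hkU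
  set μ : ℝ := ∑ u, ((H u).card : ℝ) / Fintype.card B with hμ
  have hμ0 : 0 ≤ μ := sum_nonneg fun _ _ => by positivity
  have h3 : ((univ.filter (fun π : Equiv.Perm α =>
      U / N ≤ ((univ.filter (fun u => β (π u) ∈ H u)).card : ℝ))).card : ℝ) ≤
      ((univ.filter (fun π : Equiv.Perm α =>
        k ≤ (univ.filter (fun u => β (π u) ∈ H u)).card)).card : ℝ) := by
    norm_cast
    apply card_le_card
    intro π hπ
    simp only [mem_filter, mem_univ, true_and] at hπ ⊢
    rw [hk]
    exact Nat.ceil_le.mpr hπ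
  refine h3.trans (h1.trans ?_)
  apply mul_le_mul_of_nonneg_left _ (by positivity)
  have h5 : 2 * Real.exp 1 ^ 2 * μ ≤ k := by
    -- `2 e² 2^M e^{-3M} ≤ 1`
    have he3 : (2 : ℝ) * Real.exp (-3) ≤ 1 / 8 := by
      have h16 : (16 : ℝ) ≤ Real.exp 3 := by
        have h := Real.exp_one_gt_d9
        have : Real.exp 3 = Real.exp 1 ^ 3 := by rw [← Real.exp_nat_mul]; norm_num
        rw [this]
        have h2 : (2.6 : ℝ) ≤ Real.exp 1 := by linarith
        calc (16 : ℝ) ≤ 2.6 ^ 3 := by norm_num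
          _ ≤ _ := pow_le_pow_left₀ (by norm_num) h2 3
      rw [Real.exp_neg, ← div_eq_mul_inv, div_le_iff₀ (Real.exp_pos 3)]
      linarith
    have h6 : (2 : ℝ) ^ M * Real.exp (-3 * M) ≤ 1 / 64 := by
      have : Real.exp (-3 * (M : ℝ)) = Real.exp (-3) ^ M := by
        rw [← Real.exp_nat_mul]; congr 1; ring
      rw [this, ← mul_pow]
      calc ((2 : ℝ) * Real.exp (-3)) ^ M ≤ (1 / 8) ^ M :=
            pow_le_pow_left₀ (by positivity) he3 M
        _ ≤ (1 / 8) ^ 2 := pow_le_pow_of_le_one (by norm_num) (by norm_num) hM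
        _ = 1 / 64 := by norm_num
    have he2 := exp_one_sq_le
    have h7 : μ ≤ (U / N) * (1 / 64) := by
      refine hH.trans ?_
      calc U * 2 ^ M * Real.exp (-3 * M) / N = (U / N) * (2 ^ M * Real.exp (-3 * M)) := by ring
        _ ≤ _ := mul_le_mul_of_nonneg_left h6 (by positivity)
    have h8 : 2 * Real.exp 1 ^ 2 * μ ≤ 15 * μ := by nlinarith
    have h9 : 0 ≤ U / N := by positivity
    linarith
  refine (pow_le_exp_neg hμ0 k hk1 h5).trans ?_
  apply Real.exp_le_exp.mpr
  linarith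

end Crest.Agent.R133.Comb
end

-- ▼ part R133/Comb

/-! # Row 133, section 3: THEOREM COMB -/

set_option autoImplicit false

open Finset

namespace Crest.Agent.R133

/-- the truncation of `γ` to `[0, M)` -/
noncomputable def trunc (M : ℕ) (γ : Set ℕ) : Finset ℕ := by
  classical exact (range M).filter (fun j => j ∈ γ)

lemma mem_trunc {M : ℕ} {γ : Set ℕ} {j : ℕ} : j ∈ trunc M γ ↔ j < M ∧ j ∈ γ := by
  classical
  unfold trunc
  simp

lemma trunc_mem (M : ℕ) (γ : Set ℕ) : trunc M γ ∈ (range M).powerset := by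
  classical
  rw [mem_powerset]
  unfold trunc
  exact filter_subset _ _

/-- restriction of a name -/
def rst (N : ℕ) (z : ℕ → Bool) : Fin N → Bool := fun i => z i

lemma ext_rst {N : ℕ} (z : ℕ → Bool) {i : ℕ} (h : i < N) : ext (rst N z) i = z i := by
  unfold ext rst
  rw [dif_pos h]

lemma balanced_perm (s : ℕ) (π : Equiv.Perm (W (s + 1))) :
    Balanced (fun u => fst s (π u)) := by
  classical
  intro t
  rw [← fst_balanced s t]
  congr 1
  refine card_bij' (fun u _ => π u) (fun u _ => π.symm u) ?_ ?_ ?_ ?_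
  · intro u hu
    simp only [mem_filter, mem_univ, true_and] at hu ⊢
    exact hu
  · intro u hu
    simp only [mem_filter, mem_univ, true_and] at hu ⊢
    simpa using hu
  · intro u _; simp
  · intro u _; simp

lemma fst_balanced' (s : ℕ) : CombPerm.Balanced (fst s) := by
  intro t
  rw [card_W, card_W]
  convert fst_balanced s t using 2

/-! ## (P2') -/

lemma badMass_upd {τ : Tau} {s0 s : ℕ} (h : s0 ≤ s) (σ : W (s + 1) → W s)
    (p : (Fin (NN (s + 1)) → Bool) → ℝ) (u : W (s + 1)) :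
    badMass (upd τ s σ) s0 s p u = badMass (upd τ s (fun _ => σ u)) s0 s p u := by
  classical
  have key : ∀ z : Fin (NN (s + 1)) → Bool,
      (∃ γ : Set ℕ, Bd (upd τ s σ) s0 s (ext z) γ ∧ u ∈ Lst (upd τ s σ) s0 (s + 1) (ext z) γ) ↔
      (∃ γ : Set ℕ, Bd (upd τ s (fun _ => σ u)) s0 s (ext z) γ ∧
        u ∈ Lst (upd τ s (fun _ => σ u)) s0 (s + 1) (ext z) γ) := by
    intro z
    apply exists_congr
    intro γ
    rw [Bd_upd, Bd_upd, mem_Lst_upd h, mem_Lst_upd h]
  unfold badMass
  apply sum_congr _ (fun _ _ => rfl)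
  ext z
  simp only [mem_filter, key z]

lemma badMass_nonneg {τ : Tau} {s0 s : ℕ} {p : (Fin (NN (s + 1)) → Bool) → ℝ} (hp : IsLaw p)
    (u : W (s + 1)) : 0 ≤ badMass τ s0 s p u :=
  sum_nonneg fun _ _ => hp.1 _

/-- the first-moment bound `Σ_{u,t} mass ≤ 2^M K e^{-3M}/N³` -/
lemma sum_badMass_le {τ : Tau} {s0 s : ℕ} (h : s0 ≤ s) (p : (Fin (NN (s + 1)) → Bool) → ℝ)
    (hp : IsLaw p) :
    ∑ u : W (s + 1), ∑ t : W s, badMass (upd τ s (fun _ => t)) s0 s p u ≤
      2 ^ (NN (s + 1) / NN s0) *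
        (KK s * Real.exp (-3 * ((NN (s + 1) / NN s0 : ℕ) : ℝ)) / (NN (s + 1) : ℝ) ^ 3) := by
  classical
  set M := NN (s + 1) / NN s0 with hM
  set C : ℝ := KK s * Real.exp (-3 * (M : ℝ)) / (NN (s + 1) : ℝ) ^ 3 with hC
  have hC0 : 0 ≤ C := by positivity
  -- rewrite as a sum over z
  have h1 : ∀ (u : W (s + 1)) (t : W s), badMass (upd τ s (fun _ => t)) s0 s p u ≤
      ∑ z : Fin (NN (s + 1)) → Bool, ∑ g ∈ (range M).powerset,
        if (Bd τ s0 s (ext z) ↑g ∧ u ∈ cand τ s0 s (ext z) ↑g ∧ t ∈ lastL τ s0 s (ext z) ↑g)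
        then p z else 0 := by
    intro u t
    unfold badMass
    rw [sum_filter]
    apply sum_le_sum
    intro z _
    split_ifs with hz
    · obtain ⟨γ, hB, hu⟩ := hz
      have hcong : ∀ j < NN (s + 1) / NN s0, j ∈ (↑(trunc M γ) : Set ℕ) ↔ j ∈ γ := by
        intro j hj
        rw [mem_coe, mem_trunc]
        exact ⟨fun h => h.2, fun h => ⟨hj, h⟩⟩
      have hB' : Bd τ s0 s (ext z) ↑(trunc M γ) := by
        rw [Bd_upd] at hB
        unfold Bd at hB ⊢
        rwa [prodLst_congr h (fun _ _ => rfl) hcong]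
      have hu' : u ∈ Lst (upd τ s (fun _ => t)) s0 (s + 1) (ext z) ↑(trunc M γ) := by
        rwa [Lst_congr (by omega) (fun _ _ => rfl) hcong]
      rw [mem_Lst_upd h] at hu'
      calc p z = if (Bd τ s0 s (ext z) ↑(trunc M γ) ∧ u ∈ cand τ s0 s (ext z) ↑(trunc M γ) ∧
            t ∈ lastL τ s0 s (ext z) ↑(trunc M γ)) then p z else 0 := by
            rw [if_pos ⟨hB', hu'.1, hu'.2⟩]
        _ ≤ _ := single_le_sum (f := fun g : Finset ℕ => if (Bd τ s0 s (ext z) ↑g ∧
              u ∈ cand τ s0 s (ext z) ↑g ∧ t ∈ lastL τ s0 s (ext z) ↑g) then p z else 0)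
              (fun g _ => by
                split_ifs
                · exact hp.1 z
                · exact le_rfl) (trunc_mem M γ)
    · apply sum_nonneg
      intro g _
      split_ifs
      · exact hp.1 z
      · exact le_rfl
  calc ∑ u : W (s + 1), ∑ t : W s, badMass (upd τ s (fun _ => t)) s0 s p u
      ≤ ∑ u : W (s + 1), ∑ t : W s, ∑ z : Fin (NN (s + 1)) → Bool, ∑ g ∈ (range M).powerset,
        (if (Bd τ s0 s (ext z) ↑g ∧ u ∈ cand τ s0 s (ext z) ↑g ∧ t ∈ lastL τ s0 s (ext z) ↑g)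
        then p z else 0) := sum_le_sum fun u _ => sum_le_sum fun t _ => h1 u t
    _ = ∑ z : Fin (NN (s + 1)) → Bool, ∑ g ∈ (range M).powerset, ∑ u : W (s + 1), ∑ t : W s,
        (if (Bd τ s0 s (ext z) ↑g ∧ u ∈ cand τ s0 s (ext z) ↑g ∧ t ∈ lastL τ s0 s (ext z) ↑g)
        then p z else 0) := by
        have e1 : ∀ u : W (s + 1), ∑ t : W s, ∑ z : Fin (NN (s + 1)) → Bool,
            ∑ g ∈ (range M).powerset,
            (if (Bd τ s0 s (ext z) ↑g ∧ u ∈ cand τ s0 s (ext z) ↑g ∧ t ∈ lastL τ s0 s (ext z) ↑g)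
            then p z else 0) = ∑ z : Fin (NN (s + 1)) → Bool, ∑ g ∈ (range M).powerset, ∑ t : W s,
            (if (Bd τ s0 s (ext z) ↑g ∧ u ∈ cand τ s0 s (ext z) ↑g ∧ t ∈ lastL τ s0 s (ext z) ↑g)
            then p z else 0) := by
          intro u
          rw [sum_comm]
          exact sum_congr rfl fun z _ => sum_comm
        rw [sum_congr rfl fun u _ => e1 u, sum_comm]
        exact sum_congr rfl fun z _ => sum_comm
    _ ≤ ∑ z : Fin (NN (s + 1)) → Bool, ∑ g ∈ (range M).powerset, p z * C := by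
        apply sum_le_sum
        intro z _
        apply sum_le_sum
        intro g _
        by_cases hB : Bd τ s0 s (ext z) ↑g
        · have e2 : ∑ u : W (s + 1), ∑ t : W s,
              (if (Bd τ s0 s (ext z) ↑g ∧ u ∈ cand τ s0 s (ext z) ↑g ∧
                t ∈ lastL τ s0 s (ext z) ↑g) then p z else 0) =
              p z * prodLst τ s0 s (ext z) ↑g := by
            rw [← card_cand_mul]
            have e3 : ∀ u : W (s + 1), ∑ t : W s,
              (if (Bd τ s0 s (ext z) ↑g ∧ u ∈ cand τ s0 s (ext z) ↑g ∧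
                t ∈ lastL τ s0 s (ext z) ↑g) then p z else 0) =
                if u ∈ cand τ s0 s (ext z) ↑g then ((lastL τ s0 s (ext z) ↑g).card : ℝ) * p z
                else 0 := by
              intro u
              split_ifs with hu
              · simp only [hB, hu, true_and]
                rw [← sum_filter, sum_const, nsmul_eq_mul]
                congr 2
                congr 1
                ext t; simp
              · simp [hu]
            rw [sum_congr rfl fun u _ => e3 u, ← sum_filter, sum_const, nsmul_eq_mul]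
            have e4 : univ.filter (fun u => u ∈ cand τ s0 s (ext z) ↑g) =
                cand τ s0 s (ext z) ↑g := by ext u; simp
            rw [e4]
            ring
          rw [e2]
          exact mul_le_mul_of_nonneg_left hB (hp.1 z)
        · have e2 : ∑ u : W (s + 1), ∑ t : W s,
              (if (Bd τ s0 s (ext z) ↑g ∧ u ∈ cand τ s0 s (ext z) ↑g ∧
                t ∈ lastL τ s0 s (ext z) ↑g) then p z else 0) = 0 := by
            simp [hB]
          rw [e2]
          exact mul_nonneg (hp.1 z) hC0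
    _ = (∑ z, p z) * (2 ^ M * C) := by
        rw [sum_mul]
        apply sum_congr rfl
        intro z _
        rw [sum_const, card_powerset, card_range, nsmul_eq_mul]
        push_cast
        ring
    _ ≤ 1 * (2 ^ M * C) := mul_le_mul_of_nonneg_right hp.2 (by positivity)
    _ = _ := one_mul _

/-- (P2') fails with probability at most `exp(-U/N)` -/
lemma badP2 {τ : Tau} {s0 s : ℕ} (h : s0 ≤ s) (p : (Fin (NN (s + 1)) → Bool) → ℝ)
    (hp : IsLaw p) :
    ((univ.filter (fun π : Equiv.Perm (W (s + 1)) =>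
      (KK (s + 1) : ℝ) / NN (s + 1) ≤
        (Nat.card {u : W (s + 1) // 1 / ((NN (s + 1) : ℝ) ^ 2 * KK (s + 1)) ≤
          badMass (upd τ s (fun u => fst s (π u))) s0 s p u} : ℝ))).card : ℝ) ≤
      (KK (s + 1)).factorial * Real.exp (-((KK (s + 1) : ℝ) / NN (s + 1))) := by
  classical
  have hN : (0 : ℝ) < NN (s + 1) := by exact_mod_cast NN_pos (s + 1)
  have hU : (0 : ℝ) < KK (s + 1) := by exact_mod_cast KK_pos (s + 1)
  have hK : (0 : ℝ) < KK s := by exact_mod_cast KK_pos s
  have hm := mm_ge s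
  have hN4 : 4 ≤ NN (s + 1) := by
    rw [NN_succ]
    calc 4 ≤ 1600 * 1 := by norm_num
      _ ≤ mm s * NN s := Nat.mul_le_mul hm (NN_pos s)
  have hU4 : 4 ≤ KK (s + 1) := by
    refine le_trans ?_ (NN_sq_le_KK_succ s)
    calc 4 ≤ 2 ^ 20 * 1 := by norm_num
      _ ≤ 2 ^ 20 * NN (s + 1) ^ 2 := Nat.mul_le_mul le_rfl (Nat.one_le_pow _ _ (NN_pos _))
  set M := NN (s + 1) / NN s0 with hM
  have hM2 : 2 ≤ M := by
    rw [hM, NN_succ_div h]
    calc 2 ≤ 1600 * 1 := by norm_num
      _ ≤ mm s * (NN s / NN s0) := Nat.mul_le_mul hm (NN_div_pos h)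
  set θ : ℝ := 1 / ((NN (s + 1) : ℝ) ^ 2 * KK (s + 1)) with hθ
  have hθ0 : 0 < θ := by positivity
  let H : W (s + 1) → Finset (W s) := fun u =>
    univ.filter (fun t => θ ≤ badMass (upd τ s (fun _ => t)) s0 s p u)
  have h1 : ∑ u, ((H u).card : ℝ) / Fintype.card (W s) ≤
      Fintype.card (W (s + 1)) * 2 ^ M * Real.exp (-3 * M) / NN (s + 1) := by
    rw [card_W, card_W, ← sum_div, div_le_iff₀ hK]
    have h2 : (∑ u, ((H u).card : ℝ)) * θ ≤
        ∑ u : W (s + 1), ∑ t : W s, badMass (upd τ s (fun _ => t)) s0 s p u := by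
      rw [sum_mul]
      apply sum_le_sum
      intro u _
      calc ((H u).card : ℝ) * θ = ∑ _t ∈ H u, θ := by rw [sum_const, nsmul_eq_mul]
        _ ≤ ∑ t ∈ H u, badMass (upd τ s (fun _ => t)) s0 s p u := by
            apply sum_le_sum
            intro t ht
            exact (mem_filter.mp ht).2
        _ ≤ _ := sum_le_sum_of_subset_of_nonneg (filter_subset _ _)
            (fun _ _ _ => badMass_nonneg hp _)
    have h3 := h2.trans (sum_badMass_le h p hp)
    rw [← hM] at h3
    have h4 : ∑ u, ((H u).card : ℝ) ≤ (2 ^ M *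
        (KK s * Real.exp (-3 * (M : ℝ)) / (NN (s + 1) : ℝ) ^ 3)) / θ := by
      rw [le_div_iff₀ hθ0]; exact h3
    refine h4.trans (le_of_eq ?_)
    rw [hθ]
    field_simp
  have h5 := Comb.p2 (fst_balanced' s) H M (NN (s + 1)) hM2 hN4 (by rw [card_W]; exact hU4) h1
  rw [card_W] at h5
  refine le_trans (le_of_eq ?_) h5
  congr 2
  ext π
  simp only [mem_filter, mem_univ, true_and]
  have h6 : (Nat.card {u : W (s + 1) // θ ≤ badMass (upd τ s (fun u => fst s (π u))) s0 s p u}) =
      (univ.filter (fun u => fst s (π u) ∈ H u)).card := by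
    rw [Nat.card_eq_fintype_card, Fintype.card_subtype]
    congr 1
    ext u
    simp only [H, mem_filter, mem_univ, true_and]
    rw [badMass_upd h]
  rw [h6]

/-! ## (P1) -/

lemma badP1 {τ : Tau} {s0 s : ℕ} (h : s0 ≤ s) (z : ℕ → Bool) (γ : Set ℕ) :
    ((univ.filter (fun π : Equiv.Perm (W (s + 1)) =>
      30 * prodLst τ s0 s z γ / KK s + 10 * NN (s + 1) <
        ((Lst (upd τ s (fun u => fst s (π u))) s0 (s + 1) z γ).card : ℝ))).card : ℝ) ≤
      (KK (s + 1)).factorial * Real.exp (-4 * NN (s + 1)) := by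
  classical
  have h1 := Comb.p1 (fst_balanced' s) (cand τ s0 s z γ) (lastL τ s0 s z γ) (NN (s + 1))
    (NN_pos (s + 1))
  rw [card_W, card_W] at h1
  refine le_trans (le_of_eq ?_) h1
  congr 2
  ext π
  simp only [mem_filter, mem_univ, true_and]
  rw [card_Lst_upd h, ← card_cand_mul]
  have : 30 * (((cand τ s0 s z γ).card : ℝ) * ((lastL τ s0 s z γ).card : ℝ)) / (KK s : ℝ) =
      30 * (((cand τ s0 s z γ).card : ℝ) * ((lastL τ s0 s z γ).card : ℝ) / (KK s : ℝ)) := by ring
  rw [this]

/-! ## one stage -/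

/-- the stage `s` properties -/
structure Stage (τ : Tau) (Ls : (s : ℕ) → Finset ((Fin (NN (s + 1)) → Bool) → ℝ)) (s : ℕ) :
    Prop where
  bal : Balanced (τ s)
  B : Z τ (s + 1) (lam (s + 1)) ≤ 1 + 4 * Z τ s (lam (s + 1)) ^ (mm s) / KK s
  P1 : ∀ s0, s0 ≤ s → ∀ (z : ℕ → Bool) (γ : Set ℕ),
    ((Lst τ s0 (s + 1) z γ).card : ℝ) ≤ 30 * prodLst τ s0 s z γ / KK s + 10 * NN (s + 1)
  P2 : ∀ s0, s0 ≤ s → ∀ p ∈ Ls s,
    (Nat.card {u : W (s + 1) //
      1 / ((NN (s + 1) : ℝ) ^ 2 * KK (s + 1)) ≤ badMass τ s0 s p u} : ℝ)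
      < (KK (s + 1) : ℝ) / NN (s + 1)

lemma Stage.congr {τ τ' : Tau} {Ls : (s : ℕ) → Finset ((Fin (NN (s + 1)) → Bool) → ℝ)} {s : ℕ}
    (h : ∀ i < s + 1, τ i = τ' i) (H : Stage τ Ls s) : Stage τ' Ls s := by
  have h' : ∀ i < s, τ i = τ' i := fun i hi => h i (by omega)
  refine ⟨?_, ?_, ?_, ?_⟩
  · rw [← h s (by omega)]; exact H.bal
  · rw [← Z_congrT h, ← Z_congrT h']; exact H.B
  · intro s0 hs0 z γ
    rw [← Lst_congrT h, ← prodLst_congrT h']
    exact H.P1 s0 hs0 z γ
  · intro s0 hs0 p hp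
    have : ∀ u, badMass τ s0 s p u = badMass τ' s0 s p u := fun u => badMass_congrT h s0 p u
    simp only [← this]
    exact H.P2 s0 hs0 p hp

lemma num1 (N : ℕ) (hN : 2 ≤ N) (s : ℕ) (hs : s + 1 ≤ N) (M : ℕ) (hM : M ≤ N) :
    ((s : ℝ) + 1) * (2 ^ N * 2 ^ M * Real.exp (-4 * N)) ≤ 1 / 8 := by
  have h1 : (2 : ℝ) ^ M ≤ 2 ^ N := pow_le_pow_right₀ (by norm_num) hM
  have h2 : ((s : ℝ) + 1) ≤ 2 ^ N := by
    have : ((s : ℝ) + 1) ≤ N := by exact_mod_cast hs
    have h3 : (N : ℝ) ≤ 2 ^ N := by exact_mod_cast (Nat.lt_two_pow_self).le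
    linarith
  have h50 : (50 : ℝ) ≤ Real.exp 4 := by
    have h := Real.exp_one_gt_d9
    have : Real.exp 4 = Real.exp 1 ^ 4 := by rw [← Real.exp_nat_mul]; norm_num
    rw [this]
    have h2 : (2.7 : ℝ) ≤ Real.exp 1 := by linarith
    calc (50 : ℝ) ≤ 2.7 ^ 4 := by norm_num
      _ ≤ _ := pow_le_pow_left₀ (by norm_num) h2 4
  have h3 : Real.exp (-4 * (N : ℝ)) = (Real.exp 4)⁻¹ ^ N := by
    rw [← Real.exp_neg, ← Real.exp_nat_mul]; congr 1; ring
  have h4 : (Real.exp 4)⁻¹ ≤ 1 / 50 := by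
    rw [inv_eq_one_div]
    exact one_div_le_one_div_of_le (by norm_num) h50
  rw [h3]
  calc ((s : ℝ) + 1) * (2 ^ N * 2 ^ M * (Real.exp 4)⁻¹ ^ N)
      ≤ 2 ^ N * (2 ^ N * 2 ^ N * (1 / 50) ^ N) := by
        gcongr
    _ = (4 / 25 : ℝ) ^ N := by
        rw [← mul_pow, ← mul_pow, ← mul_pow]; norm_num
    _ ≤ (4 / 25 : ℝ) ^ 2 := pow_le_pow_of_le_one (by norm_num) (by norm_num) hN
    _ ≤ 1 / 8 := by norm_num

lemma num2 (N : ℕ) (hN : 1 ≤ N) (s : ℕ) (hs : s + 1 ≤ N) (U : ℕ) (hU : 2 ^ 20 * N ^ 2 ≤ U) :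
    ((s : ℝ) + 1) * (Real.exp (Real.sqrt U) * Real.exp (-((U : ℝ) / N))) ≤ 1 / 8 := by
  have hN' : (1 : ℝ) ≤ N := by exact_mod_cast hN
  have hs' : ((s : ℝ) + 1) ≤ N := by exact_mod_cast hs
  have hU' : (2 : ℝ) ^ 20 * (N : ℝ) ^ 2 ≤ U := by exact_mod_cast hU
  set r := Real.sqrt U with hr
  have hr0 : 0 ≤ r := Real.sqrt_nonneg _
  have hrr : r ^ 2 = U := Real.sq_sqrt (by positivity)
  have hrN : 1024 * (N : ℝ) ≤ r := by
    rw [hr]
    apply Real.le_sqrt_of_sq_le
    have h10 : (1024 * (N : ℝ)) ^ 2 = 2 ^ 20 * (N : ℝ) ^ 2 := by ring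
    rw [h10]
    exact hU'
  have h1 : 1024 * r ≤ (U : ℝ) / N := by
    rw [le_div_iff₀ (by positivity), ← hrr]
    nlinarith
  rw [← Real.exp_add]
  have h2 : Real.exp (r + -((U : ℝ) / N)) ≤ Real.exp (-(1024 * (N : ℝ))) := by
    apply Real.exp_le_exp.mpr
    nlinarith
  have h3 : Real.exp (-(1024 * (N : ℝ))) ≤ 1 / (1024 * N) := by
    rw [Real.exp_neg, inv_eq_one_div]
    apply one_div_le_one_div_of_le (by positivity)
    have := Real.add_one_le_exp (1024 * (N : ℝ))
    linarith
  calc ((s : ℝ) + 1) * Real.exp (r + -((U : ℝ) / N)) ≤ N * (1 / (1024 * N)) := by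
        apply mul_le_mul hs' (h2.trans h3) (Real.exp_pos _).le (by positivity)
    _ = 1 / 1024 := by field_simp
    _ ≤ 1 / 8 := by norm_num

theorem exists_stage (Ls : (s : ℕ) → Finset ((Fin (NN (s + 1)) → Bool) → ℝ))
    (hL : ∀ s, ∀ p ∈ Ls s, IsLaw p)
    (hcard : ∀ s, ((Ls s).card : ℝ) ≤ Real.exp (Real.exp (hh (s + 1) * NN (s + 1) / 2)))
    (τ : Tau) (s : ℕ) : ∃ σ : W (s + 1) → W s, Stage (upd τ s σ) Ls s := by
  classical
  have hm := mm_ge s
  have hN2 : 2 ≤ NN (s + 1) := by
    rw [NN_succ]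
    calc 2 ≤ 1600 * 1 := by norm_num
      _ ≤ mm s * NN s := Nat.mul_le_mul hm (NN_pos s)
  have hsN : s + 1 ≤ NN (s + 1) := le_trans (by omega) (succ_le_NN (s + 1))
  -- the three bad sets
  set P : Finset (Equiv.Perm (W (s + 1))) := univ with hP
  let σ : Equiv.Perm (W (s + 1)) → (W (s + 1) → W s) := fun π u => fst s (π u)
  let b1 : Finset (Equiv.Perm (W (s + 1))) := univ.filter (fun π =>
    ¬ (Z (upd τ s (σ π)) (s + 1) (lam (s + 1)) ≤
      1 + 4 * Z τ s (lam (s + 1)) ^ (mm s) / KK s))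
  let e2 : ℕ → (Fin (NN (s + 1)) → Bool) → Finset ℕ → Finset (Equiv.Perm (W (s + 1))) :=
    fun s0 z g => univ.filter (fun π =>
      30 * prodLst τ s0 s (ext z) ↑g / KK s + 10 * NN (s + 1) <
        ((Lst (upd τ s (σ π)) s0 (s + 1) (ext z) ↑g).card : ℝ))
  let b2 : Finset (Equiv.Perm (W (s + 1))) := (range (s + 1)).biUnion (fun s0 =>
    (univ : Finset (Fin (NN (s + 1)) → Bool)).biUnion (fun z =>
      (range (NN (s + 1) / NN s0)).powerset.biUnion (fun g => e2 s0 z g)))
  let e3 : ℕ → ((Fin (NN (s + 1)) → Bool) → ℝ) → Finset (Equiv.Perm (W (s + 1))) :=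
    fun s0 p => univ.filter (fun π =>
      (KK (s + 1) : ℝ) / NN (s + 1) ≤
        (Nat.card {u : W (s + 1) // 1 / ((NN (s + 1) : ℝ) ^ 2 * KK (s + 1)) ≤
          badMass (upd τ s (σ π)) s0 s p u} : ℝ))
  let b3 : Finset (Equiv.Perm (W (s + 1))) := (range (s + 1)).biUnion (fun s0 =>
    (Ls s).biUnion (fun p => e3 s0 p))
  have hF : (0 : ℝ) < (KK (s + 1)).factorial := by exact_mod_cast Nat.factorial_pos _
  have hb1 : (b1.card : ℝ) ≤ (KK (s + 1)).factorial / 2 := by
    have := badB τ s (lam (s + 1))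
    rw [Fintype.card_perm, card_W] at this
    exact this
  have hb2 : (b2.card : ℝ) ≤ (KK (s + 1)).factorial / 8 := by
    have h1 : (b2.card : ℝ) ≤ ∑ s0 ∈ range (s + 1), ∑ z : Fin (NN (s + 1)) → Bool,
        ∑ g ∈ (range (NN (s + 1) / NN s0)).powerset, ((e2 s0 z g).card : ℝ) := by
      have : b2.card ≤ ∑ s0 ∈ range (s + 1), ∑ z : Fin (NN (s + 1)) → Bool,
        ∑ g ∈ (range (NN (s + 1) / NN s0)).powerset, (e2 s0 z g).card :=
        card_biUnion_le.trans (sum_le_sum fun s0 _ => card_biUnion_le.trans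
          (sum_le_sum fun z _ => card_biUnion_le))
      exact_mod_cast this
    refine h1.trans ?_
    have h2 : ∀ s0 ∈ range (s + 1), ∑ z : Fin (NN (s + 1)) → Bool,
        ∑ g ∈ (range (NN (s + 1) / NN s0)).powerset, ((e2 s0 z g).card : ℝ) ≤
        2 ^ (NN (s + 1)) * 2 ^ (NN (s + 1)) *
          ((KK (s + 1)).factorial * Real.exp (-4 * NN (s + 1))) := by
      intro s0 hs0
      rw [mem_range] at hs0
      have h3 : ∀ z : Fin (NN (s + 1)) → Bool,
          ∑ g ∈ (range (NN (s + 1) / NN s0)).powerset, ((e2 s0 z g).card : ℝ) ≤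
          2 ^ (NN (s + 1)) * ((KK (s + 1)).factorial * Real.exp (-4 * NN (s + 1))) := by
        intro z
        calc ∑ g ∈ (range (NN (s + 1) / NN s0)).powerset, ((e2 s0 z g).card : ℝ)
            ≤ ∑ _g ∈ (range (NN (s + 1) / NN s0)).powerset,
              ((KK (s + 1)).factorial : ℝ) * Real.exp (-4 * NN (s + 1)) :=
              sum_le_sum fun g _ => badP1 (by omega) (ext z) (↑g)
          _ = 2 ^ (NN (s + 1) / NN s0) *
              ((KK (s + 1)).factorial * Real.exp (-4 * NN (s + 1))) := by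
              rw [sum_const, card_powerset, card_range, nsmul_eq_mul]; push_cast; rfl
          _ ≤ _ := by
              apply mul_le_mul_of_nonneg_right _ (by positivity)
              exact pow_le_pow_right₀ (by norm_num) (Nat.div_le_self _ _)
      calc _ ≤ ∑ _z : Fin (NN (s + 1)) → Bool,
            2 ^ (NN (s + 1)) * ((KK (s + 1)).factorial * Real.exp (-4 * NN (s + 1))) :=
            sum_le_sum fun z _ => h3 z
        _ = _ := by
            rw [sum_const, card_univ, Fintype.card_fun, Fintype.card_bool, Fintype.card_fin,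
              nsmul_eq_mul]
            push_cast; ring
    calc _ ≤ ∑ _s0 ∈ range (s + 1), (2 : ℝ) ^ (NN (s + 1)) * 2 ^ (NN (s + 1)) *
          ((KK (s + 1)).factorial * Real.exp (-4 * NN (s + 1))) := sum_le_sum h2
      _ = (KK (s + 1)).factorial * (((s : ℝ) + 1) * (2 ^ (NN (s + 1)) * 2 ^ (NN (s + 1)) *
          Real.exp (-4 * NN (s + 1)))) := by
          rw [sum_const, card_range, nsmul_eq_mul]; push_cast; ring
      _ ≤ (KK (s + 1)).factorial * (1 / 8) :=
          mul_le_mul_of_nonneg_left (num1 _ hN2 s hsN _ le_rfl) hF.le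
      _ = _ := by ring
  have hb3 : (b3.card : ℝ) ≤ (KK (s + 1)).factorial / 8 := by
    have h1 : (b3.card : ℝ) ≤ ∑ s0 ∈ range (s + 1), ∑ p ∈ Ls s, ((e3 s0 p).card : ℝ) := by
      have : b3.card ≤ ∑ s0 ∈ range (s + 1), ∑ p ∈ Ls s, (e3 s0 p).card :=
        card_biUnion_le.trans (sum_le_sum fun s0 _ => card_biUnion_le)
      exact_mod_cast this
    refine h1.trans ?_
    have h2 : ∀ s0 ∈ range (s + 1), ∑ p ∈ Ls s, ((e3 s0 p).card : ℝ) ≤
        Real.exp (Real.sqrt (KK (s + 1))) *
          ((KK (s + 1)).factorial * Real.exp (-((KK (s + 1) : ℝ) / NN (s + 1)))) := by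
      intro s0 hs0
      rw [mem_range] at hs0
      calc ∑ p ∈ Ls s, ((e3 s0 p).card : ℝ)
          ≤ ∑ _p ∈ Ls s, ((KK (s + 1)).factorial : ℝ) *
            Real.exp (-((KK (s + 1) : ℝ) / NN (s + 1))) :=
            sum_le_sum fun p hp => badP2 (by omega) p (hL s p hp)
        _ = ((Ls s).card : ℝ) * (((KK (s + 1)).factorial : ℝ) *
            Real.exp (-((KK (s + 1) : ℝ) / NN (s + 1)))) := by
            rw [sum_const, nsmul_eq_mul]
        _ ≤ _ := by
            apply mul_le_mul_of_nonneg_right _ (by positivity)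
            have := hcard s
            rwa [exp_half_hh] at this
    calc _ ≤ ∑ _s0 ∈ range (s + 1), Real.exp (Real.sqrt (KK (s + 1))) *
          ((KK (s + 1)).factorial * Real.exp (-((KK (s + 1) : ℝ) / NN (s + 1)))) :=
          sum_le_sum h2
      _ = (KK (s + 1)).factorial * (((s : ℝ) + 1) * (Real.exp (Real.sqrt (KK (s + 1))) *
          Real.exp (-((KK (s + 1) : ℝ) / NN (s + 1))))) := by
          rw [sum_const, card_range, nsmul_eq_mul]; push_cast; ring
      _ ≤ (KK (s + 1)).factorial * (1 / 8) :=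
          mul_le_mul_of_nonneg_left (num2 _ (NN_pos _) s hsN _ (NN_sq_le_KK_succ s)) hF.le
      _ = _ := by ring
  -- a good permutation
  have hex : ∃ π : Equiv.Perm (W (s + 1)), π ∉ b1 ∪ (b2 ∪ b3) := by
    by_contra hcon
    push Not at hcon
    have h1 : (univ : Finset (Equiv.Perm (W (s + 1)))).card ≤ b1.card + (b2.card + b3.card) :=
      (card_le_card (fun π _ => hcon π)).trans
        ((card_union_le _ _).trans (Nat.add_le_add_left (card_union_le _ _) _))
    rw [card_univ, Fintype.card_perm, card_W] at h1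
    have h2 : ((KK (s + 1)).factorial : ℝ) ≤ b1.card + (b2.card + b3.card) := by
      exact_mod_cast h1
    linarith
  obtain ⟨π, hπ⟩ := hex
  simp only [mem_union, not_or] at hπ
  obtain ⟨h1, h2, h3⟩ := hπ
  refine ⟨σ π, ?_, ?_, ?_, ?_⟩
  · rw [upd_self]; exact balanced_perm s π
  · have hZ : Z (upd τ s (σ π)) s (lam (s + 1)) = Z τ s (lam (s + 1)) :=
      Z_congrT (fun i hi => upd_lt τ s _ i hi) _
    rw [hZ]
    by_contra hcon
    exact h1 (mem_filter.mpr ⟨mem_univ _, hcon⟩)
  · intro s0 hs0 z γ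
    rw [prodLst_upd]
    by_contra hcon
    rw [not_le] at hcon
    apply h2
    rw [mem_biUnion]
    refine ⟨s0, mem_range.mpr (by omega), ?_⟩
    rw [mem_biUnion]
    refine ⟨rst (NN (s + 1)) z, mem_univ _, ?_⟩
    rw [mem_biUnion]
    refine ⟨trunc (NN (s + 1) / NN s0) γ, trunc_mem _ _, ?_⟩
    refine mem_filter.mpr ⟨mem_univ _, ?_⟩
    have hcong : ∀ j < NN (s + 1) / NN s0,
        j ∈ (↑(trunc (NN (s + 1) / NN s0) γ) : Set ℕ) ↔ j ∈ γ := by
      intro j hj
      rw [mem_coe, mem_trunc]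
      exact ⟨fun h => h.2, fun h => ⟨hj, h⟩⟩
    rw [prodLst_congr hs0 (fun i hi => ext_rst z hi) hcong,
      Lst_congr (show s0 ≤ s + 1 by omega) (fun i hi => ext_rst z hi) hcong]
    exact hcon
  · intro s0 hs0 p hp
    by_contra hcon
    rw [not_lt] at hcon
    apply h3
    rw [mem_biUnion]
    refine ⟨s0, mem_range.mpr (by omega), ?_⟩
    rw [mem_biUnion]
    exact ⟨p, hp, mem_filter.mpr ⟨mem_univ _, hcon⟩⟩

/-- **THEOREM COMB** -/
theorem stComb : StComb := by
  classical
  intro Ls hL hcard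
  choose f hf using fun (τ : Tau) (s : ℕ) => exists_stage Ls hL hcard τ s
  -- the sequence of choice sequences
  let T : ℕ → Tau := fun n => Nat.rec (motive := fun _ => Tau) (fun s _ => default)
    (fun s τ => upd τ s (f τ s)) n
  have hT : ∀ n, T (n + 1) = upd (T n) n (f (T n) n) := fun n => rfl
  let τ : Tau := fun s => T (s + 1) s
  have hstab : ∀ i n, i < n → T n i = T (i + 1) i := by
    intro i n hn
    induction n, hn using Nat.le_induction with
    | base => rfl
    | succ n hn ih =>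
        rw [hT, upd_lt _ _ _ _ hn, ih]
  refine ⟨τ, ?_⟩
  have hst : ∀ s, Stage τ Ls s := by
    intro s
    have h1 := hf (T s) s
    rw [← hT] at h1
    exact h1.congr (fun i hi => hstab i (s + 1) hi)
  exact ⟨fun s => (hst s).bal, fun s => (hst s).B, fun s0 s h => (hst s).P1 s0 h,
    fun s0 s h => (hst s).P2 s0 h⟩

end Crest.Agent.R133
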