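import Mathlib
import Crest.Prelude.Def_SmoothModel
import Crest.Agent.R133.SMDefs
import Crest.Agent.R133.MfdEucl

-- ▼ part R133/MfdA
section

/-! Row 133 (S0182), section 5 = MFD, part A: finite atlas data, index, embedding into Euclidean
space by far translations, measurability. -/

set_option autoImplicit false

namespace Crest.Agent.R133.Mfd

open MeasureTheory Metric Set Filter
open scoped Manifold ContDiff Topology ENNReal

section
variable {d : ℕ} {H : Type*} [TopologicalSpace H]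
  (I : ModelWithCorners ℝ (EuclideanSpace ℝ (Fin (d + 1))) H)
  (M : Type*) [TopologicalSpace M] [ChartedSpace H M]

/-- Finite family of bump functions whose `7/8`-superlevel sets cover. -/
structure Data where
  n : ℕ
  p : Fin n → M
  b : ∀ i, SmoothBumpFunction I (p i)
  cover : ∀ x : M, ∃ i, 7 / 8 < b i x

variable [T2Space M] [CompactSpace M] [IsManifold I ∞ M]

theorem exists_data : Nonempty (Data I M) := by
  classical
  have h1 : ∀ c : M, Nonempty (SmoothBumpFunction I c) := fun c => inferInstance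
  have f : ∀ c : M, SmoothBumpFunction I c := fun c => (h1 c).some
  have hU : ∀ c : M, {x | 7 / 8 < f c x} ∈ 𝓝 c := by
    intro c
    apply IsOpen.mem_nhds
    · exact isOpen_lt continuous_const (f c).continuous
    · simp only [mem_ofPred_eq, (f c).eq_one]; norm_num
  obtain ⟨t, ht⟩ := CompactSpace.elim_nhds_subcover _ hU
  refine ⟨⟨t.card, fun i => (t.equivFin.symm i : M), fun i => f _, ?_⟩⟩
  intro x
  have hx : x ∈ ⋃ c ∈ t, {x | 7 / 8 < f c x} := by rw [ht]; trivial
  simp only [mem_iUnion, mem_ofPred_eq] at hx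
  obtain ⟨c, hc, hx⟩ := hx
  have key : ∀ a : M, a = c → 7 / 8 < f a x := by rintro _ rfl; exact hx
  exact ⟨t.equivFin ⟨c, hc⟩, key _ (by simp)⟩

end

section
variable {d : ℕ} {H : Type*} [TopologicalSpace H]
  {I : ModelWithCorners ℝ (EuclideanSpace ℝ (Fin (d + 1))) H}
  {M : Type*} [TopologicalSpace M] [ChartedSpace H M]

namespace Data
variable (A : Data I M)

/-- chart -/
noncomputable def φ (i : Fin A.n) : PartialEquiv M (EuclideanSpace ℝ (Fin (d + 1))) :=
  extChartAt I (A.p i)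

/-- center -/
noncomputable def c (i : Fin A.n) : EuclideanSpace ℝ (Fin (d + 1)) := A.φ i (A.p i)

/-- the compact chart piece -/
def K (i : Fin A.n) : Set (EuclideanSpace ℝ (Fin (d + 1))) :=
  closedBall (A.c i) (A.b i).rOut ∩ range I

theorem K_subset (i : Fin A.n) : A.K i ⊆ (A.φ i).target := (A.b i).closedBall_subset

theorem K_compact (i : Fin A.n) : IsCompact (A.K i) :=
  (isCompact_closedBall _ _).inter_right I.isClosed_range

theorem K_convex (i : Fin A.n) : Convex ℝ (A.K i) :=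
  (convex_closedBall _ _).inter I.convex_range

/-- separation constant -/
noncomputable def Λ : ℝ := 1 + 2 * ∑ i, (A.b i).rOut

/-- unit vector -/
noncomputable def e0 (d : ℕ) : EuclideanSpace ℝ (Fin (d + 1)) := EuclideanSpace.single 0 1

theorem norm_e0 (d : ℕ) : ‖e0 d‖ = 1 := by simp [e0]

/-- translation vector -/
noncomputable def v (i : Fin A.n) : EuclideanSpace ℝ (Fin (d + 1)) :=
  ((i : ℕ) * A.Λ) • e0 d - A.c i

theorem rOut_le_sum (i : Fin A.n) : (A.b i).rOut ≤ ∑ i, (A.b i).rOut :=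
  Finset.single_le_sum (f := fun i => (A.b i).rOut) (fun j _ => (A.b j).rOut_pos.le)
    (Finset.mem_univ i)

theorem one_le_Λ : 1 ≤ A.Λ := by
  have : 0 ≤ ∑ i, (A.b i).rOut := Finset.sum_nonneg fun j _ => (A.b j).rOut_pos.le
  unfold Λ; linarith

/-- the image piece `B_i` in Euclidean space -/
def B (i : Fin A.n) : Set (EuclideanSpace ℝ (Fin (d + 1))) :=
  {z | z - A.v i ∈ A.K i}

theorem B_disjoint {i j : Fin A.n} {z : EuclideanSpace ℝ (Fin (d + 1))} (hi : z ∈ A.B i)
    (hj : z ∈ A.B j) : i = j := by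
  by_contra hij
  have h1 : ‖z - ((i : ℕ) * A.Λ) • e0 d‖ ≤ (A.b i).rOut := by
    have := hi.1
    rw [mem_closedBall, dist_eq_norm] at this
    have e : z - ((i : ℕ) * A.Λ) • e0 d = z - A.v i - A.c i := by simp only [v]; abel
    rw [e]; exact this
  have h2 : ‖z - ((j : ℕ) * A.Λ) • e0 d‖ ≤ (A.b j).rOut := by
    have := hj.1
    rw [mem_closedBall, dist_eq_norm] at this
    have e : z - ((j : ℕ) * A.Λ) • e0 d = z - A.v j - A.c j := by simp only [v]; abel
    rw [e]; exact this
  have h3 : ‖((i : ℕ) * A.Λ) • e0 d - ((j : ℕ) * A.Λ) • e0 d‖ ≤ (A.b i).rOut + (A.b j).rOut := by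
    have : ((i : ℕ) * A.Λ) • e0 d - ((j : ℕ) * A.Λ) • e0 d
        = (z - ((j : ℕ) * A.Λ) • e0 d) - (z - ((i : ℕ) * A.Λ) • e0 d) := by abel
    rw [this]
    exact (norm_sub_le _ _).trans (by linarith)
  rw [← sub_smul, norm_smul, norm_e0, mul_one, ← sub_mul, norm_mul, Real.norm_eq_abs,
    Real.norm_eq_abs, abs_of_nonneg (le_trans zero_le_one A.one_le_Λ)] at h3
  have h4 : (1 : ℝ) ≤ |((i : ℕ) : ℝ) - ((j : ℕ) : ℝ)| := by
    have h5 : ((i : ℕ) : ℤ) ≠ ((j : ℕ) : ℤ) := by
      intro h; apply hij; ext; exact_mod_cast h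
    have h6 : (1 : ℤ) ≤ |((i : ℕ) : ℤ) - ((j : ℕ) : ℤ)| := by
      apply Int.one_le_abs; omega
    have : ((1 : ℤ) : ℝ) ≤ ((|((i : ℕ) : ℤ) - ((j : ℕ) : ℤ)| : ℤ) : ℝ) := by exact_mod_cast h6
    simpa using this
  have h5 := A.rOut_le_sum i
  have h6 := A.rOut_le_sum j
  have h7 : A.Λ ≤ |((i : ℕ) : ℝ) - ((j : ℕ) : ℝ)| * A.Λ :=
    le_mul_of_one_le_left (le_trans zero_le_one A.one_le_Λ) h4
  have h8 : A.Λ = 1 + 2 * ∑ i, (A.b i).rOut := rfl
  linarith

theorem exists_lt (t : ℝ) (ht : t ≤ 7 / 8) (x : M) : ∃ i, t < A.b i x := by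
  obtain ⟨i, hi⟩ := A.cover x
  exact ⟨i, ht.trans_lt hi⟩

open Classical in
/-- least element of a set of indices -/
noncomputable def minS {n : ℕ} [Nonempty (Fin n)] (s : Set (Fin n)) : Fin n :=
  if h : ∃ i, i ∈ s then Finset.min' (Finset.univ.filter (· ∈ s))
    (by obtain ⟨i, hi⟩ := h; exact ⟨i, by simp [hi]⟩)
  else Classical.arbitrary _

theorem minS_mem {n : ℕ} [Nonempty (Fin n)] {s : Set (Fin n)} (h : ∃ i, i ∈ s) :
    minS s ∈ s := by
  classical
  rw [minS, dif_pos h]
  have := Finset.min'_mem (Finset.univ.filter (· ∈ s))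
    (by obtain ⟨i, hi⟩ := h; exact ⟨i, by simp [hi]⟩)
  simpa using this

theorem minS_le {n : ℕ} [Nonempty (Fin n)] {s : Set (Fin n)} {i : Fin n} (h : i ∈ s) :
    minS s ≤ i := by
  classical
  rw [minS, dif_pos ⟨i, h⟩]
  exact Finset.min'_le _ _ (by simp [h])

/-- index of the first chart piece containing `x` -/
noncomputable def idx [Nonempty (Fin A.n)] (t : ℝ) (x : M) : Fin A.n :=
  minS ({i | t < A.b i x} : Set (Fin A.n))

variable [Nonempty (Fin A.n)]

theorem idx_spec {t : ℝ} (ht : t ≤ 7 / 8) (x : M) : t < A.b (A.idx t x) x :=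
  minS_mem (s := {i | t < A.b i x}) (A.exists_lt t ht x)

theorem idx_congr {t : ℝ} {x y : M} (h : ∀ j, t < A.b j x ↔ t < A.b j y) :
    A.idx t x = A.idx t y := by
  have : ({i | t < A.b i x} : Set (Fin A.n)) = {i | t < A.b i y} := by
    ext i; exact h i
  exact congrArg minS this

theorem idx_eq_iff {t : ℝ} (ht : t ≤ 7 / 8) (x : M) (i : Fin A.n) :
    A.idx t x = i ↔ t < A.b i x ∧ ∀ j < i, ¬ t < A.b j x := by
  constructor
  · rintro rfl
    refine ⟨A.idx_spec ht x, fun j hj hj' => ?_⟩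
    exact absurd (minS_le (s := {i | t < A.b i x}) hj') (not_le.mpr hj)
  · rintro ⟨h1, h2⟩
    apply le_antisymm (minS_le (s := {i | t < A.b i x}) h1)
    by_contra hlt
    rw [not_le] at hlt
    exact h2 _ hlt (A.idx_spec ht x)

variable [T2Space M] [IsManifold I ∞ M]

theorem measurable_idx [MeasurableSpace M] [BorelSpace M] {t : ℝ} (ht : t ≤ 7 / 8) :
    Measurable (A.idx t) := by
  apply measurable_to_countable'
  intro i
  have : A.idx t ⁻¹' {i} = {x | t < A.b i x} ∩ ⋂ j, ⋂ (_ : j < i), {x | t < A.b j x}ᶜ := by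
    ext x
    simp only [mem_preimage, mem_singleton_iff, mem_inter_iff, mem_iInter, mem_compl_iff]
    exact A.idx_eq_iff ht x i
  rw [this]
  refine MeasurableSet.inter (isOpen_lt continuous_const (A.b i).continuous).measurableSet ?_
  refine MeasurableSet.iInter fun j => MeasurableSet.iInter fun _ => ?_
  exact (isOpen_lt continuous_const (A.b j).continuous).measurableSet.compl

omit [T2Space M] [IsManifold I ∞ M] [Nonempty (Fin A.n)] in
/-- The set of points of the chart `i` with positive bump. -/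
theorem mem_of_pos {i : Fin A.n} {x : M} (h : 0 < A.b i x) :
    x ∈ (A.φ i).source ∧ A.φ i x ∈ ball (A.c i) (A.b i).rOut ∧ A.φ i x ∈ A.K i := by
  have h1 : x ∈ Function.support (A.b i) := h.ne'
  rw [SmoothBumpFunction.support_eq_inter_preimage] at h1
  have h2 : x ∈ (A.φ i).source := by rw [φ, extChartAt_source]; exact h1.1
  refine ⟨h2, h1.2, ball_subset_closedBall h1.2, ?_⟩
  exact extChartAt_target_subset_range _ ((A.φ i).map_source h2)

end Data

end

end Crest.Agent.R133.Mfd
end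

-- ▼ part R133/MfdB
section

/-! Row 133 (S0182), section 5 = MFD, part B: the embedding `F`, its inverse `G`,
measurability. -/

set_option autoImplicit false

namespace Crest.Agent.R133.Mfd

open MeasureTheory Metric Set Filter
open scoped Manifold ContDiff Topology ENNReal

theorem measurable_glue {α β : Type*} [MeasurableSpace α] [MeasurableSpace β] {n : ℕ}
    {k : α → Fin n} (hk : Measurable k) {g : Fin n → α → β} (hg : ∀ i, Measurable (g i)) :
    Measurable (fun x => g (k x) x) := by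
  have h1 : Measurable (fun q : α × Fin n => g q.2 q.1) := measurable_from_prod_countable_left hg
  exact h1.comp (measurable_id.prodMk hk)

section
variable {d : ℕ} {H : Type*} [TopologicalSpace H]
  {I : ModelWithCorners ℝ (EuclideanSpace ℝ (Fin (d + 1))) H}
  {M : Type*} [TopologicalSpace M] [ChartedSpace H M]

namespace Data
variable (A : Data I M) [Nonempty (Fin A.n)]

/-- the embedding -/
noncomputable def F (t : ℝ) (x : M) : EuclideanSpace ℝ (Fin (d + 1)) :=
  A.φ (A.idx t x) x + A.v (A.idx t x)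

open Classical in
/-- chart piece index of a point of Euclidean space -/
noncomputable def kdx (z : EuclideanSpace ℝ (Fin (d + 1))) : Fin A.n :=
  minS {i | z ∈ A.B i}

open Classical in
/-- piecewise inverse chart -/
noncomputable def Gt (x0 : M) (i : Fin A.n) : EuclideanSpace ℝ (Fin (d + 1)) → M :=
  (A.B i).piecewise (fun z => (A.φ i).symm (z - A.v i)) (fun _ => x0)

/-- the inverse of the embedding -/
noncomputable def G (x0 : M) (z : EuclideanSpace ℝ (Fin (d + 1))) : M :=
  A.Gt x0 (A.kdx z) z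

theorem kdx_eq {i : Fin A.n} {z : EuclideanSpace ℝ (Fin (d + 1))} (h : z ∈ A.B i) :
    A.kdx z = i :=
  A.B_disjoint (minS_mem (s := {i | z ∈ A.B i}) ⟨i, h⟩) h

theorem G_eq (x0 : M) {i : Fin A.n} {z : EuclideanSpace ℝ (Fin (d + 1))} (h : z ∈ A.B i) :
    A.G x0 z = (A.φ i).symm (z - A.v i) := by
  classical
  rw [G, A.kdx_eq h, Gt, piecewise_eq_of_mem _ _ _ h]

theorem F_mem {t : ℝ} (ht0 : 0 < t) (ht : t ≤ 7 / 8) (x : M) : A.F t x ∈ A.B (A.idx t x) := by
  show A.F t x - A.v (A.idx t x) ∈ A.K (A.idx t x)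
  rw [F, add_sub_cancel_right]
  exact (A.mem_of_pos (ht0.trans (A.idx_spec ht x))).2.2

theorem G_F (x0 : M) {t : ℝ} (ht0 : 0 < t) (ht : t ≤ 7 / 8) (x : M) : A.G x0 (A.F t x) = x := by
  rw [A.G_eq x0 (A.F_mem ht0 ht x), F, add_sub_cancel_right]
  exact (A.φ _).left_inv (A.mem_of_pos (ht0.trans (A.idx_spec ht x))).1

omit [Nonempty (Fin A.n)] in
theorem B_closed (i : Fin A.n) : IsClosed (A.B i) :=
  (A.K_compact i).isClosed.preimage (continuous_id.sub continuous_const)

theorem measurable_kdx : Measurable A.kdx := by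
  classical
  apply measurable_to_countable'
  intro i
  have : A.kdx ⁻¹' {i} = A.B i ∪ ((⋂ j, (A.B j)ᶜ) ∩ {_z | i = minS (∅ : Set (Fin A.n))}) := by
    ext z
    simp only [mem_preimage, mem_singleton_iff, mem_union, mem_inter_iff, mem_iInter,
      mem_compl_iff, mem_ofPred_eq]
    constructor
    · intro h
      by_cases hz : ∃ j, z ∈ A.B j
      · obtain ⟨j, hj⟩ := hz
        left
        rw [← h, A.kdx_eq hj]; exact hj
      · push Not at hz
        right
        refine ⟨hz, ?_⟩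
        rw [← h, kdx]
        congr 1
        ext j
        simp [hz j]
    · rintro (h | ⟨h1, h2⟩)
      · exact A.kdx_eq h
      · rw [h2, kdx]
        congr 1
        ext j
        simp [h1 j]
  rw [this]
  refine (A.B_closed i).measurableSet.union
    ((MeasurableSet.iInter fun j => (A.B_closed j).measurableSet.compl).inter ?_)
  exact MeasurableSet.const _

theorem measurable_Gt [MeasurableSpace M] [BorelSpace M] (x0 : M) (i : Fin A.n) :
    Measurable (A.Gt x0 i) := by
  classical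
  refine ContinuousOn.measurable_piecewise ?_ continuousOn_const (A.B_closed i).measurableSet
  have h : ContinuousOn (A.φ i).symm (A.φ i).target := continuousOn_extChartAt_symm _
  refine h.comp (continuous_id.sub continuous_const).continuousOn ?_
  intro z hz
  exact A.K_subset i hz

theorem measurable_G [MeasurableSpace M] [BorelSpace M] (x0 : M) : Measurable (A.G x0) :=
  measurable_glue (g := A.Gt x0) A.measurable_kdx (fun i => A.measurable_Gt x0 i)

variable [T2Space M] [IsManifold I ∞ M]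

theorem measurable_F [MeasurableSpace M] [BorelSpace M] {t : ℝ} (ht0 : 0 < t) (ht : t ≤ 7 / 8) :
    Measurable (A.F t) := by
  classical
  have h1 : ∀ i : Fin A.n, Measurable ((A.φ i).source.piecewise (fun x => A.φ i x)
      (fun _ => (0 : EuclideanSpace ℝ (Fin (d + 1))))) := by
    intro i
    refine ContinuousOn.measurable_piecewise ?_ continuousOn_const
      (isOpen_extChartAt_source _).measurableSet
    exact continuousOn_extChartAt _
  have h3 := measurable_glue (A.measurable_idx ht)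
    (g := fun i x => (A.φ i).source.piecewise (fun x => A.φ i x)
      (fun _ => (0 : EuclideanSpace ℝ (Fin (d + 1)))) x + A.v i)
    (fun i => (h1 i).add measurable_const)
  convert h3 using 1
  ext1 x
  simp only [F]
  rw [piecewise_eq_of_mem]
  exact (A.mem_of_pos (ht0.trans (A.idx_spec ht x))).1

end Data

end

end Crest.Agent.R133.Mfd
end

-- ▼ part R133/MfdC2
section

set_option autoImplicit false

/-! Row 133, MFD, sub-lemmas E3, E4, E5 of helper903's interface (helper315). -/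

open MeasureTheory Metric Set Topology
open scoped ENNReal NNReal

namespace Crest.Agent.R133.Mfd

variable {E : Type*} [NormedAddCommGroup E] [NormedSpace ℝ E] [FiniteDimensional ℝ E]

/-- (E3) uniform C² bounds on balls inside a compact set -/
theorem c2_bounds {F : E → E} {U C : Set E} (hU : UniqueDiffOn ℝ U) (hF : ContDiffOn ℝ 2 F U)
    (hC : IsCompact C) (hCU : C ⊆ U) :
    ∃ K : ℝ, 0 ≤ K ∧ ∀ (a : E) (r : ℝ), ball a r ⊆ C →
      (∀ y ∈ ball a r, DifferentiableAt ℝ F y ∧ ‖fderiv ℝ F y‖ ≤ K) ∧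
      (∀ y ∈ ball a r, ∀ z ∈ ball a r, ‖fderiv ℝ F y - fderiv ℝ F z‖ ≤ K * ‖y - z‖) := by
  have h1 : ContDiffOn ℝ 1 (fderivWithin ℝ F U) U := hF.fderivWithin hU (by norm_num)
  have h2 : ContinuousOn (fderivWithin ℝ (fderivWithin ℝ F U) U) U :=
    h1.continuousOn_fderivWithin hU (by norm_num)
  obtain ⟨K1, hK1⟩ := (hC.exists_bound_of_continuousOn (h1.continuousOn.mono hCU))
  obtain ⟨K2, hK2⟩ := (hC.exists_bound_of_continuousOn (h2.mono hCU))
  refine ⟨max (max K1 K2) 0, le_max_right _ _, ?_⟩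
  intro a r hball
  have hopen : IsOpen (ball a r) := isOpen_ball
  have hnhds : ∀ y ∈ ball a r, U ∈ 𝓝 y := fun y hy =>
    Filter.mem_of_superset (hopen.mem_nhds hy) (hball.trans hCU)
  have hdiff : ∀ y ∈ ball a r, DifferentiableAt ℝ F y := fun y hy =>
    ((hF.differentiableOn (by norm_num)) y (hCU (hball hy))).differentiableAt (hnhds y hy)
  have heq : ∀ y ∈ ball a r, fderivWithin ℝ F U y = fderiv ℝ F y := fun y hy =>
    fderivWithin_of_mem_nhds (hnhds y hy)
  refine ⟨fun y hy => ⟨hdiff y hy, ?_⟩, ?_⟩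
  · rw [← heq y hy]
    exact (hK1 y (hball hy)).trans ((le_max_left _ _).trans (le_max_left _ _))
  · intro y hy z hz
    have hD : ∀ x ∈ ball a r, HasFDerivWithinAt (fderivWithin ℝ F U)
        (fderivWithin ℝ (fderivWithin ℝ F U) U x) (ball a r) x := by
      intro x hx
      have hx' : DifferentiableWithinAt ℝ (fderivWithin ℝ F U) U x :=
        (h1.differentiableOn (by norm_num)) x (hCU (hball hx))
      exact (hx'.hasFDerivWithinAt).mono (hball.trans hCU)
    have hbound : ∀ x ∈ ball a r, ‖fderivWithin ℝ (fderivWithin ℝ F U) U x‖ ≤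
        max (max K1 K2) 0 := fun x hx =>
      (hK2 x (hball hx)).trans ((le_max_right _ _).trans (le_max_left _ _))
    have := (convex_ball a r).norm_image_sub_le_of_norm_hasFDerivWithin_le hD hbound hz hy
    rwa [heq y hy, heq z hz] at this

/-- (E4) uniform bound for the inverse of the derivative -/
theorem inv_bound {G : E → E} {U' C' : Set E} (hU' : UniqueDiffOn ℝ U')
    (hG : ContDiffOn ℝ 1 G U') (hC' : IsCompact C') (hCU' : C' ⊆ U') :
    ∃ K : ℝ, 0 ≤ K ∧ ∀ (F : E → E) (y : E), DifferentiableAt ℝ F y → F y ∈ C' →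
      (∀ᶠ z in 𝓝 y, F z ∈ U' ∧ G (F z) = z) →
      ∃ B : E →L[ℝ] E, B.comp (fderiv ℝ F y) = ContinuousLinearMap.id ℝ E ∧
        (fderiv ℝ F y).comp B = ContinuousLinearMap.id ℝ E ∧ ‖B‖ ≤ K := by
  have h1 : ContinuousOn (fderivWithin ℝ G U') U' :=
    hG.continuousOn_fderivWithin hU' (by norm_num)
  obtain ⟨K1, hK1⟩ := (hC'.exists_bound_of_continuousOn (h1.mono hCU'))
  refine ⟨max K1 0, le_max_right _ _, ?_⟩
  intro F y hFy hFC hev
  have hGd : HasFDerivWithinAt G (fderivWithin ℝ G U' (F y)) U' (F y) :=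
    ((hG.differentiableOn (by norm_num)) (F y) (hCU' hFC)).hasFDerivWithinAt
  set V : Set E := {z | F z ∈ U' ∧ G (F z) = z} with hV
  have hVn : V ∈ 𝓝 y := hev
  have hcomp : HasFDerivWithinAt (G ∘ F) ((fderivWithin ℝ G U' (F y)).comp (fderiv ℝ F y)) V y :=
    hGd.comp y (hFy.hasFDerivAt.hasFDerivWithinAt) (fun z hz => hz.1)
  have hcomp2 : HasFDerivAt (G ∘ F) ((fderivWithin ℝ G U' (F y)).comp (fderiv ℝ F y)) y :=
    hcomp.hasFDerivAt hVn
  have hid : HasFDerivAt (G ∘ F) (ContinuousLinearMap.id ℝ E) y := by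
    have : HasFDerivAt (fun z : E => z) (ContinuousLinearMap.id ℝ E) y := hasFDerivAt_id y
    refine this.congr_of_eventuallyEq ?_
    filter_upwards [hev] with z hz using hz.2
  have hB : (fderivWithin ℝ G U' (F y)).comp (fderiv ℝ F y) = ContinuousLinearMap.id ℝ E :=
    hcomp2.unique hid
  refine ⟨fderivWithin ℝ G U' (F y), hB, ?_, (hK1 _ hFC).trans (le_max_left _ _)⟩
  have hinj : Function.Injective (fderiv ℝ F y) := by
    intro v w hvw
    have h1 := congrArg (fun L : E →L[ℝ] E => L v) hB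
    have h2 := congrArg (fun L : E →L[ℝ] E => L w) hB
    simp only [ContinuousLinearMap.comp_apply, ContinuousLinearMap.id_apply] at h1 h2
    rw [← h1, ← h2, hvw]
  have hsurj : Function.Surjective (fderiv ℝ F y) :=
    LinearMap.surjective_of_injective (f := ((fderiv ℝ F y : E →L[ℝ] E) : E →ₗ[ℝ] E)) hinj
  ext v
  obtain ⟨w, rfl⟩ := hsurj v
  have h1 := congrArg (fun L : E →L[ℝ] E => L w) hB
  simp only [ContinuousLinearMap.comp_apply, ContinuousLinearMap.id_apply] at h1 ⊢
  rw [h1]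

/-- (E5) Lipschitz bound on compact convex sets -/
theorem lip_convex {h : E → ℝ} {U K : Set E} (hU : UniqueDiffOn ℝ U) (hh : ContDiffOn ℝ 1 h U)
    (hK : IsCompact K) (hKU : K ⊆ U) (hconv : Convex ℝ K) :
    ∃ L : ℝ, 0 ≤ L ∧ ∀ x ∈ K, ∀ y ∈ K, |h x - h y| ≤ L * ‖x - y‖ := by
  have h1 : ContinuousOn (fderivWithin ℝ h U) U :=
    hh.continuousOn_fderivWithin hU (by norm_num)
  obtain ⟨K1, hK1⟩ := (hK.exists_bound_of_continuousOn (h1.mono hKU))
  refine ⟨max K1 0, le_max_right _ _, ?_⟩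
  intro x hx y hy
  have hD : ∀ z ∈ K, HasFDerivWithinAt h (fderivWithin ℝ h U z) K z := fun z hz =>
    (((hh.differentiableOn (by norm_num)) z (hKU hz)).hasFDerivWithinAt).mono hKU
  have := hconv.norm_image_sub_le_of_norm_hasFDerivWithin_le hD
    (fun z hz => (hK1 z hz).trans (le_max_left K1 0)) hy hx
  rwa [Real.norm_eq_abs] at this

end Crest.Agent.R133.Mfd
end

-- ▼ part R133/MfdDens
section

set_option autoImplicit false

/-! Row 133, MFD: density bounds in charts (helper315). -/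

open MeasureTheory Metric Set Topology
open scoped ENNReal NNReal Manifold ContDiff

namespace Crest.Agent.R133.Mfd

variable {d : ℕ} {H : Type*} [TopologicalSpace H]
  {I : ModelWithCorners ℝ (EuclideanSpace ℝ (Fin d)) H}
  {M : Type*} [TopologicalSpace M] [ChartedSpace H M] [MeasurableSpace M] [BorelSpace M]

/-- two-sided density bounds on compact subsets of the chart image -/
theorem density_bounds {ν : Measure M} (hν : Crest.AnalysisR.HasSmoothPositiveDensity I ν)
    {e : OpenPartialHomeomorph M H} (he : e ∈ atlas H M)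
    {C : Set (EuclideanSpace ℝ (Fin d))} (hC : IsCompact C) (hCt : C ⊆ (e.extend I).target) :
    ∃ D : ℝ, 1 ≤ D ∧ ∀ A : Set (EuclideanSpace ℝ (Fin d)), MeasurableSet A → A ⊆ C →
      ν ((e.extend I).source ∩ (e.extend I) ⁻¹' A) ≤ ENNReal.ofReal D * volume A ∧
      volume A ≤ ENNReal.ofReal D * ν ((e.extend I).source ∩ (e.extend I) ⁻¹' A) := by
  obtain ⟨f, hf, hpos, hmap⟩ := hν e he
  have htarget : (e.extend I).target = I '' e.target := by
    rw [e.extend_target, ← I.image_eq]
  rw [htarget] at hCt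
  have hcont : ContinuousOn f C := hf.continuousOn.mono hCt
  obtain ⟨K1, hK1⟩ := hC.exists_bound_of_continuousOn hcont
  have hcont2 : ContinuousOn (fun x => (f x)⁻¹) C :=
    hcont.inv₀ (fun x hx => (hpos x (hCt hx)).ne')
  obtain ⟨K2, hK2⟩ := hC.exists_bound_of_continuousOn hcont2
  set D : ℝ := max 1 (max K1 K2) with hD
  have hD1 : (1:ℝ) ≤ D := le_max_left _ _
  have hfD : ∀ x ∈ C, f x ≤ D := fun x hx =>
    (le_abs_self _).trans ((hK1 x hx).trans ((le_max_left _ _).trans (le_max_right _ _)))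
  have hfD' : ∀ x ∈ C, (1:ℝ) ≤ D * f x := by
    intro x hx
    have h1 : (f x)⁻¹ ≤ D :=
      (le_abs_self _).trans ((hK2 x hx).trans ((le_max_right _ _).trans (le_max_right _ _)))
    have h2 := hpos x (hCt hx)
    rw [inv_le_iff_one_le_mul₀ h2] at h1
    exact h1
  refine ⟨D, hD1, fun A hA hAC => ?_⟩
  have hsrc : (e.extend I).source = e.source := e.extend_source
  have hmeasI : AEMeasurable (I ∘ e) (ν.restrict e.source) := by
    have hco : ContinuousOn (I ∘ e) e.source := I.continuous.comp_continuousOn e.continuousOn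
    exact hco.aemeasurable e.open_source.measurableSet
  have hkey : ν ((e.extend I).source ∩ (e.extend I) ⁻¹' A) =
      ∫⁻ y in A, ENNReal.ofReal (f y) := by
    have h1 : ((ν.restrict e.source).map (I ∘ e)) A =
        ν ((e.extend I).source ∩ (e.extend I) ⁻¹' A) := by
      rw [Measure.map_apply_of_aemeasurable hmeasI hA, Measure.restrict_apply₀', hsrc]
      · rw [inter_comm]; rfl
      · exact e.open_source.measurableSet.nullMeasurableSet
    rw [← h1, hmap, withDensity_apply _ hA, Measure.restrict_restrict hA]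
    congr 2
    exact inter_eq_left.mpr (hAC.trans hCt)
  rw [hkey]
  constructor
  · calc ∫⁻ y in A, ENNReal.ofReal (f y) ≤ ∫⁻ y in A, ENNReal.ofReal D := by
          apply setLIntegral_mono' hA
          intro x hx
          exact ENNReal.ofReal_le_ofReal (hfD x (hAC hx))
      _ = ENNReal.ofReal D * volume A := by rw [setLIntegral_const]
  · calc volume A = ∫⁻ y in A, 1 := by rw [setLIntegral_const, one_mul]
      _ ≤ ∫⁻ y in A, ENNReal.ofReal D * ENNReal.ofReal (f y) := by
          apply setLIntegral_mono' hA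
          intro x hx
          rw [← ENNReal.ofReal_mul (by linarith)]
          rw [← ENNReal.ofReal_one]
          exact ENNReal.ofReal_le_ofReal (hfD' x (hAC hx))
      _ = ENNReal.ofReal D * ∫⁻ y in A, ENNReal.ofReal (f y) := by
          rw [lintegral_const_mul' _ _ ENNReal.ofReal_ne_top]

end Crest.Agent.R133.Mfd
end

-- ▼ part R133/MfdC
section

/-! Row 133 (S0182), section 5 = MFD, part C: chart expressions of smooth maps, uniform
constants. -/

set_option autoImplicit false

namespace Crest.Agent.R133.Mfd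

open MeasureTheory Metric Set Filter
open scoped Manifold ContDiff Topology ENNReal

section
variable {d : ℕ} {H : Type*} [TopologicalSpace H]
  {I : ModelWithCorners ℝ (EuclideanSpace ℝ (Fin (d + 1))) H}
  {M : Type*} [TopologicalSpace M] [ChartedSpace H M]

namespace Data
variable (A : Data I M)

/-- chart expression of a map -/
noncomputable def expr (S : M → M) (i k : Fin A.n) (y : EuclideanSpace ℝ (Fin (d + 1))) :
    EuclideanSpace ℝ (Fin (d + 1)) := A.φ k (S ((A.φ i).symm y))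

/-- domain of the chart expression -/
def U (S : M → M) (i k : Fin A.n) : Set (EuclideanSpace ℝ (Fin (d + 1))) :=
  (A.φ i).target ∩ (A.φ i).symm ⁻¹' (S ⁻¹' (A.φ k).source)

/-- compact part of the domain -/
def C (S : M → M) (i k : Fin A.n) : Set (EuclideanSpace ℝ (Fin (d + 1))) :=
  {y | y ∈ A.K i ∧ 1 / 2 ≤ A.b k (S ((A.φ i).symm y))}

theorem C_subset (S : M → M) (i k : Fin A.n) : A.C S i k ⊆ A.U S i k := by
  rintro y ⟨h1, h2⟩
  refine ⟨A.K_subset i h1, ?_⟩
  exact (A.mem_of_pos (lt_of_lt_of_le (by norm_num) h2)).1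

theorem C_subset_K (S : M → M) (i k : Fin A.n) : A.C S i k ⊆ A.K i := fun _ h => h.1

variable [IsManifold I ∞ M]

instance : IsManifold I 1 M := IsManifold.of_le (m := 1) (n := ∞) (by norm_num)

theorem expr_contDiffOn {S : M → M} (hS : ContMDiff I I ∞ S) (i k : Fin A.n) :
    ContDiffOn ℝ ∞ (A.expr S i k) (A.U S i k) :=
  (contMDiff_iff.mp hS).2 (A.p i) (A.p k)

theorem U_unique {S : M → M} (hS : Continuous S) (i k : Fin A.n) :
    UniqueDiffOn ℝ (A.U S i k) := by
  have h1 : IsOpen (S ⁻¹' (A.φ k).source) := (isOpen_extChartAt_source _).preimage hS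
  have h2 : UniqueMDiffOn I (S ⁻¹' (A.φ k).source) := h1.uniqueMDiffOn
  exact h2.uniqueDiffOn_target_inter (A.p i)

variable [T2Space M]

theorem C_compact {S : M → M} (hS : Continuous S) (i k : Fin A.n) :
    IsCompact (A.C S i k) := by
  have h1 : ContinuousOn (fun y => A.b k (S ((A.φ i).symm y))) (A.K i) := by
    have h : ContinuousOn (A.φ i).symm (A.φ i).target := continuousOn_extChartAt_symm _
    exact ((A.b k).continuous.comp hS).comp_continuousOn (h.mono (A.K_subset i))
  have h2 : IsClosed (A.C S i k) := by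
    have := h1.preimage_isClosed_of_isClosed (A.K_compact i).isClosed (isClosed_Ici (a := (1/2 : ℝ)))
    exact this
  exact (A.K_compact i).of_isClosed_subset h2 (A.C_subset_K S i k)

theorem bump_contDiffOn {S : M → M} (hS : ContMDiff I I ∞ S) (i j : Fin A.n) :
    ContDiffOn ℝ ∞ (fun y => A.b j (S ((A.φ i).symm y))) (A.φ i).target := by
  have h1 : ContMDiff I 𝓘(ℝ, ℝ) ∞ (fun x => A.b j (S x)) := (A.b j).contMDiff.comp hS
  have h2 := (contMDiff_iff.mp h1).2 (A.p i) 0
  rw [extChartAt_model_space_eq_id] at h2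
  exact h2.mono (fun y hy => ⟨hy, trivial⟩)

omit [IsManifold I ∞ M] [T2Space M] in
theorem target_unique (i : Fin A.n) : UniqueDiffOn ℝ (A.φ i).target :=
  uniqueDiffOn_extChartAt_target _

/-- uniform Lipschitz constant of the bumps (composed with `S`) in charts -/
theorem exists_lip {S : M → M} (hS : ContMDiff I I ∞ S) :
    ∃ L : ℝ, 1 ≤ L ∧ ∀ i j, ∀ x ∈ A.K i, ∀ y ∈ A.K i,
      |A.b j (S ((A.φ i).symm x)) - A.b j (S ((A.φ i).symm y))| ≤ L * ‖x - y‖ := by
  have h := fun q : Fin A.n × Fin A.n => lip_convex (A.target_unique q.1)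
    ((A.bump_contDiffOn hS q.1 q.2).of_le (by norm_num)) (A.K_compact q.1) (A.K_subset q.1)
    (A.K_convex q.1)
  choose L hL0 hL using h
  obtain ⟨L0, hL0'⟩ := (Set.finite_range L).bddAbove
  refine ⟨max 1 L0, le_max_left _ _, fun i j x hx y hy => ?_⟩
  refine (hL (i, j) x hx y hy).trans ?_
  exact mul_le_mul_of_nonneg_right ((hL0' (mem_range_self (i, j))).trans (le_max_right _ _))
    (norm_nonneg _)

/-- uniform C² bounds -/
theorem exists_c2 {S : M → M} (hS : ContMDiff I I ∞ S) :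
    ∃ K : ℝ, 0 ≤ K ∧ ∀ (i k : Fin A.n) (a : EuclideanSpace ℝ (Fin (d + 1))) (r : ℝ),
      ball a r ⊆ A.C S i k →
      (∀ y ∈ ball a r, DifferentiableAt ℝ (A.expr S i k) y ∧ ‖fderiv ℝ (A.expr S i k) y‖ ≤ K) ∧
      (∀ y ∈ ball a r, ∀ z ∈ ball a r,
        ‖fderiv ℝ (A.expr S i k) y - fderiv ℝ (A.expr S i k) z‖ ≤ K * ‖y - z‖) := by
  have h := fun q : Fin A.n × Fin A.n => c2_bounds (A.U_unique hS.continuous q.1 q.2)
    ((A.expr_contDiffOn hS q.1 q.2).of_le (by norm_cast)) (A.C_compact hS.continuous q.1 q.2)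
    (A.C_subset S q.1 q.2)
  choose K hK0 hK using h
  obtain ⟨K0, hK0'⟩ := (Set.finite_range K).bddAbove
  refine ⟨max 0 K0, le_max_left _ _, fun i k a r hball => ?_⟩
  have hle : K (i, k) ≤ max 0 K0 := (hK0' (mem_range_self (i, k))).trans (le_max_right _ _)
  obtain ⟨h1, h2⟩ := hK (i, k) a r hball
  refine ⟨fun y hy => ⟨(h1 y hy).1, (h1 y hy).2.trans hle⟩, fun y hy z hz => ?_⟩
  exact (h2 y hy z hz).trans (mul_le_mul_of_nonneg_right hle (norm_nonneg _))

/-- uniform inverse bounds; `T` is the inverse map -/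
theorem exists_inv {T : M → M} (hT : ContMDiff I I ∞ T) :
    ∃ K : ℝ, 0 ≤ K ∧ ∀ (k i : Fin A.n)
      (F : EuclideanSpace ℝ (Fin (d + 1)) → EuclideanSpace ℝ (Fin (d + 1)))
      (y : EuclideanSpace ℝ (Fin (d + 1))), DifferentiableAt ℝ F y → F y ∈ A.C T k i →
      (∀ᶠ z in 𝓝 y, F z ∈ A.U T k i ∧ A.expr T k i (F z) = z) →
      ∃ B : EuclideanSpace ℝ (Fin (d + 1)) →L[ℝ] EuclideanSpace ℝ (Fin (d + 1)),
        B.comp (fderiv ℝ F y) = ContinuousLinearMap.id ℝ _ ∧
        (fderiv ℝ F y).comp B = ContinuousLinearMap.id ℝ _ ∧ ‖B‖ ≤ K := by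
  have h := fun q : Fin A.n × Fin A.n => inv_bound (A.U_unique hT.continuous q.1 q.2)
    ((A.expr_contDiffOn hT q.1 q.2).of_le (by norm_cast)) (A.C_compact hT.continuous q.1 q.2)
    (A.C_subset T q.1 q.2)
  choose K hK0 hK using h
  obtain ⟨K0, hK0'⟩ := (Set.finite_range K).bddAbove
  refine ⟨max 0 K0, le_max_left _ _, fun k i F y hd hm he => ?_⟩
  have hle : K (k, i) ≤ max 0 K0 := (hK0' (mem_range_self (k, i))).trans (le_max_right _ _)
  obtain ⟨B, h1, h2, h3⟩ := hK (k, i) F y hd hm he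
  exact ⟨B, h1, h2, h3.trans hle⟩

/-- uniform margin -/
theorem exists_margin : ∃ δ : ℝ, 0 < δ ∧ ∀ (i : Fin A.n) (x : M), 1 / 2 ≤ A.b i x →
    ball (A.φ i x) δ ⊆ ball (A.c i) (A.b i).rOut := by
  rcases isEmpty_or_nonempty (Fin A.n) with he | he
  · exact ⟨1, one_pos, fun i => he.elim i⟩
  have h : ∀ i : Fin A.n, ∃ δ : ℝ, 0 < δ ∧ ∀ x : M, 1 / 2 ≤ A.b i x →
      ball (A.φ i x) δ ⊆ ball (A.c i) (A.b i).rOut := by
    intro i
    obtain ⟨r, hr, hsub⟩ := (A.b i).exists_r_pos_lt_subset_ball (s := {x | 1 / 2 ≤ A.b i x})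
      (isClosed_le continuous_const (A.b i).continuous) (by
        intro x hx
        have hx' : (1 : ℝ) / 2 ≤ A.b i x := hx
        exact (lt_of_lt_of_le (by norm_num : (0 : ℝ) < 1 / 2) hx').ne')
    refine ⟨(A.b i).rOut - r, by linarith [hr.2], fun x hx => ?_⟩
    apply ball_subset_ball'
    have h2 := (hsub hx).2
    rw [mem_preimage, mem_ball] at h2
    have h3 : dist (A.φ i x) (A.c i) < r := h2
    linarith
  choose δ hδ0 hδ using h
  obtain ⟨i0, hi0⟩ := Finite.exists_min δ
  exact ⟨δ i0, hδ0 i0, fun i x hx => (ball_subset_ball (hi0 i)).trans (hδ i x hx)⟩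

omit [IsManifold I ∞ M] [T2Space M] in
/-- uniform density bounds -/
theorem exists_dens [MeasurableSpace M] [BorelSpace M] {ν : Measure M}
    (hν : Crest.AnalysisR.HasSmoothPositiveDensity I ν) :
    ∃ D : ℝ, 1 ≤ D ∧ ∀ (i : Fin A.n) (s : Set (EuclideanSpace ℝ (Fin (d + 1)))),
      MeasurableSet s → s ⊆ A.K i →
      ν ((A.φ i).source ∩ (A.φ i) ⁻¹' s) ≤ ENNReal.ofReal D * volume s ∧
      volume s ≤ ENNReal.ofReal D * ν ((A.φ i).source ∩ (A.φ i) ⁻¹' s) := by
  have h := fun i : Fin A.n => density_bounds hν (e := chartAt H (A.p i)) (chart_mem_atlas _ _)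
    (A.K_compact i) (A.K_subset i)
  choose D hD1 hD using h
  obtain ⟨D0, hD0⟩ := (Set.finite_range D).bddAbove
  refine ⟨max 1 D0, le_max_left _ _, fun i s hs hsK => ?_⟩
  have hle : D i ≤ max 1 D0 := (hD0 (mem_range_self i)).trans (le_max_right _ _)
  obtain ⟨h1, h2⟩ := hD i s hs hsK
  exact ⟨h1.trans (mul_le_mul_left (ENNReal.ofReal_le_ofReal hle) _),
    h2.trans (mul_le_mul_left (ENNReal.ofReal_le_ofReal hle) _)⟩

end Data

end

end Crest.Agent.R133.Mfd
end

-- ▼ part R133/MfdD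
section

/-! Row 133 (S0182), section 5 = MFD, part D: local structure near good points and `Reg`. -/

set_option autoImplicit false

namespace Crest.Agent.R133.Mfd

open MeasureTheory Metric Set Filter
open scoped Manifold ContDiff Topology ENNReal

section
variable {d : ℕ} {H : Type*} [TopologicalSpace H]
  {I : ModelWithCorners ℝ (EuclideanSpace ℝ (Fin (d + 1))) H}
  {M : Type*} [TopologicalSpace M] [ChartedSpace H M]

namespace Data
variable (A : Data I M) [Nonempty (Fin A.n)]

/-- all constants needed for the local analysis of `S` -/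
structure Cst (S T : M → M) (t : ℝ) [MeasurableSpace M] (ν : Measure M) where
  L : ℝ
  K1 : ℝ
  K2 : ℝ
  δ : ℝ
  D0 : ℝ
  ht0 : 1 / 2 < t
  ht1 : t ≤ 7 / 8
  hL1 : 1 ≤ L
  hL : ∀ i j, ∀ x ∈ A.K i, ∀ y ∈ A.K i,
      |A.b j ((A.φ i).symm x) - A.b j ((A.φ i).symm y)| ≤ L * ‖x - y‖
  hLS : ∀ i j, ∀ x ∈ A.K i, ∀ y ∈ A.K i,
      |A.b j (S ((A.φ i).symm x)) - A.b j (S ((A.φ i).symm y))| ≤ L * ‖x - y‖
  hK1 : ∀ (i k : Fin A.n) (a : EuclideanSpace ℝ (Fin (d + 1))) (r : ℝ),
      ball a r ⊆ A.C S i k →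
      (∀ y ∈ ball a r, DifferentiableAt ℝ (A.expr S i k) y ∧ ‖fderiv ℝ (A.expr S i k) y‖ ≤ K1) ∧
      (∀ y ∈ ball a r, ∀ z ∈ ball a r,
        ‖fderiv ℝ (A.expr S i k) y - fderiv ℝ (A.expr S i k) z‖ ≤ K1 * ‖y - z‖)
  hK2 : ∀ (k i : Fin A.n)
      (F : EuclideanSpace ℝ (Fin (d + 1)) → EuclideanSpace ℝ (Fin (d + 1)))
      (y : EuclideanSpace ℝ (Fin (d + 1))), DifferentiableAt ℝ F y → F y ∈ A.C T k i →
      (∀ᶠ z in 𝓝 y, F z ∈ A.U T k i ∧ A.expr T k i (F z) = z) →
      ∃ B : EuclideanSpace ℝ (Fin (d + 1)) →L[ℝ] EuclideanSpace ℝ (Fin (d + 1)),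
        B.comp (fderiv ℝ F y) = ContinuousLinearMap.id ℝ _ ∧
        (fderiv ℝ F y).comp B = ContinuousLinearMap.id ℝ _ ∧ ‖B‖ ≤ K2
  hδ0 : 0 < δ
  hδ : ∀ (i : Fin A.n) (x : M), 1 / 2 ≤ A.b i x →
    ball (A.φ i x) δ ⊆ ball (A.c i) (A.b i).rOut
  hD1 : 1 ≤ D0
  hD : ∀ (i : Fin A.n) (s : Set (EuclideanSpace ℝ (Fin (d + 1)))),
      MeasurableSet s → s ⊆ A.K i →
      ν ((A.φ i).source ∩ (A.φ i) ⁻¹' s) ≤ ENNReal.ofReal D0 * volume s ∧
      volume s ≤ ENNReal.ofReal D0 * ν ((A.φ i).source ∩ (A.φ i) ⁻¹' s)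

variable {A} {S T : M → M} {t : ℝ} [MeasurableSpace M] {ν : Measure M}

/-- local structure near a good point -/
theorem local_struct (c : A.Cst S T t ν) {r : ℝ} (hrδ : r ≤ c.δ) {x : M}
    (h1 : ∀ j, c.L * r ≤ |A.b j x - t|) (h2 : ∀ j, c.L * r ≤ |A.b j (S x) - t|)
    (h3 : ball (A.φ (A.idx t x) x) r ⊆ range I)
    {y : EuclideanSpace ℝ (Fin (d + 1))} (hy : y ∈ ball (A.φ (A.idx t x) x) r) :
    y ∈ A.K (A.idx t x) ∧ A.idx t ((A.φ (A.idx t x)).symm y) = A.idx t x ∧
      A.idx t (S ((A.φ (A.idx t x)).symm y)) = A.idx t (S x) := by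
  set i := A.idx t x with hi
  have hbi : t < A.b i x := A.idx_spec c.ht1 x
  have hpos : 0 < A.b i x := by linarith [c.ht0]
  obtain ⟨hs, -, hK⟩ := A.mem_of_pos hpos
  have hyK : y ∈ A.K i := by
    refine ⟨ball_subset_closedBall (c.hδ i x (by linarith [c.ht0]) (ball_subset_ball hrδ hy)),
      h3 hy⟩
  have hnorm : ‖y - A.φ i x‖ < r := by rwa [mem_ball, dist_eq_norm] at hy
  have hinv : (A.φ i).symm (A.φ i x) = x := (A.φ i).left_inv hs
  have hL0 : 0 < c.L := lt_of_lt_of_le one_pos c.hL1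
  have hsign : ∀ a b : ℝ, c.L * r ≤ |a - t| → |b - a| < c.L * r → (t < b ↔ t < a) := by
    intro a b ha hb
    rw [abs_lt] at hb
    constructor
    · intro h
      by_contra hle
      rw [not_lt] at hle
      rw [abs_of_nonpos (by linarith)] at ha
      linarith
    · intro h
      rw [abs_of_pos (by linarith)] at ha
      linarith
  refine ⟨hyK, ?_, ?_⟩
  · apply A.idx_congr
    intro j
    apply hsign _ _ (h1 j)
    have := c.hL i j y hyK _ hK
    rw [hinv] at this
    exact lt_of_le_of_lt this ((mul_lt_mul_iff_right₀ hL0).mpr hnorm)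
  · apply A.idx_congr
    intro j
    apply hsign _ _ (h2 j)
    have := c.hLS i j y hyK _ hK
    rw [hinv] at this
    exact lt_of_le_of_lt this ((mul_lt_mul_iff_right₀ hL0).mpr hnorm)

/-- bound on the values of the embedding -/
theorem norm_F_le (ht0 : 0 < t) (ht1 : t ≤ 7 / 8) (x : M) :
    ‖A.F t x‖ ≤ A.Λ + A.n * A.Λ := by
  have h := (A.mem_of_pos (ht0.trans (A.idx_spec ht1 x))).2.2.1
  rw [mem_closedBall, dist_eq_norm] at h
  have h2 : A.F t x = (A.φ (A.idx t x) x - A.c (A.idx t x)) +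
      ((A.idx t x : ℕ) * A.Λ) • e0 d := by
    simp only [F, v]; abel
  rw [h2]
  refine (norm_add_le _ _).trans (add_le_add ?_ ?_)
  · refine h.trans ((A.rOut_le_sum _).trans ?_)
    have h3 : A.Λ = 1 + 2 * ∑ i, (A.b i).rOut := rfl
    have : 0 ≤ ∑ i, (A.b i).rOut := Finset.sum_nonneg fun j _ => (A.b j).rOut_pos.le
    linarith
  · have hΛ : 0 ≤ A.Λ := le_trans zero_le_one A.one_le_Λ
    rw [norm_smul, norm_e0, mul_one, Real.norm_eq_abs, abs_of_nonneg (by positivity)]
    apply mul_le_mul_of_nonneg_right _ hΛ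
    exact_mod_cast (A.idx t x).2.le

/-- the map in Euclidean space -/
noncomputable def fm (A : Data I M) [Nonempty (Fin A.n)] (S : M → M) (t : ℝ) (x0 : M)
    (z : EuclideanSpace ℝ (Fin (d + 1))) : EuclideanSpace ℝ (Fin (d + 1)) :=
  A.F t (S (A.G x0 z))

variable [BorelSpace M]

/-- regularity at good points -/
theorem reg_of_good (c : A.Cst S T t ν) (x0 : M) (hTS : ∀ x, T (S x) = x)
    (hFm : Measurable (A.F t))
    {r : ℝ} (hr : 0 < r) (hrδ : r ≤ c.δ) {x : M}
    (h1 : ∀ j, c.L * r ≤ |A.b j x - t|) (h2 : ∀ j, c.L * r ≤ |A.b j (S x) - t|)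
    (h3 : ball (A.φ (A.idx t x) x) r ⊆ range I)
    {D : ℝ} (hDD : c.D0 ≤ D) (hDK1 : c.K1 ≤ D) (hDK2 : c.K2 ≤ D) (hDΛ : A.Λ + A.n * A.Λ ≤ D) :
    Reg D (A.fm S t x0) (ν.map (A.F t)) r (A.F t x) := by
  set i := A.idx t x with hi
  set k := A.idx t (S x) with hk
  have hFx : A.F t x = A.φ i x + A.v i := rfl
  have ht0 : 0 < t := by linarith [c.ht0]
  -- translation to chart coordinates
  have htr : ∀ y ∈ ball (A.F t x) r, y - A.v i ∈ ball (A.φ i x) r := by
    intro y hy
    rw [mem_ball, dist_eq_norm] at hy ⊢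
    rw [hFx] at hy
    have : y - A.v i - A.φ i x = y - (A.φ i x + A.v i) := by abel
    rw [this]; exact hy
  have hloc := fun y hy => local_struct c hrδ h1 h2 h3 (y := y) hy
  have hG : ∀ y ∈ ball (A.F t x) r, A.G x0 y = (A.φ i).symm (y - A.v i) := by
    intro y hy
    exact A.G_eq x0 (hloc _ (htr y hy)).1
  -- membership in the compact sets
  have hC : ball (A.φ i x) r ⊆ A.C S i k := by
    intro y hy
    obtain ⟨hy1, hy2, hy3⟩ := hloc y hy
    refine ⟨hy1, ?_⟩
    have := A.idx_spec c.ht1 (S ((A.φ i).symm y))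
    rw [hy3] at this
    linarith [c.ht0]
  have hw : ∀ y ∈ ball (A.φ i x) r, S ((A.φ i).symm y) ∈ (A.φ k).source ∧
      A.φ k (S ((A.φ i).symm y)) ∈ A.K k := by
    intro y hy
    obtain ⟨hy1, hy2, hy3⟩ := hloc y hy
    have := A.idx_spec c.ht1 (S ((A.φ i).symm y))
    rw [hy3] at this
    obtain ⟨e1, -, e2⟩ := A.mem_of_pos (ht0.trans this)
    exact ⟨e1, e2⟩
  have hfm : ∀ y ∈ ball (A.F t x) r, A.fm S t x0 y = A.expr S i k (y - A.v i) + A.v k := by
    intro y hy
    rw [fm, hG y hy, F, (hloc _ (htr y hy)).2.2]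
    rfl
  obtain ⟨hd1, hd2⟩ := c.hK1 i k _ _ hC
  have hder : ∀ y ∈ ball (A.F t x) r,
      HasFDerivAt (A.fm S t x0) (fderiv ℝ (A.expr S i k) (y - A.v i)) y := by
    intro y hy
    have e1 := (hd1 _ (htr y hy)).1.hasFDerivAt
    have e2 : HasFDerivAt (fun z => A.expr S i k (z - A.v i) + A.v k)
        (fderiv ℝ (A.expr S i k) (y - A.v i)) y :=
      ((hasFDerivAt_comp_sub (A.v i)).mpr e1).add_const _
    apply e2.congr_of_eventuallyEq
    filter_upwards [isOpen_ball.mem_nhds hy] with z hz using hfm z hz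
  have hexp : ∀ a : ℝ, a ≤ D → a ≤ Real.exp D := fun a ha => by
    linarith [Real.add_one_le_exp D]
  have hGF : ∀ x, A.G x0 (A.F t x) = x := fun x => A.G_F x0 ht0 c.ht1 x
  have hFG : ∀ y ∈ ball (A.F t x) r, A.F t (A.G x0 y) = y := by
    intro y hy
    obtain ⟨hy1, hy2, hy3⟩ := hloc _ (htr y hy)
    rw [hG y hy, F, hy2, (A.φ i).right_inv (A.K_subset i hy1)]
    abel
  refine ⟨fun y hy => (hder y hy).differentiableAt, fun y hy => ?_, fun y hy => ?_,
    fun y hy => ?_, fun y hy => ?_, fun y hy z hz => ?_, ?_⟩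
  · rw [(hder y hy).fderiv]
    exact (hd1 _ (htr y hy)).2.trans (hexp _ hDK1)
  · rw [(hder y hy).fderiv]
    have hy' := htr y hy
    obtain ⟨B, hB1, hB2, hB3⟩ := c.hK2 k i (A.expr S i k) (y - A.v i) (hd1 _ hy').1 (by
      refine ⟨(hw _ hy').2, ?_⟩
      show 1 / 2 ≤ A.b i (T ((A.φ k).symm (A.φ k (S ((A.φ i).symm (y - A.v i))))))
      rw [(A.φ k).left_inv (hw _ hy').1, hTS]
      have := A.idx_spec c.ht1 ((A.φ i).symm (y - A.v i))
      rw [(hloc _ hy').2.1] at this
      linarith [c.ht0]) (by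
      filter_upwards [isOpen_ball.mem_nhds hy'] with z hz
      have hz1 := (hw z hz)
      have hz2 : (A.φ k).symm (A.expr S i k z) = S ((A.φ i).symm z) :=
        (A.φ k).left_inv hz1.1
      refine ⟨⟨(A.φ k).map_source hz1.1, ?_⟩, ?_⟩
      · show T ((A.φ k).symm (A.expr S i k z)) ∈ (A.φ i).source
        rw [hz2, hTS]
        exact (A.φ i).map_target (A.K_subset i (hloc z hz).1)
      · show A.φ i (T ((A.φ k).symm (A.expr S i k z))) = z
        rw [hz2, hTS]
        exact (A.φ i).right_inv (A.K_subset i (hloc z hz).1))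
    exact ⟨B, hB1, hB2, hB3.trans (hexp _ hDK2)⟩
  · rw [← hFG y hy]
    exact (norm_F_le ht0 c.ht1 _).trans hDΛ
  · exact (norm_F_le ht0 c.ht1 _).trans hDΛ
  · rw [(hder y hy).fderiv, (hder z hz).fderiv]
    refine (hd2 _ (htr y hy) _ (htr z hz)).trans ?_
    have : y - A.v i - (z - A.v i) = y - z := by abel
    rw [this]
    exact mul_le_mul_of_nonneg_right hDK1 (norm_nonneg _)
  · rw [Measure.le_iff]
    intro s hs
    rw [Measure.restrict_apply hs, Measure.smul_apply, Measure.map_apply hFm hs, smul_eq_mul]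
    set s' : Set (EuclideanSpace ℝ (Fin (d + 1))) :=
      (fun y => y + A.v i) ⁻¹' (s ∩ ball (A.F t x) r) with hs'
    have hs'm : MeasurableSet s' :=
      (hs.inter isOpen_ball.measurableSet).preimage (measurable_id.add_const _)
    have hs'ball : ∀ y ∈ s', y ∈ ball (A.φ i x) r := by
      intro y hy
      have := htr _ hy.2
      rwa [add_sub_cancel_right] at this
    have hvol : volume s' = volume (s ∩ ball (A.F t x) r) :=
      measure_preimage_add_right _ _ _
    rw [← hvol]
    refine ((c.hD i s' hs'm (fun y hy => (hloc y (hs'ball y hy)).1)).2).trans ?_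
    refine mul_le_mul' (ENNReal.ofReal_le_ofReal hDD) (measure_mono ?_)
    rintro w ⟨hw1, hw2⟩
    have hwb := hs'ball _ hw2
    obtain ⟨e1, e2, e3⟩ := hloc _ hwb
    rw [(A.φ i).left_inv hw1] at e2
    show A.F t w ∈ s
    rw [F, e2]
    exact hw2.1

end Data

end

end Crest.Agent.R133.Mfd
end

-- ▼ part R133/MfdE1
section

/-! Row 133, manifold layer: choice of a good level (E2 of helper903's plan). -/

set_option autoImplicit false

namespace Crest.Agent.R133.Mfd

open MeasureTheory Metric Set Topology Filter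
open scoped ENNReal

/-- one finite measure: a point with finite density has linear growth of balls -/
theorem ball_le_of_tendsto (lam : Measure ℝ) [IsFiniteMeasure lam] {t : ℝ} {L : ℝ≥0∞}
    (hL : L ≠ ∞)
    (h : Tendsto (fun r => lam (closedBall t r) / volume (closedBall t r)) (𝓝[>] 0) (𝓝 L)) :
    ∃ C : ℝ, 0 ≤ C ∧ ∀ ε : ℝ, 0 < ε → lam {s | |s - t| < ε} ≤ ENNReal.ofReal (C * ε) := by
  have h1 : ∀ᶠ r in 𝓝[>] (0:ℝ), lam (closedBall t r) / volume (closedBall t r) < L + 1 :=
    h.eventually (gt_mem_nhds (ENNReal.lt_add_right hL one_ne_zero))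
  obtain ⟨δ, hδ, hδ'⟩ : ∃ δ : ℝ, 0 < δ ∧ ∀ r, 0 < r → r < δ →
      lam (closedBall t r) / volume (closedBall t r) < L + 1 := by
    rw [eventually_nhdsWithin_iff, Metric.eventually_nhds_iff] at h1
    obtain ⟨δ, hδ, h2⟩ := h1
    refine ⟨δ, hδ, fun r hr hrδ => h2 ?_ hr⟩
    simpa [Real.dist_eq, abs_of_pos hr] using hrδ
  have hsub : ∀ ε : ℝ, {s | |s - t| < ε} ⊆ closedBall t ε := fun ε s hs => by
    rw [mem_closedBall, Real.dist_eq]; exact le_of_lt hs
  set A : ℝ := (L + 1).toReal with hA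
  have hA0 : 0 ≤ A := ENNReal.toReal_nonneg
  have hLA : L + 1 = ENNReal.ofReal A := by
    rw [hA, ENNReal.ofReal_toReal (by simp [hL])]
  set B : ℝ := (lam univ).toReal with hB
  have hB0 : 0 ≤ B := ENNReal.toReal_nonneg
  have hBu : lam univ = ENNReal.ofReal B := by
    rw [hB, ENNReal.ofReal_toReal (measure_ne_top _ _)]
  refine ⟨2 * A + B / δ, by positivity, fun ε hε => ?_⟩
  by_cases hlt : ε < δ
  · have h3 := hδ' ε hε hlt
    have hv : (volume (closedBall t ε) : ℝ≥0∞) = ENNReal.ofReal (2 * ε) := by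
      rw [Real.volume_closedBall]
    have hv0 : (volume (closedBall t ε) : ℝ≥0∞) ≠ 0 := by
      rw [hv]; simp; linarith
    have hvt : (volume (closedBall t ε) : ℝ≥0∞) ≠ ∞ := by
      rw [hv]; exact ENNReal.ofReal_ne_top
    have h4 : lam (closedBall t ε) ≤ (L + 1) * volume (closedBall t ε) := by
      rw [← ENNReal.div_le_iff hv0 hvt]
      exact h3.le
    calc lam {s | |s - t| < ε} ≤ lam (closedBall t ε) := measure_mono (hsub ε)
      _ ≤ (L + 1) * volume (closedBall t ε) := h4
      _ = ENNReal.ofReal (A * (2 * ε)) := by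
          rw [hLA, hv, ← ENNReal.ofReal_mul hA0]
      _ ≤ ENNReal.ofReal ((2 * A + B / δ) * ε) := by
          apply ENNReal.ofReal_le_ofReal
          have : 0 ≤ B / δ * ε := by positivity
          nlinarith
  · have hge : δ ≤ ε := not_lt.mp hlt
    calc lam {s | |s - t| < ε} ≤ lam univ := measure_mono (subset_univ _)
      _ = ENNReal.ofReal B := hBu
      _ ≤ ENNReal.ofReal ((2 * A + B / δ) * ε) := by
          apply ENNReal.ofReal_le_ofReal
          have h5 : B ≤ B / δ * ε := by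
            rw [div_mul_eq_mul_div, le_div_iff₀ hδ]
            exact mul_le_mul_of_nonneg_left hge hB0
          have h6 : 0 ≤ 2 * A * ε := by positivity
          nlinarith

/-- (E2) finitely many finite measures on the line have a common level in `(a, b)` at which all of
them have linear growth -/
theorem good_level {ι : Type*} [Finite ι] (lam : ι → Measure ℝ) [∀ j, IsFiniteMeasure (lam j)]
    {a b : ℝ} (hab : a < b) :
    ∃ t ∈ Ioo a b, ∃ C : ℝ, 0 ≤ C ∧ ∀ j, ∀ ε : ℝ, 0 < ε →
      lam j {s | |s - t| < ε} ≤ ENNReal.ofReal (C * ε) := by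
  classical
  have h1 : ∀ᵐ t : ℝ, ∀ j, (lam j).rnDeriv volume t < ∞ ∧
      Tendsto (fun r => lam j (closedBall t r) / volume (closedBall t r)) (𝓝[>] 0)
        (𝓝 ((lam j).rnDeriv volume t)) := by
    rw [ae_all_iff]
    intro j
    filter_upwards [(lam j).rnDeriv_lt_top volume,
      Besicovitch.ae_tendsto_rnDeriv (lam j) (volume : Measure ℝ)] with t h2 h3
    exact ⟨h2, h3⟩
  obtain ⟨t, htI, ht⟩ : ∃ t ∈ Ioo a b, ∀ j, (lam j).rnDeriv volume t < ∞ ∧
      Tendsto (fun r => lam j (closedBall t r) / volume (closedBall t r)) (𝓝[>] 0)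
        (𝓝 ((lam j).rnDeriv volume t)) := by
    by_contra hcon
    push_neg at hcon
    have h2 : (volume : Measure ℝ) (Ioo a b) = 0 := by
      refine measure_mono_null ?_ (ae_iff.mp h1)
      intro t ht hall
      obtain ⟨j, hj⟩ := hcon t ht
      exact hj (hall j).1 (hall j).2
    rw [Real.volume_Ioo] at h2
    simp only [ENNReal.ofReal_eq_zero] at h2
    linarith
  choose C hC0 hC using fun j => ball_le_of_tendsto (lam j) (ht j).1.ne (ht j).2
  haveI := Fintype.ofFinite ι
  refine ⟨t, htI, ∑ j, C j, Finset.sum_nonneg fun j _ => hC0 j, fun j ε hε => ?_⟩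
  refine (hC j ε hε).trans (ENNReal.ofReal_le_ofReal ?_)
  exact mul_le_mul_of_nonneg_right
    (Finset.single_le_sum (f := C) (fun i _ => hC0 i) (Finset.mem_univ j)) hε.le

end Crest.Agent.R133.Mfd
end

-- ▼ part R133/MfdE

/-! Row 133 (S0182), section 5 = MFD, part E: the abstract smooth model of a compact
manifold. -/

set_option autoImplicit false

namespace Crest.Agent.R133.Mfd

open MeasureTheory Metric Set Filter
open scoped Manifold ContDiff Topology ENNReal

section
variable {d : ℕ} {H : Type*} [TopologicalSpace H]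
  {I : ModelWithCorners ℝ (EuclideanSpace ℝ (Fin (d + 1))) H}
  {M : Type*} [TopologicalSpace M] [ChartedSpace H M]

namespace Data
variable (A : Data I M) [Nonempty (Fin A.n)]

/-- upper bound of the push-forward measure -/
theorem map_le [T2Space M] [IsManifold I ∞ M] [MeasurableSpace M] [BorelSpace M] {ν : Measure M}
    {t : ℝ} (ht0 : 0 < t) (ht1 : t ≤ 7 / 8) {D0 : ℝ} (_hD0 : 1 ≤ D0)
    (hD : ∀ (i : Fin A.n) (s : Set (EuclideanSpace ℝ (Fin (d + 1)))),
      MeasurableSet s → s ⊆ A.K i →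
      ν ((A.φ i).source ∩ (A.φ i) ⁻¹' s) ≤ ENNReal.ofReal D0 * volume s) :
    ν.map (A.F t) ≤ ENNReal.ofReal (A.n * D0) • volume := by
  rw [Measure.le_iff]
  intro s hs
  rw [Measure.map_apply (A.measurable_F ht0 ht1) hs, Measure.smul_apply, smul_eq_mul]
  have hsub : A.F t ⁻¹' s ⊆ ⋃ i : Fin A.n, (A.φ i).source ∩ (A.φ i) ⁻¹'
      (((fun y => y + A.v i) ⁻¹' s) ∩ A.K i) := by
    intro x hx
    rw [mem_iUnion]
    obtain ⟨h1, -, h2⟩ := A.mem_of_pos (ht0.trans (A.idx_spec ht1 x))
    exact ⟨A.idx t x, h1, hx, h2⟩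
  refine (measure_mono hsub).trans ((measure_iUnion_fintype_le _ _).trans ?_)
  have h1 : ∀ i : Fin A.n, ν ((A.φ i).source ∩ (A.φ i) ⁻¹'
      (((fun y => y + A.v i) ⁻¹' s) ∩ A.K i)) ≤ ENNReal.ofReal D0 * volume s := by
    intro i
    refine (hD i _ ((hs.preimage (measurable_id.add_const _)).inter
      (A.K_compact i).isClosed.measurableSet) inter_subset_right).trans ?_
    refine mul_le_mul' le_rfl ((measure_mono inter_subset_left).trans ?_)
    exact (measure_preimage_add_right volume (A.v i) s).le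
  refine (Finset.sum_le_sum fun i _ => h1 i).trans ?_
  rw [Finset.sum_const, Finset.card_univ, Fintype.card_fin, nsmul_eq_mul, ← mul_assoc,
    ENNReal.ofReal_mul (by positivity), ENNReal.ofReal_natCast]

end Data

/-- the manifold layer -/
theorem mfd (hI : GoodRange (range I)) [T2Space M] [CompactSpace M] [IsManifold I ∞ M]
    [MeasurableSpace M] [BorelSpace M] (ν : Measure M) [IsProbabilityMeasure ν]
    (hν : Crest.AnalysisR.HasSmoothPositiveDensity I ν) (S : Diffeomorph I I M M ∞)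
    (hS : MeasurePreserving S ν ν) :
    ∃ (D : ℝ) (f : EuclideanSpace ℝ (Fin (d + 1)) → EuclideanSpace ℝ (Fin (d + 1)))
      (F : M → EuclideanSpace ℝ (Fin (d + 1))) (G : EuclideanSpace ℝ (Fin (d + 1)) → M),
      1 ≤ D ∧ SM D f (ν.map F) ∧ Measurable F ∧ Measurable G ∧ (∀ x, G (F x) = x) ∧
      ∀ x, f (F x) = F (S x) := by
  classical
  obtain ⟨A⟩ := exists_data I M
  have hne : Nonempty M := ν.nonempty_of_neZero
  obtain ⟨x0⟩ := hne
  have : Nonempty (Fin A.n) := ⟨(A.cover x0).choose⟩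
  obtain ⟨t, ht, Cl, hCl0, hCl⟩ := good_level (fun j => ν.map (A.b j)) (a := 1 / 2) (b := 3 / 4)
    (by norm_num)
  have ht0 : 1 / 2 < t := ht.1
  have ht0' : 0 < t := by linarith
  have ht1 : t ≤ 7 / 8 := by linarith [ht.2]
  obtain ⟨L1, hL11, hL1⟩ := A.exists_lip (S := id) contMDiff_id
  obtain ⟨L2, hL21, hL2⟩ := A.exists_lip S.contMDiff
  obtain ⟨K1, hK10, hK1⟩ := A.exists_c2 S.contMDiff
  obtain ⟨K2, hK20, hK2⟩ := A.exists_inv S.symm.contMDiff
  obtain ⟨δ, hδ0, hδ⟩ := A.exists_margin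
  obtain ⟨D0, hD01, hD0⟩ := A.exists_dens hν
  let c : A.Cst S S.symm t ν :=
    { L := max L1 L2, K1 := K1, K2 := K2, δ := δ, D0 := D0, ht0 := ht0, ht1 := ht1
      hL1 := hL11.trans (le_max_left _ _)
      hL := fun i j x hx y hy => (hL1 i j x hx y hy).trans
        (mul_le_mul_of_nonneg_right (le_max_left _ _) (norm_nonneg _))
      hLS := fun i j x hx y hy => (hL2 i j x hx y hy).trans
        (mul_le_mul_of_nonneg_right (le_max_right _ _) (norm_nonneg _))
      hK1 := hK1, hK2 := hK2, hδ0 := hδ0, hδ := hδ, hD1 := hD01, hD := hD0 }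
  have hFm : Measurable (A.F t) := A.measurable_F ht0' ht1
  have hGm : Measurable (A.G x0) := A.measurable_G x0
  have hGF : ∀ x, A.G x0 (A.F t x) = x := fun x => A.G_F x0 ht0' ht1 x
  have hL0 : 0 < c.L := lt_of_lt_of_le one_pos c.hL1
  have hΛ : 0 ≤ A.Λ := le_trans zero_le_one A.one_le_Λ
  -- radius bound
  obtain ⟨R, hR⟩ : ∃ R : ℝ, ∀ i, A.K i ⊆ closedBall 0 R := by
    have : ∀ i : Fin A.n, ∃ R : ℝ, A.K i ⊆ closedBall 0 R := fun i =>
      (A.K_compact i).isBounded.subset_closedBall 0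
    choose R hR using this
    obtain ⟨R0, hR0⟩ := (Set.finite_range R).bddAbove
    exact ⟨R0, fun i => (hR i).trans (closedBall_subset_closedBall (hR0 (mem_range_self i)))⟩
  obtain ⟨Cs, hCs0, hCs⟩ := hI.thin R
  obtain ⟨n, hn⟩ : ∃ n : ℝ, n = (A.n : ℝ) := ⟨_, rfl⟩
  have hn0 : 0 ≤ n := hn ▸ Nat.cast_nonneg _
  set D : ℝ := 1 + n * D0 + D0 + K1 + K2 + (A.Λ + n * A.Λ) + 1 / δ +
    (n * (Cl * c.L) + n * (Cl * c.L) + n * (D0 * Cs)) with hD
  have hp1 : 0 ≤ n * D0 := by positivity
  have hp2 : 0 ≤ D0 := by linarith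
  have hp3 : 0 ≤ A.Λ + n * A.Λ := by positivity
  have hp4 : 0 ≤ 1 / δ := by positivity
  have hp5 : 0 ≤ n * (Cl * c.L) := by positivity
  have hp6 : 0 ≤ n * (D0 * Cs) := by positivity
  have hD1 : 1 ≤ D := by linarith
  have hSm : Measurable (S : M → M) := S.continuous.measurable
  have hfm : Measurable (A.fm S t x0) := hFm.comp (hSm.comp hGm)
  have hfF : ∀ x, A.fm S t x0 (A.F t x) = A.F t (S x) := fun x => by
    rw [Data.fm, hGF]
  have hprob : IsProbabilityMeasure (ν.map (A.F t)) := Measure.isProbabilityMeasure_map hFm.aemeasurable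
  refine ⟨D, A.fm S t x0, A.F t, A.G x0, hD1, ⟨hfm, hprob, ?_, ?_, ?_⟩, hFm, hGm, hGF, hfF⟩
  · rw [Measure.map_map hfm hFm]
    have : A.fm S t x0 ∘ A.F t = A.F t ∘ S := funext hfF
    rw [this, ← Measure.map_map hFm hSm, hS.map_eq]
  · refine (A.map_le ht0' ht1 hD01 (fun i s hs hsK => (hD0 i s hs hsK).1)).trans ?_
    rw [Measure.le_iff]
    intro s hs
    rw [Measure.smul_apply, Measure.smul_apply, smul_eq_mul, smul_eq_mul]
    exact mul_le_mul' (ENNReal.ofReal_le_ofReal (by rw [← hn]; linarith)) le_rfl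
  · intro r hr0 hr1
    by_cases hrδ : r ≤ δ
    · -- the bad sets
      set N : Set (EuclideanSpace ℝ (Fin (d + 1))) := toMeasurable volume
        {z | z ∈ range I ∧ z ∈ closedBall (0 : EuclideanSpace ℝ (Fin (d + 1))) R ∧
          ¬ ball z r ⊆ range I} with hN
      have hNvol : volume N ≤ ENNReal.ofReal (Cs * r) := by
        rw [hN, measure_toMeasurable]; exact hCs r hr0.le
      set Z1 : Set M := ⋃ j : Fin A.n, {x | |A.b j x - t| < c.L * r} with hZ1
      set Z3 : Set M := ⋃ i : Fin A.n, (A.φ i).source ∩ (A.φ i) ⁻¹' (N ∩ A.K i) with hZ3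
      have hZ1m : MeasurableSet Z1 := by
        refine MeasurableSet.iUnion fun j => ?_
        exact (isOpen_lt (((A.b j).continuous.sub continuous_const).abs)
          continuous_const).measurableSet
      have hb1 : ν Z1 ≤ ENNReal.ofReal (n * (Cl * c.L) * r) := by
        refine (measure_iUnion_fintype_le _ _).trans ?_
        have h1 : ∀ j : Fin A.n, ν {x | |A.b j x - t| < c.L * r} ≤
            ENNReal.ofReal (Cl * (c.L * r)) := by
          intro j
          have := hCl j (c.L * r) (by positivity)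
          have hms : MeasurableSet {s : ℝ | |s - t| < c.L * r} :=
            (isOpen_lt ((continuous_id.sub continuous_const).abs)
              continuous_const).measurableSet
          rwa [Measure.map_apply (A.b j).continuous.measurable hms] at this
        refine (Finset.sum_le_sum fun i _ => h1 i).trans ?_
        rw [Finset.sum_const, Finset.card_univ, Fintype.card_fin, nsmul_eq_mul,
          ← ENNReal.ofReal_natCast, ← ENNReal.ofReal_mul (by positivity)]
        apply le_of_eq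
        congr 1
        rw [hn]; ring
      have hb2 : ν (S ⁻¹' Z1) ≤ ENNReal.ofReal (n * (Cl * c.L) * r) := by
        rw [hS.measure_preimage hZ1m.nullMeasurableSet]; exact hb1
      have hb3 : ν Z3 ≤ ENNReal.ofReal (n * (D0 * Cs) * r) := by
        refine (measure_iUnion_fintype_le _ _).trans ?_
        have h1 : ∀ i : Fin A.n, ν ((A.φ i).source ∩ (A.φ i) ⁻¹' (N ∩ A.K i)) ≤
            ENNReal.ofReal (D0 * (Cs * r)) := by
          intro i
          refine ((hD0 i _ ((measurableSet_toMeasurable _ _).inter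
            (A.K_compact i).isClosed.measurableSet) inter_subset_right).1).trans ?_
          rw [ENNReal.ofReal_mul hp2]
          exact mul_le_mul' le_rfl ((measure_mono inter_subset_left).trans hNvol)
        refine (Finset.sum_le_sum fun i _ => h1 i).trans ?_
        rw [Finset.sum_const, Finset.card_univ, Fintype.card_fin, nsmul_eq_mul,
          ← ENNReal.ofReal_natCast, ← ENNReal.ofReal_mul (by positivity)]
        apply le_of_eq
        congr 1
        rw [hn]; ring
      -- good points are regular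
      have hgood : ∀ x : M, x ∉ Z1 → x ∉ S ⁻¹' Z1 → x ∉ Z3 →
          Reg D (A.fm S t x0) (ν.map (A.F t)) r (A.F t x) := by
        intro x h1 h2 h3
        have h1' : ∀ j, c.L * r ≤ |A.b j x - t| := by
          intro j
          by_contra h
          exact h1 (mem_iUnion.mpr ⟨j, not_le.mp h⟩)
        have h2' : ∀ j, c.L * r ≤ |A.b j (S x) - t| := by
          intro j
          by_contra h
          exact h2 (mem_iUnion.mpr ⟨j, not_le.mp h⟩)
        have h3' : ball (A.φ (A.idx t x) x) r ⊆ range I := by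
          by_contra h
          apply h3
          obtain ⟨e1, -, e2⟩ := A.mem_of_pos (ht0'.trans (A.idx_spec ht1 x))
          refine mem_iUnion.mpr ⟨A.idx t x, e1, subset_toMeasurable _ _ ?_, e2⟩
          exact ⟨e2.2, hR _ e2, h⟩
        exact Data.reg_of_good c x0 (fun x => S.symm_apply_apply x) hFm hr0 hrδ h1' h2' h3'
          (by linarith [show c.D0 = D0 from rfl]) (by linarith [show c.K1 = K1 from rfl])
          (by linarith [show c.K2 = K2 from rfl]) (by rw [← hn]; linarith)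
      have hνZ : ν (Z1 ∪ S ⁻¹' Z1 ∪ Z3) ≤ ENNReal.ofReal (D * r) := by
        refine (measure_union_le _ _).trans ((add_le_add (measure_union_le _ _) le_rfl).trans ?_)
        refine (add_le_add (add_le_add hb1 hb2) hb3).trans ?_
        rw [← ENNReal.ofReal_add (by positivity) (by positivity),
          ← ENNReal.ofReal_add (by positivity) (by positivity)]
        apply ENNReal.ofReal_le_ofReal
        rw [← add_mul, ← add_mul]
        exact mul_le_mul_of_nonneg_right (by linarith) hr0.le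
      set Z : Set M := toMeasurable ν (Z1 ∪ S ⁻¹' Z1 ∪ Z3) with hZ
      have hZm : MeasurableSet Z := measurableSet_toMeasurable _ _
      have hsub : {z | ¬ Reg D (A.fm S t x0) (ν.map (A.F t)) r z} ⊆
          A.G x0 ⁻¹' Z ∪ {z | A.F t (A.G x0 z) ≠ z} := by
        intro z hz
        by_cases hzz : A.F t (A.G x0 z) = z
        · left
          apply subset_toMeasurable
          by_contra hcon
          simp only [mem_union, not_or] at hcon
          have := hgood _ hcon.1.1 hcon.1.2 hcon.2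
          rw [hzz] at this
          exact hz this
        · right; exact hzz
      have hEm : MeasurableSet {z | A.F t (A.G x0 z) ≠ z} :=
        (measurableSet_eq_fun (hFm.comp hGm) measurable_id).compl
      refine (measure_mono hsub).trans ((measure_union_le _ _).trans ?_)
      rw [Measure.map_apply hFm (hZm.preimage hGm), Measure.map_apply hFm hEm]
      have e1 : A.F t ⁻¹' (A.G x0 ⁻¹' Z) = Z := by
        ext x; simp only [mem_preimage, hGF]
      have e2 : A.F t ⁻¹' {z | A.F t (A.G x0 z) ≠ z} = ∅ := by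
        ext x; simp [hGF]
      rw [e1, e2, measure_empty, add_zero, hZ, measure_toMeasurable]
      exact hνZ
    · rw [not_le] at hrδ
      have h1 : (1 : ℝ) ≤ D * r := by
        have h2 : 1 / δ ≤ D := by linarith
        calc (1 : ℝ) = (1 / δ) * δ := by field_simp
          _ ≤ D * r := mul_le_mul h2 hrδ.le hδ0.le (by linarith)
      refine prob_le_one.trans ?_
      rw [← ENNReal.ofReal_one]
      exact ENNReal.ofReal_le_ofReal h1

end

end Crest.Agent.R133.Mfd
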