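import Mathlib
import Crest.Agent.R133.CombBasic
import Crest.Agent.R133.Tower
import Crest.Agent.R133.Par

-- ▼ part R133/PotNum
section

set_option autoImplicit false

namespace Crest.Agent.R133.Pot

open Filter Topology Finset

/-- numeric end of POT: parameters. -/
structure NumP (m N : ℕ → ℕ) (h : ℕ → ℝ) : Prop where
  hm : ∀ s, m s = (2 * (Nat.sqrt s + 20)) ^ 2
  hN0 : N 0 = 1
  hN : ∀ s, N (s + 1) = m s * N s
  hh0 : h 0 = Real.log 2
  hh : ∀ s, h (s + 1) = (1 - 1 / (m s : ℝ)) * h s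

variable {m N : ℕ → ℕ} {h : ℕ → ℝ}

lemma NumP.m_ge (P : NumP m N h) (s : ℕ) : 1600 ≤ m s := by
  rw [P.hm s]
  have : 40 ≤ 2 * (Nat.sqrt s + 20) := by omega
  calc 1600 = 40 ^ 2 := by norm_num
    _ ≤ _ := Nat.pow_le_pow_left this 2

lemma NumP.m_le (P : NumP m N h) (s : ℕ) : m s ≤ 8 * (s + 400) := by
  rw [P.hm s]
  have h1 : Nat.sqrt s * Nat.sqrt s ≤ s := Nat.sqrt_le s
  have h2 : (Nat.sqrt s : ℤ) * Nat.sqrt s ≤ s := by exact_mod_cast h1
  have : ((2 * (Nat.sqrt s + 20)) ^ 2 : ℤ) ≤ 8 * (s + 400) := by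
    nlinarith [sq_nonneg ((Nat.sqrt s : ℤ) - 20)]
  exact_mod_cast this

lemma NumP.m_ge2 (P : NumP m N h) (s : ℕ) : s + 2 ≤ m s := by
  rw [P.hm s]
  have h1 : s < Nat.succ (Nat.sqrt s) * Nat.succ (Nat.sqrt s) := Nat.lt_succ_sqrt s
  have h2 : s < (Nat.sqrt s + 1) * (Nat.sqrt s + 1) := h1
  nlinarith [h2]

lemma NumP.N_pos (P : NumP m N h) (s : ℕ) : 1 ≤ N s := by
  induction s with
  | zero => rw [P.hN0]
  | succ s ih =>
      rw [P.hN]
      have := P.m_ge s
      nlinarith

lemma NumP.N_ge (P : NumP m N h) (s : ℕ) : 1600 ^ s ≤ N s := by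
  induction s with
  | zero => simp [P.hN0]
  | succ s ih =>
      rw [P.hN, pow_succ]
      have := P.m_ge s
      nlinarith [Nat.mul_le_mul ih this]

lemma NumP.N_mono (P : NumP m N h) {a b : ℕ} (hab : a ≤ b) : N a ≤ N b := by
  induction b, hab using Nat.le_induction with
  | base => exact le_rfl
  | succ n _ ih =>
      rw [P.hN]
      have := P.m_ge n
      nlinarith [P.N_pos n]

lemma NumP.m_posR (P : NumP m N h) (s : ℕ) : (0:ℝ) < m s := by
  have := P.m_ge s
  exact_mod_cast (by omega : 0 < m s)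

lemma NumP.kap_le (P : NumP m N h) (s : ℕ) : 1 / (m s : ℝ) ≤ 1 / 1600 := by
  have h1 : (1600:ℝ) ≤ m s := by exact_mod_cast P.m_ge s
  exact one_div_le_one_div_of_le (by norm_num) h1

lemma NumP.kap_pos (P : NumP m N h) (s : ℕ) : 0 < 1 / (m s : ℝ) :=
  one_div_pos.2 (P.m_posR s)

lemma NumP.h_pos (P : NumP m N h) (s : ℕ) : 0 < h s := by
  induction s with
  | zero => rw [P.hh0]; exact Real.log_pos (by norm_num)
  | succ s ih =>
      rw [P.hh]
      have := P.kap_le s
      apply mul_pos _ ih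
      linarith

lemma NumP.h_anti (P : NumP m N h) (s : ℕ) : h (s + 1) ≤ h s := by
  rw [P.hh]
  have h1 := P.kap_pos s
  have h2 := P.h_pos s
  nlinarith

lemma NumP.h_anti' (P : NumP m N h) {a b : ℕ} (hab : a ≤ b) : h b ≤ h a :=
  antitone_nat_of_succ_le P.h_anti hab

/-- `h_s (s+1)` is nondecreasing -/
lemma NumP.h_ge (P : NumP m N h) (s : ℕ) : Real.log 2 / (s + 1) ≤ h s := by
  rw [div_le_iff₀ (by positivity)]
  induction s with
  | zero => rw [P.hh0]; simp
  | succ s ih =>
      rw [P.hh]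
      have h1 : ((s:ℝ) + 2) ≤ m s := by exact_mod_cast P.m_ge2 s
      have h2 : 1 / (m s : ℝ) ≤ 1 / ((s:ℝ) + 2) := one_div_le_one_div_of_le (by positivity) h1
      have h3 : (1 - 1 / (m s : ℝ)) * ((s:ℝ) + 2) ≥ s + 1 := by
        have : (1 - 1 / (m s : ℝ)) * ((s:ℝ) + 2) ≥ (1 - 1 / ((s:ℝ) + 2)) * ((s:ℝ) + 2) := by
          apply mul_le_mul_of_nonneg_right _ (by positivity)
          linarith
        have h4 : (1 - 1 / ((s:ℝ) + 2)) * ((s:ℝ) + 2) = s + 1 := by
          field_simp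
          ring
        linarith
      have h5 := P.h_pos s
      calc Real.log 2 ≤ h s * (s + 1) := ih
        _ ≤ h s * ((1 - 1 / (m s : ℝ)) * ((s:ℝ) + 2)) := mul_le_mul_of_nonneg_left h3 h5.le
        _ = (1 - 1 / (m s : ℝ)) * h s * (((s + 1 : ℕ) : ℝ) + 1) := by push_cast; ring

lemma NumP.h8_step (P : NumP m N h) (s : ℕ) :
    h (s + 1) ^ 8 * ((s:ℝ) + 1 + 400) ≤ h s ^ 8 * ((s:ℝ) + 400) := by
  rw [P.hh, mul_pow]
  have hu : (0:ℝ) < (s:ℝ) + 400 := by positivity
  have h1 : (m s : ℝ) ≤ 8 * ((s:ℝ) + 400) := by exact_mod_cast P.m_le s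
  have h2 : 1 / (8 * ((s:ℝ) + 400)) ≤ 1 / (m s : ℝ) := one_div_le_one_div_of_le (P.m_posR s) h1
  have h3 : (1 - 1 / (m s : ℝ)) ≤ Real.exp (-(1 / (8 * ((s:ℝ) + 400)))) := by
    have := Real.add_one_le_exp (-(1 / (8 * ((s:ℝ) + 400))))
    linarith
  have h0 : 0 ≤ (1 - 1 / (m s : ℝ)) := by have := P.kap_le s; linarith
  have h4 : (1 - 1 / (m s : ℝ)) ^ 8 ≤ Real.exp (-(1 / ((s:ℝ) + 400))) := by
    calc (1 - 1 / (m s : ℝ)) ^ 8 ≤ Real.exp (-(1 / (8 * ((s:ℝ) + 400)))) ^ 8 :=
          pow_le_pow_left₀ h0 h3 8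
      _ = Real.exp (-(1 / ((s:ℝ) + 400))) := by
          rw [← Real.exp_nat_mul]
          congr 1
          field_simp
          norm_num
  have h5 : Real.exp (-(1 / ((s:ℝ) + 400))) * ((s:ℝ) + 1 + 400) ≤ (s:ℝ) + 400 := by
    have h6 : 1 / ((s:ℝ) + 400) + 1 ≤ Real.exp (1 / ((s:ℝ) + 400)) := Real.add_one_le_exp _
    have h7 : (s:ℝ) + 1 + 400 = ((s:ℝ) + 400) * (1 / ((s:ℝ) + 400) + 1) := by
      field_simp
      ring
    rw [h7]
    have h8 : Real.exp (-(1 / ((s:ℝ) + 400))) * Real.exp (1 / ((s:ℝ) + 400)) = 1 := by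
      rw [← Real.exp_add]; simp
    calc Real.exp (-(1 / ((s:ℝ) + 400))) * (((s:ℝ) + 400) * (1 / ((s:ℝ) + 400) + 1))
        = ((s:ℝ) + 400) * (Real.exp (-(1 / ((s:ℝ) + 400))) * (1 / ((s:ℝ) + 400) + 1)) := by ring
      _ ≤ ((s:ℝ) + 400) * (Real.exp (-(1 / ((s:ℝ) + 400))) * Real.exp (1 / ((s:ℝ) + 400))) := by
          apply mul_le_mul_of_nonneg_left _ hu.le
          apply mul_le_mul_of_nonneg_left h6 (Real.exp_pos _).le
      _ = (s:ℝ) + 400 := by rw [h8]; ring
  have h9 : 0 < h s ^ 8 := pow_pos (P.h_pos s) 8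
  calc (1 - 1 / (m s : ℝ)) ^ 8 * h s ^ 8 * ((s:ℝ) + 1 + 400)
      = h s ^ 8 * ((1 - 1 / (m s : ℝ)) ^ 8 * ((s:ℝ) + 1 + 400)) := by ring
    _ ≤ h s ^ 8 * (Real.exp (-(1 / ((s:ℝ) + 400))) * ((s:ℝ) + 1 + 400)) := by
        apply mul_le_mul_of_nonneg_left _ h9.le
        apply mul_le_mul_of_nonneg_right h4 (by positivity)
    _ ≤ h s ^ 8 * ((s:ℝ) + 400) := mul_le_mul_of_nonneg_left h5 h9.le

lemma NumP.h8 (P : NumP m N h) {a b : ℕ} (hab : a ≤ b) :
    h b ^ 8 * ((b:ℝ) + 400) ≤ h a ^ 8 * ((a:ℝ) + 400) := by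
  induction b, hab using Nat.le_induction with
  | base => exact le_rfl
  | succ n _ ih =>
      refine le_trans ?_ ih
      have := P.h8_step n
      push_cast
      linarith

lemma NumP.h_half (P : NumP m N h) (s : ℕ) : h (256 * (s + 400)) ≤ h s / 2 := by
  have hab : s ≤ 256 * (s + 400) := by omega
  have h1 := P.h8 hab
  push_cast at h1
  have h2 : (0:ℝ) < (s:ℝ) + 400 := by positivity
  have h3 := P.h_pos s
  have h4 := P.h_pos (256 * (s + 400))
  have h5 : h (256 * (s + 400)) ^ 8 * (256 * ((s:ℝ) + 400)) ≤ h s ^ 8 * ((s:ℝ) + 400) := by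
    refine le_trans ?_ h1
    apply mul_le_mul_of_nonneg_left _ (pow_pos h4 8).le
    linarith
  have h6 : h (256 * (s + 400)) ^ 8 ≤ (h s / 2) ^ 8 := by
    have h7 : h (256 * (s + 400)) ^ 8 * 256 ≤ h s ^ 8 := by
      have : h (256 * (s + 400)) ^ 8 * 256 * ((s:ℝ) + 400) ≤ h s ^ 8 * ((s:ℝ) + 400) := by
        calc _ = h (256 * (s + 400)) ^ 8 * (256 * ((s:ℝ) + 400)) := by ring
          _ ≤ _ := h5
      exact le_of_mul_le_mul_right this h2
    rw [div_pow]
    rw [le_div_iff₀ (by norm_num)]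
    calc _ = h (256 * (s + 400)) ^ 8 * 256 := by norm_num
      _ ≤ _ := h7
  exact le_of_pow_le_pow_left₀ (by norm_num) (by positivity) h6

/-- growth : eventually `N h` dominates. -/
lemma NumP.eventually_big (P : NumP m N h) :
    ∀ᶠ s : ℕ in atTop, 256 * ((s:ℝ) + 400) * (4 * Real.log (N s) + 11) < (1/4) * (N s * h s) := by
  have hNt : Tendsto (fun s => (N s : ℝ)) atTop atTop := by
    have h1 : Tendsto (fun s : ℕ => (1600:ℝ) ^ s) atTop atTop :=
      tendsto_pow_atTop_atTop_of_one_lt (by norm_num)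
    refine tendsto_atTop_mono (fun s => ?_) h1
    exact_mod_cast P.N_ge s
  have h2 : Tendsto (fun s => (N s : ℝ) ^ (1/4 : ℝ)) atTop atTop :=
    (tendsto_rpow_atTop (by norm_num : (0:ℝ) < 1/4)).comp hNt
  filter_upwards [h2.eventually_gt_atTop (20000000:ℝ)] with s hs
  set x : ℝ := (N s : ℝ) ^ (1/4 : ℝ) with hx
  have hN1 : (1:ℝ) ≤ N s := by exact_mod_cast P.N_pos s
  have hx4 : x ^ 4 = N s := by
    rw [hx, ← Real.rpow_natCast, ← Real.rpow_mul (by linarith)]
    norm_num
  have hxpos : 0 < x := by linarith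
  have hlog : Real.log (N s) ≤ 4 * x := by
    have := Real.log_le_rpow_div (by linarith : (0:ℝ) ≤ N s) (by norm_num : (0:ℝ) < 1/4)
    rw [← hx] at this
    linarith
  have hsx : (s:ℝ) + 1 ≤ x := by
    have h3 : ((s:ℝ) + 1) ^ 4 ≤ x ^ 4 := by
      rw [hx4]
      have h4 : (s + 1) ^ 4 ≤ 1600 ^ s := by
        calc (s + 1) ^ 4 ≤ (2 ^ s) ^ 4 := Nat.pow_le_pow_left (Nat.lt_two_pow_self) 4
          _ = 16 ^ s := by rw [← pow_mul, mul_comm, pow_mul]; norm_num
          _ ≤ 1600 ^ s := Nat.pow_le_pow_left (by norm_num) s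
      exact_mod_cast h4.trans (P.N_ge s)
    exact le_of_pow_le_pow_left₀ (by norm_num) hxpos.le h3
  have hh1 := P.h_ge s
  have hl2 : (0.69:ℝ) < Real.log 2 := by have := Real.log_two_gt_d9; linarith
  have hh2 : 0.69 / x ≤ h s := by
    refine le_trans ?_ hh1
    have : (0.69:ℝ) / x ≤ 0.69 / ((s:ℝ) + 1) :=
      div_le_div_of_nonneg_left (by norm_num) (by positivity) hsx
    refine this.trans ?_
    exact div_le_div_of_nonneg_right hl2.le (by positivity)
  have h5 : 0.69 * x ^ 3 ≤ N s * h s := by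
    have : (N s : ℝ) * (0.69 / x) = 0.69 * x ^ 3 := by
      rw [← hx4]; field_simp
    rw [← this]
    exact mul_le_mul_of_nonneg_left hh2 (by linarith)
  have h6 : 256 * ((s:ℝ) + 400) * (4 * Real.log (N s) + 11) ≤ 256 * (400 * x) * (27 * x) := by
    have ha : (s:ℝ) + 400 ≤ 400 * x := by
      have h7 : (0:ℝ) ≤ s := Nat.cast_nonneg s
      nlinarith
    have hb : 4 * Real.log (N s) + 11 ≤ 27 * x := by nlinarith
    have hc : 0 ≤ 4 * Real.log (N s) + 11 := by
      have := Real.log_nonneg hN1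
      linarith
    have hd : 256 * ((s:ℝ) + 400) ≤ 256 * (400 * x) := by linarith
    calc 256 * ((s:ℝ) + 400) * (4 * Real.log (N s) + 11)
        ≤ 256 * (400 * x) * (4 * Real.log (N s) + 11) := mul_le_mul_of_nonneg_right hd hc
      _ ≤ 256 * (400 * x) * (27 * x) := mul_le_mul_of_nonneg_left hb (by positivity)
  have h7 : 256 * (400 * x) * (27 * x) < (1/4) * (0.69 * x ^ 3) := by
    have : x ^ 3 = x * (x * x) := by ring
    rw [this]
    have hx2 : 0 < x * x := by positivity
    nlinarith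
  calc _ ≤ 256 * (400 * x) * (27 * x) := h6
    _ < (1/4) * (0.69 * x ^ 3) := h7
    _ ≤ (1/4) * (N s * h s) := by linarith

/-- THE NUMERIC CONTRADICTION. -/
theorem NumP.pot_num (P : NumP m N h) (St : Set ℕ)
    (hSt : Summable (Stᶜ.indicator (fun s => 1 / (m s : ℝ))))
    (A : ℕ → ℕ → ℝ) (S0 : ℕ)
    (hA0 : ∀ s0, ∀ s, s0 ≤ s → 0 ≤ A s0 s)
    (hA1 : ∀ s0, S0 ≤ s0 → A s0 s0 ≤ (1/8) * (N s0 * h s0))
    (hA2 : ∀ s0 s, S0 ≤ s0 → s0 ≤ s → A s0 (s + 1) ≤ A s0 s +
      (4 * Real.log (N (s + 1)) + 4) / (N (s + 1) / N s0))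
    (hA3 : ∀ s0 s, S0 ≤ s0 → s0 ≤ s → s ∈ St → A s0 (s + 1) ≤ A s0 s
      - (9/10) * (1 / (m s : ℝ)) * h s * N s0 + 3 +
      (4 * Real.log (N (s + 1)) + 4) / (N (s + 1) / N s0)) : False := by
  classical
  set g : ℕ → ℝ := Stᶜ.indicator (fun s => 1 / (m s : ℝ)) with hg
  have hg0 : ∀ s, 0 ≤ g s := by
    intro s
    rw [hg]
    exact Set.indicator_nonneg (fun s _ => (P.kap_pos s).le) s
  -- tail of the sum over unstable stages
  have htail : ∀ᶠ s0 : ℕ in atTop, ∀ b, ∑ s ∈ Finset.Ico s0 b, g s ≤ 1 / 20 := by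
    have h1 : Tendsto (fun n => ∑ i ∈ Finset.range n, g i) atTop (𝓝 (∑' i, g i)) :=
      hSt.hasSum.tendsto_sum_nat
    have h2 : ∀ᶠ n : ℕ in atTop, (∑' i, g i) - 1/20 < ∑ i ∈ Finset.range n, g i :=
      h1.eventually_const_lt (by linarith)
    filter_upwards [h2] with s0 hs0 b
    rcases le_or_gt s0 b with hb | hb
    · rw [Finset.sum_Ico_eq_sub _ hb]
      have h3 : ∑ i ∈ Finset.range b, g i ≤ ∑' i, g i := hSt.sum_le_tsum _ (fun i _ => hg0 i)
      linarith
    · rw [Finset.Ico_eq_empty (by omega)]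
      norm_num
  obtain ⟨s0, ⟨hs1, hs2⟩, hs3⟩ := ((P.eventually_big.and htail).and
    (eventually_ge_atTop S0)).exists
  have hN0 : (1:ℝ) ≤ N s0 := by exact_mod_cast P.N_pos s0
  have hlog0 : 0 ≤ Real.log (N s0) := Real.log_nonneg hN0
  have herr : ∀ s, s0 ≤ s → (4 * Real.log (N (s + 1)) + 4) / ((N (s + 1) : ℝ) / N s0)
      ≤ 4 * Real.log (N s0) + 8 := by
    intro s hs
    set M : ℝ := (N (s + 1) : ℝ) / N s0 with hM
    have hM1 : 1 ≤ M := by
      rw [hM, one_le_div (by linarith)]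
      exact_mod_cast P.N_mono (by omega : s0 ≤ s + 1)
    have hNM : (N (s + 1) : ℝ) = N s0 * M := by
      rw [hM]; field_simp
    have hlogM : Real.log M ≤ M := (Real.log_le_sub_one_of_pos (by linarith)).trans (by linarith)
    rw [div_le_iff₀ (by linarith), hNM, Real.log_mul (by linarith) (by linarith)]
    nlinarith
  have hstep : ∀ s, s0 ≤ s → A s0 (s + 1) ≤ A s0 s
      - (9/10) * N s0 * ((h s - h (s + 1)) - g s * h s0) + (4 * Real.log (N s0) + 11) := by
    intro s hs
    have hk : 1 / (m s : ℝ) * h s = h s - h (s + 1) := by rw [P.hh]; ring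
    have hhs := P.h_pos s
    have hhs0 := P.h_anti' hs
    by_cases hst : s ∈ St
    · have h1 := hA3 s0 s hs3 hs hst
      have h2 := herr s hs
      have h3 : g s = 0 := by rw [hg]; simp [hst]
      rw [h3]
      have h4 : (9/10) * (1 / (m s : ℝ)) * h s * N s0 = (9/10) * N s0 * (h s - h (s + 1)) := by
        rw [← hk]; ring
      rw [h4] at h1
      linarith
    · have h1 := hA2 s0 s hs3 hs
      have h2 := herr s hs
      have h3 : g s = 1 / (m s : ℝ) := by rw [hg]; simp [hst]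
      rw [h3, ← hk]
      have h5 : 1 / (m s : ℝ) * h s - 1 / (m s : ℝ) * h s0 ≤ 0 := by
        have := P.kap_pos s
        nlinarith
      have h6 : (9/10) * (N s0 : ℝ) * (1 / (m s : ℝ) * h s - 1 / (m s : ℝ) * h s0) ≤ 0 := by
        apply mul_nonpos_of_nonneg_of_nonpos (by linarith) h5
      linarith
  have hsum : ∀ b, s0 ≤ b → A s0 b ≤ A s0 s0
      - (9/10) * N s0 * ((h s0 - h b) - (∑ s ∈ Finset.Ico s0 b, g s) * h s0)
      + ((b:ℝ) - s0) * (4 * Real.log (N s0) + 11) := by
    intro b hb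
    induction b, hb using Nat.le_induction with
    | base => simp
    | succ n hn ih =>
        have h1 := hstep n hn
        rw [Finset.sum_Ico_succ_top hn]
        push_cast
        nlinarith
  have hb : s0 ≤ 256 * (s0 + 400) := by omega
  have hfin := hsum _ hb
  have h0 := hA0 s0 _ hb
  have h1 := hA1 s0 hs3
  have h2 := hs2 (256 * (s0 + 400))
  have h3 := P.h_half s0
  have h4 := P.h_pos s0
  have h5 : (9/10) * (N s0 : ℝ) * ((h s0 - h (256 * (s0 + 400))) -
      (∑ s ∈ Finset.Ico s0 (256 * (s0 + 400)), g s) * h s0) ≥ (9/10) * N s0 * ((9/20) * h s0) := by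
    apply mul_le_mul_of_nonneg_left _ (by linarith)
    nlinarith
  have h6 : (((256 * (s0 + 400) : ℕ) : ℝ) - s0) * (4 * Real.log (N s0) + 11) ≤
      256 * ((s0:ℝ) + 400) * (4 * Real.log (N s0) + 11) := by
    apply mul_le_mul_of_nonneg_right _ (by linarith)
    push_cast
    have : (0:ℝ) ≤ s0 := Nat.cast_nonneg s0
    linarith
  have h7 : 0 < (N s0 : ℝ) * h s0 := mul_pos (by linarith) h4
  nlinarith

end Crest.Agent.R133.Pot
end

-- ▼ part R133/Pot1
section

/-! # Row 133, POT part 1: pointwise consequences of the tower maps -/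

set_option autoImplicit false
set_option linter.unusedSectionVars false

open MeasureTheory Set

namespace Crest.Agent.R133.Pot

variable {τ : Tau} {Ω : Type*} [MeasurableSpace Ω] {ν : Measure Ω} {f : Ω → Ω}
  {w : ∀ s, Ω → W s} {φ : ℕ → Ω → ℕ}

/-- all tower clauses hold along the forward orbit -/
def Gd (τ : Tau) (f : Ω → Ω) (w : ∀ s, Ω → W s) (φ : ℕ → Ω → ℕ) (x : Ω) : Prop :=
  ∀ s i, φ s (f^[i] x) < NN s ∧ φ s (f (f^[i] x)) = (φ s (f^[i] x) + 1) % NN s ∧
    (φ s (f^[i] x) + 1 < NN s → w s (f (f^[i] x)) = w s (f^[i] x)) ∧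
    φ s (f^[i] x) = φ (s + 1) (f^[i] x) % NN s ∧
    w s (f^[i] x) = blk τ s (w (s + 1) (f^[i] x)) (φ (s + 1) (f^[i] x) / NN s)

lemma ae_iter (hf : MeasurePreserving f ν ν) {P : Ω → Prop} (h : ∀ᵐ x ∂ν, P x) (i : ℕ) :
    ∀ᵐ x ∂ν, P (f^[i] x) :=
  (hf.iterate i).quasiMeasurePreserving.ae h

lemma ae_Gd (hf : MeasurePreserving f ν ν) (T : TowerMaps τ ν f w φ) :
    ∀ᵐ x ∂ν, Gd τ f w φ x := by
  unfold Gd
  rw [ae_all_iff]; intro s
  rw [ae_all_iff]; intro i
  filter_upwards [ae_iter hf (T.φ_lt s) i, ae_iter hf (T.φ_step s) i, ae_iter hf (T.w_step s) i,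
    ae_iter hf (T.φ_cons s) i, ae_iter hf (T.w_cons s) i] with x h1 h2 h3 h4 h5
  exact ⟨h1, h2, h3, h4, h5⟩

lemma Gd.iter {x : Ω} (h : Gd τ f w φ x) (k : ℕ) : Gd τ f w φ (f^[k] x) := by
  intro s i
  have := h s (i + k)
  rwa [Function.iterate_add_apply] at this

lemma Gd.lt {x : Ω} (h : Gd τ f w φ x) (s : ℕ) : φ s x < NN s := (h s 0).1

lemma Gd.phi {x : Ω} (h : Gd τ f w φ x) (s i : ℕ) :
    φ s (f^[i] x) = (φ s x + i) % NN s := by
  induction i with
  | zero => simp [Nat.mod_eq_of_lt (h.lt s)]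
  | succ i ih =>
      rw [Function.iterate_succ_apply', (h s i).2.1, ih]
      simp [← add_assoc]

lemma Gd.phi0 {x : Ω} (h : Gd τ f w φ x) {s i : ℕ} (h0 : φ s x = 0) (hi : i < NN s) :
    φ s (f^[i] x) = i := by
  rw [h.phi, h0, zero_add, Nat.mod_eq_of_lt hi]

lemma Gd.w0 {x : Ω} (h : Gd τ f w φ x) {s i : ℕ} (h0 : φ s x = 0) (hi : i < NN s) :
    w s (f^[i] x) = w s x := by
  induction i with
  | zero => rfl
  | succ i ih =>
      have h1 := ih (by omega)
      rw [Function.iterate_succ_apply', (h s i).2.2.1 (by rw [h.phi0 h0 (by omega)]; exact hi), h1]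

lemma Gd.name {x : Ω} (h : Gd τ f w φ x) (s : ℕ) :
    (show Bool from w 0 x) = nm τ s (w s x) (φ s x) := by
  induction s with
  | zero => rfl
  | succ s ih =>
      rw [ih, nm_succ]
      have h1 := (h s 0).2.2.2.1
      have h2 := (h s 0).2.2.2.2
      simp only [Function.iterate_zero, id_eq] at h1 h2
      rw [← h2, ← h1]

/-- the true name -/
def pn (f : Ω → Ω) (w : ∀ s, Ω → W s) (x : Ω) : ℕ → Bool :=
  itin f (fun y => (show Bool from w 0 y)) x

lemma Gd.pn_eq {x : Ω} (h : Gd τ f w φ x) {s i : ℕ} (h0 : φ s x = 0) (hi : i < NN s) :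
    pn f w x i = nm τ s (w s x) i := by
  have h1 := (h.iter i).name s
  rw [h.phi0 h0 hi, h.w0 h0 hi] at h1
  exact h1

lemma sh_itin (f : Ω → Ω) (q : Ω → Bool) (x : Ω) (a : ℕ) :
    sh a (itin f q x) = itin f q (f^[a] x) := by
  funext i
  unfold sh itin
  rw [add_comm a i, Function.iterate_add_apply]

lemma sh_pn (f : Ω → Ω) (w : ∀ s, Ω → W s) (x : Ω) (a : ℕ) :
    sh a (pn f w x) = pn f w (f^[a] x) := sh_itin f _ x a

/-- good letters -/
def gam (f : Ω → Ω) (w : ∀ s, Ω → W s) (q : Ω → Bool) (s0 : ℕ) (x : Ω) : Set ℕ :=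
  {l | (ham (NN s0) (sh (l * NN s0) (pn f w x)) (sh (l * NN s0) (itin f q x)) : ℝ)
    ≤ rho * NN s0}

lemma shS_gam (f : Ω → Ω) (w : ∀ s, Ω → W s) (q : Ω → Bool) {s0 s : ℕ} (hs : s0 ≤ s)
    (x : Ω) (j : ℕ) :
    shS (j * (NN s / NN s0)) (gam f w q s0 x) = gam f w q s0 (f^[j * NN s] x) := by
  ext l
  show (ham (NN s0) (sh ((j * (NN s / NN s0) + l) * NN s0) (pn f w x))
    (sh ((j * (NN s / NN s0) + l) * NN s0) (itin f q x)) : ℝ) ≤ rho * NN s0 ↔ _
  have h1 : (j * (NN s / NN s0) + l) * NN s0 = j * NN s + l * NN s0 := by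
    rw [add_mul, mul_assoc, NN_div_mul hs]
  rw [h1, ← sh_sh, ← sh_sh, sh_pn, sh_itin]
  rfl

/-- the list of the point -/
noncomputable def Lx (τ : Tau) (f : Ω → Ω) (w : ∀ s, Ω → W s) (q : Ω → Bool) (s0 s : ℕ) (x : Ω) :
    Finset (W s) := Lst τ s0 s (itin f q x) (gam f w q s0 x)

noncomputable def hid (τ : Tau) (f : Ω → Ω) (w : ∀ s, Ω → W s) (q : Ω → Bool) (s0 s : ℕ) (x : Ω) :
    ℝ := Real.log ((Lx τ f w q s0 s x).card : ℝ)

lemma hid_nonneg (q : Ω → Bool) (s0 s : ℕ) (x : Ω) : 0 ≤ hid τ f w q s0 s x := by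
  unfold hid
  exact Real.log_natCast_nonneg _

lemma hid_le (q : Ω → Bool) (s0 s : ℕ) (x : Ω) : hid τ f w q s0 s x ≤ Real.log (KK s) := by
  unfold hid
  rcases Nat.eq_zero_or_pos (Lx τ f w q s0 s x).card with h | h
  · rw [h]
    simp only [Nat.cast_zero, Real.log_zero]
    exact Real.log_natCast_nonneg _
  · apply Real.log_le_log (by exact_mod_cast h)
    rw [← card_W s]
    exact_mod_cast Finset.card_le_univ _

lemma Gd.mem {x : Ω} (h : Gd τ f w φ x) (q : Ω → Bool) {s0 s : ℕ} (hs : s0 ≤ s)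
    (h0 : φ s x = 0) : w s x ∈ Lx τ f w q s0 s x := by
  unfold Lx
  rw [mem_Lst]
  intro j hj hjg
  have h1 : ham (NN s0) (sh (j * NN s0) (nm τ s (w s x))) (sh (j * NN s0) (itin f q x)) =
      ham (NN s0) (sh (j * NN s0) (pn f w x)) (sh (j * NN s0) (itin f q x)) := by
    apply ham_congr _ (fun _ _ => rfl)
    intro i hi
    unfold sh
    refine (h.pn_eq h0 ?_).symm
    calc j * NN s0 + i < (j + 1) * NN s0 := by rw [add_mul]; omega
      _ ≤ NN s / NN s0 * NN s0 := Nat.mul_le_mul_right _ hj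
      _ = NN s := NN_div_mul hs
  rw [h1]
  exact hjg

lemma Gd.card_pos {x : Ω} (h : Gd τ f w φ x) (q : Ω → Bool) {s0 s : ℕ} (hs : s0 ≤ s)
    (h0 : φ s x = 0) : 1 ≤ (Lx τ f w q s0 s x).card :=
  Finset.card_pos.2 ⟨_, h.mem q hs h0⟩

/-- positions of the blocks -/
lemma Gd.phi_blk {x : Ω} (h : Gd τ f w φ x) {s j : ℕ} (h0 : φ (s + 1) x = 0) (hj : j < mm s) :
    φ s (f^[j * NN s] x) = 0 := by
  have h1 : j * NN s < NN (s + 1) := by
    rw [NN_succ]
    exact Nat.mul_lt_mul_of_pos_right hj (NN_pos s)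
  have h2 := (h.iter (j * NN s) s 0).2.2.2.1
  simp only [Function.iterate_zero, id_eq] at h2
  rw [h2, h.phi0 h0 h1, Nat.mul_mod_left]

lemma prodLst_eq (q : Ω → Bool) {s0 s : ℕ} (hs : s0 ≤ s) (x : Ω) :
    prodLst τ s0 s (itin f q x) (gam f w q s0 x) =
      ∏ j ∈ Finset.range (mm s), ((Lx τ f w q s0 s (f^[j * NN s] x)).card : ℝ) := by
  unfold prodLst
  apply Finset.prod_congr rfl
  intro j _
  rw [sh_itin, shS_gam f w q hs]
  rfl

lemma Gd.log_prodLst {x : Ω} (h : Gd τ f w φ x) (q : Ω → Bool) {s0 s : ℕ} (hs : s0 ≤ s)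
    (h0 : φ (s + 1) x = 0) :
    Real.log (prodLst τ s0 s (itin f q x) (gam f w q s0 x)) =
      ∑ j ∈ Finset.range (mm s), hid τ f w q s0 s (f^[j * NN s] x) := by
  rw [prodLst_eq q hs, Real.log_prod]
  · rfl
  · intro j hj
    rw [Finset.mem_range] at hj
    have := (h.iter (j * NN s)).card_pos q hs (h.phi_blk h0 hj)
    exact_mod_cast (by omega : (Lx τ f w q s0 s (f^[j * NN s] x)).card ≠ 0)

lemma Gd.prodLst_ge {x : Ω} (h : Gd τ f w φ x) (q : Ω → Bool) {s0 s : ℕ} (hs : s0 ≤ s)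
    (h0 : φ (s + 1) x = 0) :
    1 ≤ prodLst τ s0 s (itin f q x) (gam f w q s0 x) := by
  rw [prodLst_eq q hs]
  have : ∀ j ∈ Finset.range (mm s),
      (1:ℝ) ≤ ((Lx τ f w q s0 s (f^[j * NN s] x)).card : ℝ) := by
    intro j hj
    rw [Finset.mem_range] at hj
    exact_mod_cast (h.iter (j * NN s)).card_pos q hs (h.phi_blk h0 hj)
  calc (1:ℝ) = ∏ j ∈ Finset.range (mm s), (1:ℝ) := by simp
    _ ≤ _ := Finset.prod_le_prod (fun _ _ => zero_le_one) this

/-- (P1) as a hypothesis -/
def P1 (τ : Tau) : Prop := ∀ s0 s, s0 ≤ s → ∀ (z : ℕ → Bool) (γ : Set ℕ),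
      ((Lst τ s0 (s + 1) z γ).card : ℝ) ≤ 30 * prodLst τ s0 s z γ / KK s + 10 * NN (s + 1)

lemma log40 : Real.log 40 ≤ 4 := by
  rw [Real.log_le_iff_le_exp (by norm_num)]
  have h1 : (2.7:ℝ) < Real.exp 1 := by have := Real.exp_one_gt_d9; linarith
  have h2 : Real.exp 4 = Real.exp 1 ^ 4 := by rw [← Real.exp_nat_mul]; norm_num
  rw [h2]
  calc (40:ℝ) ≤ 2.7 ^ 4 := by norm_num
    _ ≤ _ := pow_le_pow_left₀ (by norm_num) h1.le 4

/-- recursion (always) -/
lemma Gd.rec1 (hP1 : P1 τ) {x : Ω} (h : Gd τ f w φ x) (q : Ω → Bool) {s0 s : ℕ} (hs : s0 ≤ s)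
    (h0 : φ (s + 1) x = 0) :
    hid τ f w q s0 (s + 1) x ≤ (∑ j ∈ Finset.range (mm s), hid τ f w q s0 s (f^[j * NN s] x))
      + (4 * Real.log (NN (s + 1)) + 4) := by
  have h1 := hP1 s0 s hs (itin f q x) (gam f w q s0 x)
  have h2 := h.prodLst_ge q hs h0
  have h3 := h.card_pos q (by omega : s0 ≤ s + 1) h0
  have hK : (1:ℝ) ≤ KK s := by exact_mod_cast KK_pos s
  have hN : (1:ℝ) ≤ NN (s + 1) := by exact_mod_cast NN_pos (s + 1)
  set P := prodLst τ s0 s (itin f q x) (gam f w q s0 x) with hP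
  have h4 : ((Lx τ f w q s0 (s + 1) x).card : ℝ) ≤ 40 * NN (s + 1) * P := by
    refine le_trans h1 ?_
    have h5 : 30 * P / KK s ≤ 30 * P := div_le_self (by linarith) hK
    nlinarith
  have h6 : hid τ f w q s0 (s + 1) x ≤ Real.log (40 * NN (s + 1) * P) := by
    unfold hid
    exact Real.log_le_log (by exact_mod_cast h3) h4
  rw [Real.log_mul (by positivity) (by linarith), Real.log_mul (by norm_num) (by linarith),
    hP, h.log_prodLst q hs h0] at h6
  have h7 := log40
  have h8 := Real.log_nonneg hN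
  linarith

lemma real_rec {L P M N K : ℝ} (hL : 1 ≤ L) (h2 : 1 ≤ P) (hM : 0 ≤ M) (hN : 1 ≤ N) (hK : 1 ≤ K)
    (h1 : L ≤ 30 * P / K + 10 * N) (hB : K * Real.exp (-3 * M) / N ^ 3 < P) :
    Real.log L ≤ Real.log P - Real.log K + 3 * M + (4 * Real.log N + 4) := by
  have hKp : 0 < K := by linarith
  have hNp : 0 < N := by linarith
  have hPp : 0 < P := by linarith
  have he : Real.exp (-3 * M) * Real.exp (3 * M) = 1 := by
    rw [← Real.exp_add]; simp
  have he1 : 1 ≤ Real.exp (3 * M) := Real.one_le_exp (by positivity)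
  -- 1 ≤ P e^{3M} N^3 / K
  have h5 : 1 ≤ P * Real.exp (3 * M) * N ^ 3 / K := by
    rw [le_div_iff₀ hKp, one_mul]
    have hN3 : 0 < N ^ 3 := by positivity
    rw [div_lt_iff₀ hN3] at hB
    calc K = K * Real.exp (-3 * M) * Real.exp (3 * M) := by rw [mul_assoc, he, mul_one]
      _ ≤ (P * N ^ 3) * Real.exp (3 * M) := mul_le_mul_of_nonneg_right hB.le (Real.exp_pos _).le
      _ = P * Real.exp (3 * M) * N ^ 3 := by ring
  have h4 : L ≤ 40 * N ^ 4 * (P * Real.exp (3 * M) / K) := by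
    refine le_trans h1 ?_
    have hPK : 0 ≤ P / K := by positivity
    have h6 : 30 * P / K ≤ 30 * N ^ 4 * (P * Real.exp (3 * M) / K) := by
      have e1 : 30 * P / K = 30 * (P / K) * 1 := by ring
      have e2 : 30 * N ^ 4 * (P * Real.exp (3 * M) / K) =
          30 * (P / K) * (N ^ 4 * Real.exp (3 * M)) := by ring
      rw [e1, e2]
      have h7 : 1 ≤ N ^ 4 * Real.exp (3 * M) := by
        have : (1:ℝ) ≤ N ^ 4 := one_le_pow₀ hN
        nlinarith
      exact mul_le_mul_of_nonneg_left h7 (by positivity)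
    have h8 : 10 * N ≤ 10 * N ^ 4 * (P * Real.exp (3 * M) / K) := by
      have e3 : 10 * N ^ 4 * (P * Real.exp (3 * M) / K) =
          10 * N * (P * Real.exp (3 * M) * N ^ 3 / K) := by
        ring
      rw [e3]
      calc 10 * N = 10 * N * 1 := by ring
        _ ≤ _ := mul_le_mul_of_nonneg_left h5 (by positivity)
    have e4 : 40 * N ^ 4 * (P * Real.exp (3 * M) / K) =
      30 * N ^ 4 * (P * Real.exp (3 * M) / K) + 10 * N ^ 4 * (P * Real.exp (3 * M) / K) := by ring
    rw [e4]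
    exact add_le_add h6 h8
  have h6 : Real.log L ≤ Real.log (40 * N ^ 4 * (P * Real.exp (3 * M) / K)) :=
    Real.log_le_log (by linarith) h4
  rw [Real.log_mul (by positivity) (by positivity), Real.log_mul (by norm_num) (by positivity),
    Real.log_div (by positivity) (by positivity), Real.log_mul (by positivity) (by positivity),
    Real.log_exp, Real.log_pow] at h6
  have h7 := log40
  push_cast at h6
  linarith

/-- recursion (not exceptional) -/
lemma Gd.rec2 (hP1 : P1 τ) {x : Ω} (h : Gd τ f w φ x) (q : Ω → Bool) {s0 s : ℕ} (hs : s0 ≤ s)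
    (h0 : φ (s + 1) x = 0) (hE : x ∉ Exc τ f w φ q s0 s) :
    hid τ f w q s0 (s + 1) x ≤ (∑ j ∈ Finset.range (mm s), hid τ f w q s0 s (f^[j * NN s] x))
      - Real.log (KK s) + 3 * ((NN (s + 1) / NN s0 : ℕ) : ℝ) + (4 * Real.log (NN (s + 1)) + 4) := by
  have h1 := hP1 s0 s hs (itin f q x) (gam f w q s0 x)
  have h2 := h.prodLst_ge q hs h0
  have h3 : (1:ℝ) ≤ ((Lx τ f w q s0 (s + 1) x).card : ℝ) := by
    exact_mod_cast h.card_pos q (by omega : s0 ≤ s + 1) h0
  have hK : (1:ℝ) ≤ KK s := by exact_mod_cast KK_pos s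
  have hN : (1:ℝ) ≤ NN (s + 1) := by exact_mod_cast NN_pos (s + 1)
  have hB : ¬ Bd τ s0 s (itin f q x) (gam f w q s0 x) := by
    intro hB
    exact hE ⟨h0, gam f w q s0 x, hB, h.mem q (by omega) h0⟩
  unfold Bd at hB
  rw [not_le] at hB
  have h4 := real_rec h3 h2 (Nat.cast_nonneg _) hN hK h1 hB
  rw [h.log_prodLst q hs h0] at h4
  exact h4

end Crest.Agent.R133.Pot
end

-- ▼ part R133/Pot2
section

/-! # Row 133, POT part 2: measurability and shift formulas -/

set_option autoImplicit false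
set_option linter.unusedSectionVars false

open MeasureTheory Set

namespace Crest.Agent.R133.Pot

variable {τ : Tau} {Ω : Type*} [MeasurableSpace Ω] {ν : Measure Ω} {f : Ω → Ω}
  {w : ∀ s, Ω → W s} {φ : ℕ → Ω → ℕ}

lemma meas_ham {a b : Ω → ℕ → Bool} (ha : ∀ i, Measurable fun x => a x i)
    (hb : ∀ i, Measurable fun x => b x i) (N : ℕ) :
    Measurable fun x => (ham N (a x) (b x) : ℝ) := by
  have h1 : (fun x => (ham N (a x) (b x) : ℝ)) =
      fun x => ∑ i ∈ Finset.range N, if a x i ≠ b x i then (1:ℝ) else 0 := by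
    funext x
    rw [ham_eq_sum]
    push_cast
    rfl
  rw [h1]
  apply Finset.measurable_sum
  intro i _
  exact Measurable.ite (measurableSet_eq_fun (ha i) (hb i)).compl measurable_const measurable_const

lemma meas_itin (hf : Measurable f) {q : Ω → Bool} (hq : Measurable q) (i : ℕ) :
    Measurable fun x => itin f q x i := hq.comp (hf.iterate i)

lemma meas_pn (hf : Measurable f) (hw : ∀ s, Measurable (w s)) (i : ℕ) :
    Measurable fun x => pn f w x i := by
  apply meas_itin hf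
  exact (measurable_from_top (f := fun u : W 0 => (show Bool from u))).comp (hw 0)

lemma meas_mem (hf : Measurable f) (hw : ∀ s, Measurable (w s)) {q : Ω → Bool} (hq : Measurable q)
    (s0 s : ℕ) (u : W s) : MeasurableSet {x | u ∈ Lx τ f w q s0 s x} := by
  have h1 : {x | u ∈ Lx τ f w q s0 s x} = ⋂ j ∈ Finset.range (NN s / NN s0),
      ({x | (ham (NN s0) (sh (j * NN s0) (pn f w x)) (sh (j * NN s0) (itin f q x)) : ℝ)
          ≤ rho * NN s0}ᶜ ∪
        {x | (ham (NN s0) (sh (j * NN s0) (nm τ s u)) (sh (j * NN s0) (itin f q x)) : ℝ)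
          ≤ rho * NN s0}) := by
    ext x
    simp only [mem_ofPred_eq, Lx, mem_Lst, mem_iInter, Finset.mem_range, mem_union, mem_compl_iff]
    apply forall_congr'; intro j
    apply imp_congr_right; intro _
    exact imp_iff_not_or
  rw [h1]
  apply Finset.measurableSet_biInter
  intro j _
  apply MeasurableSet.union
  · apply MeasurableSet.compl
    apply measurableSet_le _ measurable_const
    exact meas_ham (a := fun x => sh (j * NN s0) (pn f w x))
      (b := fun x => sh (j * NN s0) (itin f q x)) (fun i => meas_pn hf hw (j * NN s0 + i))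
      (fun i => meas_itin hf hq (j * NN s0 + i)) (NN s0)
  · apply measurableSet_le _ measurable_const
    exact meas_ham (a := fun _ => sh (j * NN s0) (nm τ s u))
      (b := fun x => sh (j * NN s0) (itin f q x)) (fun i => measurable_const)
      (fun i => meas_itin hf hq (j * NN s0 + i)) (NN s0)

lemma meas_hid (hf : Measurable f) (hw : ∀ s, Measurable (w s)) {q : Ω → Bool} (hq : Measurable q)
    (s0 s : ℕ) : Measurable (hid τ f w q s0 s) := by
  classical
  have h1 : (fun x => ((Lx τ f w q s0 s x).card : ℝ)) =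
      fun x => ∑ u : W s, if u ∈ Lx τ f w q s0 s x then (1:ℝ) else 0 := by
    funext x
    rw [Finset.sum_boole]
    congr 2
    ext u; simp
  have h2 : Measurable (fun x => ((Lx τ f w q s0 s x).card : ℝ)) := by
    rw [h1]
    apply Finset.measurable_sum
    intro u _
    exact Measurable.ite (meas_mem hf hw hq s0 s u) measurable_const measurable_const
  exact Real.measurable_log.comp h2

lemma meas_phi (T : TowerMaps τ ν f w φ) (s k : ℕ) : MeasurableSet {x | φ s x = k} :=
  T.φ_meas s (measurableSet_singleton k)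

/-- integral over the level `k` -/
lemma shift_one (hf : MeasurePreserving f ν ν) (T : TowerMaps τ ν f w φ) {s k : ℕ}
    (hk : k < NN s) {g : Ω → ℝ} (hg : Measurable g) :
    ∫ x in {x | φ s x = 0}, g (f^[k] x) ∂ν = ∫ x in {x | φ s x = k}, g x ∂ν := by
  rw [← integral_indicator (meas_phi T s 0), ← integral_indicator (meas_phi T s k)]
  have h1 : ∫ x, indicator {x | φ s x = k} g x ∂ν =
      ∫ x, indicator {x | φ s x = k} g (f^[k] x) ∂ν := by
    conv_lhs => rw [← (hf.iterate k).map_eq]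
    rw [integral_map (hf.iterate k).measurable.aemeasurable]
    exact (hg.indicator (meas_phi T s k)).aestronglyMeasurable
  rw [h1]
  apply integral_congr_ae
  filter_upwards [ae_Gd hf T] with x hx
  have h2 := hx.phi s k
  have h3 := hx.lt s
  by_cases h0 : φ s x = 0
  · rw [indicator_of_mem (show x ∈ {x | φ s x = 0} from h0),
      indicator_of_mem (show f^[k] x ∈ {x | φ s x = k} from hx.phi0 h0 hk)]
  · rw [indicator_of_notMem (show x ∉ {x | φ s x = 0} from h0), indicator_of_notMem]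
    intro h4
    have h5 : φ s (f^[k] x) = k := h4
    rw [h2] at h5
    rcases lt_or_ge (φ s x + k) (NN s) with h6 | h6
    · rw [Nat.mod_eq_of_lt h6] at h5; omega
    · rw [Nat.mod_eq_sub_mod h6, Nat.mod_eq_of_lt (by omega)] at h5; omega

/-- `ν{φ_s = 0} = 1/N_s` -/
lemma meas_base (T : TowerMaps τ ν f w φ) (s : ℕ) :
    ν {x | φ s x = 0} = ENNReal.ofReal (1 / (NN s : ℝ)) := by
  classical
  have h1 : {x | φ s x = 0} = ⋃ u ∈ (Finset.univ : Finset (W s)), {x | w s x = u ∧ φ s x = 0} := by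
    ext x; simp
  have hK : (0:ℝ) < KK s := by exact_mod_cast KK_pos s
  rw [h1, measure_biUnion_finset]
  · simp only [T.unif s _ 0 (NN_pos s)]
    rw [Finset.sum_const, Finset.card_univ, card_W, nsmul_eq_mul,
      ← ENNReal.ofReal_natCast, ← ENNReal.ofReal_mul (by positivity)]
    congr 1
    field_simp
  · intro u _ v _ huv
    rw [Function.onFun, Set.disjoint_left]
    rintro x ⟨hx, _⟩ ⟨hy, _⟩
    exact huv (hx.symm.trans hy)
  · intro u _
    exact (T.w_meas s (measurableSet_singleton u)).inter (meas_phi T s 0)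

lemma integrable_bdd [IsFiniteMeasure ν] {g : Ω → ℝ} (hg : Measurable g) (C : ℝ)
    (h : ∀ x, |g x| ≤ C) : Integrable g ν :=
  Integrable.of_bound hg.aestronglyMeasurable C (Filter.Eventually.of_forall h)

/-- block decomposition of the base -/
lemma base_split [IsFiniteMeasure ν] (hf : MeasurePreserving f ν ν) (T : TowerMaps τ ν f w φ)
    (s : ℕ) {g : Ω → ℝ} (hg : Measurable g) (C : ℝ) (hC : ∀ x, |g x| ≤ C) :
    ∫ x in {x | φ s x = 0}, g x ∂ν =
      ∫ x in {x | φ (s + 1) x = 0}, ∑ j ∈ Finset.range (mm s), g (f^[j * NN s] x) ∂ν := by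
  have hgi := integrable_bdd (ν := ν) hg C hC
  rw [integral_finsetSum]
  · have h1 : ∀ j ∈ Finset.range (mm s), ∫ x in {x | φ (s + 1) x = 0}, g (f^[j * NN s] x) ∂ν =
        ∫ x in {x | φ (s + 1) x = j * NN s}, g x ∂ν := by
      intro j hj
      apply shift_one hf T _ hg
      rw [NN_succ]
      exact Nat.mul_lt_mul_of_pos_right (Finset.mem_range.1 hj) (NN_pos s)
    rw [Finset.sum_congr rfl h1]
    rw [← integral_indicator (meas_phi T s 0)]
    have h2 : ∀ j ∈ Finset.range (mm s), ∫ x in {x | φ (s + 1) x = j * NN s}, g x ∂ν =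
        ∫ x, indicator {x | φ (s + 1) x = j * NN s} g x ∂ν := by
      intro j _
      rw [← integral_indicator (meas_phi T (s + 1) _)]
    rw [Finset.sum_congr rfl h2, ← integral_finsetSum]
    · apply integral_congr_ae
      filter_upwards [ae_Gd hf T] with x hx
      have h3 := (hx s 0).2.2.2.1
      simp only [Function.iterate_zero, id_eq] at h3
      have h4 := hx.lt (s + 1)
      rw [NN_succ] at h4
      by_cases h0 : φ s x = 0
      · rw [indicator_of_mem (show x ∈ {x | φ s x = 0} from h0)]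
        rw [h3] at h0
        have h5 : φ (s + 1) x / NN s < mm s := Nat.div_lt_of_lt_mul (by rwa [mul_comm])
        have h6 : φ (s + 1) x = φ (s + 1) x / NN s * NN s :=
          (Nat.div_mul_cancel (Nat.dvd_of_mod_eq_zero h0)).symm
        rw [Finset.sum_eq_single (φ (s + 1) x / NN s)]
        · rw [indicator_of_mem (show x ∈ {y | φ (s + 1) y = φ (s + 1) x / NN s * NN s} from h6)]
        · intro j _ hj
          apply indicator_of_notMem
          intro h7
          have h8 : φ (s + 1) x = j * NN s := h7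
          apply hj
          rw [h8, Nat.mul_div_cancel _ (NN_pos s)]
        · intro h7
          exact absurd (Finset.mem_range.2 h5) h7
      · rw [indicator_of_notMem (show x ∉ {x | φ s x = 0} from h0)]
        symm
        apply Finset.sum_eq_zero
        intro j _
        apply indicator_of_notMem
        intro h7
        have h8 : φ (s + 1) x = j * NN s := h7
        apply h0
        rw [h3, h8, Nat.mul_mod_left]
    · intro j _
      exact hgi.indicator (meas_phi T (s + 1) _)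
  · intro j _
    apply Integrable.integrableOn
    exact integrable_bdd (hg.comp (hf.iterate _).measurable) C (fun x => hC _)

/-- Kac formula for the tower -/
lemma kac [IsFiniteMeasure ν] (hf : MeasurePreserving f ν ν) (T : TowerMaps τ ν f w φ)
    (s : ℕ) {g : Ω → ℝ} (hg : Measurable g) (C : ℝ) (hC : ∀ x, |g x| ≤ C) :
    ∫ x in {x | φ s x = 0}, ∑ i ∈ Finset.range (NN s), g (f^[i] x) ∂ν = ∫ x, g x ∂ν := by
  have hgi := integrable_bdd (ν := ν) hg C hC
  rw [integral_finsetSum]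
  · have h1 : ∀ i ∈ Finset.range (NN s), ∫ x in {x | φ s x = 0}, g (f^[i] x) ∂ν =
        ∫ x, indicator {x | φ s x = i} g x ∂ν := by
      intro i hi
      rw [shift_one hf T (Finset.mem_range.1 hi) hg, integral_indicator (meas_phi T s i)]
    rw [Finset.sum_congr rfl h1, ← integral_finsetSum]
    · apply integral_congr_ae
      filter_upwards [ae_Gd hf T] with x hx
      rw [Finset.sum_eq_single (φ s x)]
      · rw [indicator_of_mem (show x ∈ {y | φ s y = φ s x} from rfl)]
      · intro j _ hj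
        apply indicator_of_notMem
        intro h7
        exact hj (h7 : φ s x = j).symm
      · intro h7
        exact absurd (Finset.mem_range.2 (hx.lt s)) h7
    · intro j _
      exact hgi.indicator (meas_phi T s _)
  · intro j _
    apply Integrable.integrableOn
    exact integrable_bdd (hg.comp (hf.iterate _).measurable) C (fun x => hC _)

end Crest.Agent.R133.Pot
end

-- ▼ part R133/Pot

/-! # Row 133, THEOREM POT (section 4 of note 12067) -/

set_option autoImplicit false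
set_option linter.unusedSectionVars false

open MeasureTheory Set

namespace Crest.Agent.R133.Pot

variable {τ : Tau} {Ω : Type*} [MeasurableSpace Ω] {ν : Measure Ω} {f : Ω → Ω}
  {w : ∀ s, Ω → W s} {φ : ℕ → Ω → ℕ}

/-- the integral of `hid` over the base -/
noncomputable def II (τ : Tau) (ν : Measure Ω) (f : Ω → Ω) (w : ∀ s, Ω → W s) (φ : ℕ → Ω → ℕ)
    (q : Ω → Bool) (s0 s : ℕ) : ℝ :=
  ∫ x in {x | φ s x = 0}, hid τ f w q s0 s x ∂ν

lemma II_nonneg (q : Ω → Bool) (s0 s : ℕ) : 0 ≤ II τ ν f w φ q s0 s :=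
  integral_nonneg (fun x => hid_nonneg q s0 s x)

lemma abs_hid_le (q : Ω → Bool) (s0 s : ℕ) (x : Ω) :
    |hid τ f w q s0 s x| ≤ Real.log (KK s) := by
  rw [abs_of_nonneg (hid_nonneg q s0 s x)]
  exact hid_le q s0 s x

lemma real_base (T : TowerMaps τ ν f w φ) (s : ℕ) :
    ν.real {x | φ s x = 0} = 1 / (NN s : ℝ) := by
  unfold Measure.real
  rw [meas_base T, ENNReal.toReal_ofReal (by positivity)]

lemma II_rec1 [IsProbabilityMeasure ν] (hP1 : P1 τ) (hf : MeasurePreserving f ν ν)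
    (T : TowerMaps τ ν f w φ) {q : Ω → Bool} (hq : Measurable q) {s0 s : ℕ} (hs : s0 ≤ s) :
    II τ ν f w φ q s0 (s + 1) ≤ II τ ν f w φ q s0 s +
      (4 * Real.log (NN (s + 1)) + 4) * (1 / (NN (s + 1) : ℝ)) := by
  have hm := meas_hid (τ := τ) hf.measurable T.w_meas hq s0
  unfold II
  rw [base_split hf T s (hm s) _ (abs_hid_le q s0 s), ← real_base T (s + 1)]
  have hc : (4 * Real.log (NN (s + 1)) + 4) * ν.real {x | φ (s + 1) x = 0} =
      ∫ x in {x | φ (s + 1) x = 0}, (4 * Real.log (NN (s + 1)) + 4) ∂ν := by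
    rw [setIntegral_const, smul_eq_mul, mul_comm]
  have hi1 : Integrable (fun x => ∑ j ∈ Finset.range (mm s),
      hid τ f w q s0 s (f^[j * NN s] x)) (ν.restrict {x | φ (s + 1) x = 0}) := by
    apply integrable_finsetSum
    intro j _
    exact integrable_bdd ((hm s).comp (hf.iterate _).measurable) _
      (fun x => abs_hid_le q s0 s _)
  rw [hc, ← integral_add hi1 (integrable_const _)]
  apply integral_mono_ae (integrable_bdd (hm (s + 1)) _ (abs_hid_le q s0 (s + 1)))
    (hi1.add (integrable_const _))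
  rw [Filter.EventuallyLE, ae_restrict_iff' (meas_phi T (s + 1) 0)]
  filter_upwards [ae_Gd hf T] with x hx h0
  exact hx.rec1 hP1 q hs h0

lemma II_rec2 [IsProbabilityMeasure ν] (hP1 : P1 τ) (hf : MeasurePreserving f ν ν)
    (T : TowerMaps τ ν f w φ) {q : Ω → Bool} (hq : Measurable q) {s0 s : ℕ} (hs : s0 ≤ s)
    (hE : ν (Exc τ f w φ q s0 s) ≤ ENNReal.ofReal (1 / (10 * NN (s + 1)))) :
    II τ ν f w φ q s0 (s + 1) ≤ II τ ν f w φ q s0 s +
      ((4 * Real.log (NN (s + 1)) + 4) + 3 * ((NN (s + 1) / NN s0 : ℕ) : ℝ)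
        - 9 / 10 * Real.log (KK s)) * (1 / (NN (s + 1) : ℝ)) := by
  have hm := meas_hid (τ := τ) hf.measurable T.w_meas hq s0
  set c : ℝ := (4 * Real.log (NN (s + 1)) + 4) + 3 * ((NN (s + 1) / NN s0 : ℕ) : ℝ)
    - Real.log (KK s) with hc
  set E : Set Ω := toMeasurable ν (Exc τ f w φ q s0 s) with hEdef
  have hEm : MeasurableSet E := measurableSet_toMeasurable _ _
  have hEν : ν.real E ≤ 1 / (10 * NN (s + 1)) := by
    unfold Measure.real
    rw [hEdef, measure_toMeasurable]
    exact ENNReal.toReal_le_of_le_ofReal (by positivity) hE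
  have hlogK : 0 ≤ Real.log (KK s) := Real.log_natCast_nonneg _
  have hN : (1:ℝ) ≤ NN (s + 1) := by exact_mod_cast NN_pos (s + 1)
  have hlogN : 0 ≤ Real.log (NN (s + 1)) := Real.log_nonneg hN
  have hi1 : Integrable (fun x => ∑ j ∈ Finset.range (mm s),
      hid τ f w q s0 s (f^[j * NN s] x)) (ν.restrict {x | φ (s + 1) x = 0}) := by
    apply integrable_finsetSum
    intro j _
    exact integrable_bdd ((hm s).comp (hf.iterate _).measurable) _
      (fun x => abs_hid_le q s0 s _)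
  have hi2 : Integrable (indicator E (fun _ => Real.log (KK s)))
      (ν.restrict {x | φ (s + 1) x = 0}) := (integrable_const _).indicator hEm
  have h1 : II τ ν f w φ q s0 (s + 1) ≤ ∫ x in {x | φ (s + 1) x = 0},
      ((∑ j ∈ Finset.range (mm s), hid τ f w q s0 s (f^[j * NN s] x)) + c
        + indicator E (fun _ => Real.log (KK s)) x) ∂ν := by
    unfold II
    apply integral_mono_ae (integrable_bdd (hm (s + 1)) _ (abs_hid_le q s0 (s + 1)))
      ((hi1.add (integrable_const _)).add hi2)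
    rw [Filter.EventuallyLE, ae_restrict_iff' (meas_phi T (s + 1) 0)]
    filter_upwards [ae_Gd hf T] with x hx h0
    by_cases hxE : x ∈ E
    · have h2 := hx.rec1 hP1 q hs h0
      have h3 : indicator E (fun _ => Real.log (KK s)) x = Real.log (KK s) :=
        indicator_of_mem hxE _
      show hid τ f w q s0 (s + 1) x ≤ (∑ j ∈ Finset.range (mm s), hid τ f w q s0 s (f^[j * NN s] x))
        + c + indicator E (fun _ => Real.log (KK s)) x
      rw [h3]
      have h4 : (0:ℝ) ≤ 3 * ((NN (s + 1) / NN s0 : ℕ) : ℝ) := by positivity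
      rw [hc]
      linarith
    · have h2 := hx.rec2 hP1 q hs h0 (fun h => hxE (subset_toMeasurable _ _ h))
      have h3 : indicator E (fun _ => Real.log (KK s)) x = 0 := indicator_of_notMem hxE _
      show hid τ f w q s0 (s + 1) x ≤ (∑ j ∈ Finset.range (mm s), hid τ f w q s0 s (f^[j * NN s] x))
        + c + indicator E (fun _ => Real.log (KK s)) x
      rw [h3]
      rw [hc]
      linarith
  have h5 : ∫ x in {x | φ (s + 1) x = 0},
      ((∑ j ∈ Finset.range (mm s), hid τ f w q s0 s (f^[j * NN s] x)) + c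
        + indicator E (fun _ => Real.log (KK s)) x) ∂ν =
      II τ ν f w φ q s0 s + c * (1 / (NN (s + 1) : ℝ)) +
        ∫ x in {x | φ (s + 1) x = 0}, indicator E (fun _ => Real.log (KK s)) x ∂ν := by
    have e1 := integral_add (f := fun x => (∑ j ∈ Finset.range (mm s),
      hid τ f w q s0 s (f^[j * NN s] x)) + c) (g := indicator E (fun _ => Real.log (KK s)))
      (hi1.add (integrable_const c)) hi2
    have e2 := integral_add hi1 (integrable_const (μ := ν.restrict {x | φ (s + 1) x = 0}) c)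
    rw [e1, e2]
    rw [setIntegral_const, smul_eq_mul, real_base T, mul_comm (1 / (NN (s + 1) : ℝ)) c]
    unfold II
    rw [base_split hf T s (hm s) _ (abs_hid_le q s0 s)]
  have h6 : ∫ x in {x | φ (s + 1) x = 0}, indicator E (fun _ => Real.log (KK s)) x ∂ν ≤
      Real.log (KK s) * (1 / (10 * NN (s + 1))) := by
    rw [integral_indicator hEm, setIntegral_const, smul_eq_mul, mul_comm]
    apply mul_le_mul_of_nonneg_left _ hlogK
    refine le_trans ?_ hEν
    unfold Measure.real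
    apply ENNReal.toReal_mono (measure_ne_top _ _)
    exact Measure.restrict_apply_le _ _
  rw [h5] at h1
  refine h1.trans ?_
  have h7 : Real.log (KK s) * (1 / (10 * (NN (s + 1) : ℝ))) =
      (1 / 10 * Real.log (KK s)) * (1 / (NN (s + 1) : ℝ)) := by
    field_simp
  rw [h7] at h6
  have h8 : ((4 * Real.log (NN (s + 1)) + 4) + 3 * ((NN (s + 1) / NN s0 : ℕ) : ℝ)
        - 9 / 10 * Real.log (KK s)) * (1 / (NN (s + 1) : ℝ)) =
      c * (1 / (NN (s + 1) : ℝ)) + (1 / 10 * Real.log (KK s)) * (1 / (NN (s + 1) : ℝ)) := by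
    rw [hc]; ring
  rw [h8]
  linarith

/-! ## the initial bound -/

open Classical in
/-- Hamming ball of radius `2ρN` around the word `u` -/
noncomputable def Ball (τ : Tau) (s : ℕ) (u : W s) : Finset (W s) :=
  Finset.univ.filter (fun u' => (ham (NN s) (nm τ s u) (nm τ s u') : ℝ) ≤ 2 * rho * NN s)

lemma self_mem_Ball (s : ℕ) (u : W s) : u ∈ Ball τ s u := by
  unfold Ball
  rw [Finset.mem_filter]
  refine ⟨Finset.mem_univ _, ?_⟩
  rw [ham_self, Nat.cast_zero]
  unfold rho
  positivity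

lemma sh_zero (z : ℕ → Bool) (N : ℕ) : sh (0 * N) z = z := by
  funext i
  unfold sh
  rw [zero_mul, zero_add]

lemma Gd.hid_init {x : Ω} (h : Gd τ f w φ x) (q : Ω → Bool) {s : ℕ} (h0 : φ s x = 0) :
    hid τ f w q s s x ≤ Real.log ((Ball τ s (w s x)).card : ℝ) +
      Real.log (KK s) / (rho * NN s) * (ham (NN s) (pn f w x) (itin f q x) : ℝ) := by
  have hNp : (0:ℝ) < NN s := by exact_mod_cast NN_pos s
  have hr : 0 < rho := by unfold rho; norm_num
  have hlogK : 0 ≤ Real.log (KK s) := Real.log_natCast_nonneg _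
  have hball : 0 ≤ Real.log ((Ball τ s (w s x)).card : ℝ) := Real.log_natCast_nonneg _
  by_cases hg : (ham (NN s) (pn f w x) (itin f q x) : ℝ) ≤ rho * NN s
  · have h1 : hid τ f w q s s x ≤ Real.log ((Ball τ s (w s x)).card : ℝ) := by
      unfold hid
      apply Real.log_le_log
      · exact_mod_cast h.card_pos q le_rfl h0
      · have hsub : Lx τ f w q s s x ⊆ Ball τ s (w s x) := by
          intro u hu
          unfold Lx at hu
          rw [mem_Lst] at hu
          have h2 := hu 0 (by rw [Nat.div_self (NN_pos s)]; exact one_pos) (by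
            show (ham (NN s) (sh (0 * NN s) (pn f w x)) (sh (0 * NN s) (itin f q x)) : ℝ)
              ≤ rho * NN s
            rw [sh_zero, sh_zero]; exact hg)
          rw [sh_zero, sh_zero] at h2
          unfold Ball
          rw [Finset.mem_filter]
          refine ⟨Finset.mem_univ _, ?_⟩
          have h3 : ham (NN s) (nm τ s (w s x)) (itin f q x) =
              ham (NN s) (pn f w x) (itin f q x) := by
            apply ham_congr _ (fun _ _ => rfl)
            intro i hi
            exact (h.pn_eq h0 hi).symm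
          have h4 := ham_triangle (NN s) (nm τ s (w s x)) (itin f q x) (nm τ s u)
          rw [h3, ham_comm (NN s) (itin f q x)] at h4
          have h5 : (ham (NN s) (nm τ s (w s x)) (nm τ s u) : ℝ) ≤
              (ham (NN s) (pn f w x) (itin f q x) : ℝ) +
                (ham (NN s) (nm τ s u) (itin f q x) : ℝ) := by exact_mod_cast h4
          linarith
        exact_mod_cast Finset.card_le_card hsub
    have h2 : 0 ≤ Real.log (KK s) / (rho * NN s) *
        (ham (NN s) (pn f w x) (itin f q x) : ℝ) := by positivity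
    linarith
  · rw [not_le] at hg
    have h1 := hid_le (τ := τ) (f := f) (w := w) q s s x
    have h2 : Real.log (KK s) ≤ Real.log (KK s) / (rho * NN s) *
        (ham (NN s) (pn f w x) (itin f q x) : ℝ) := by
      calc Real.log (KK s) = Real.log (KK s) / (rho * NN s) * (rho * NN s) := by
            field_simp
        _ ≤ _ := mul_le_mul_of_nonneg_left hg.le (by positivity)
    linarith

/-- row sums -/
noncomputable def RS (τ : Tau) (s : ℕ) (l : ℝ) (u : W s) : ℝ :=
  ∑ u' : W s, Real.exp (-l * (ham (NN s) (nm τ s u) (nm τ s u') : ℝ))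

lemma RS_pos (s : ℕ) (l : ℝ) (u : W s) : 0 < RS τ s l u := by
  unfold RS
  exact Finset.sum_pos (fun _ _ => Real.exp_pos _) ⟨u, Finset.mem_univ _⟩

lemma log_Ball_le {s : ℕ} {l : ℝ} (hl : 0 ≤ l) (u : W s) :
    Real.log ((Ball τ s u).card : ℝ) ≤ Real.log (RS τ s l u) + l * (2 * rho * NN s) := by
  have hc : (0:ℝ) < (Ball τ s u).card := by
    exact_mod_cast Finset.card_pos.2 ⟨u, self_mem_Ball s u⟩
  have h1 : ((Ball τ s u).card : ℝ) * Real.exp (-l * (2 * rho * NN s)) ≤ RS τ s l u := by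
    calc ((Ball τ s u).card : ℝ) * Real.exp (-l * (2 * rho * NN s))
        = ∑ u' ∈ Ball τ s u, Real.exp (-l * (2 * rho * NN s)) := by
          rw [Finset.sum_const, nsmul_eq_mul]
      _ ≤ ∑ u' ∈ Ball τ s u, Real.exp (-l * (ham (NN s) (nm τ s u) (nm τ s u') : ℝ)) := by
          apply Finset.sum_le_sum
          intro u' hu'
          unfold Ball at hu'
          rw [Finset.mem_filter] at hu'
          apply Real.exp_le_exp.2
          nlinarith [hu'.2]
      _ ≤ RS τ s l u := by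
          unfold RS
          exact Finset.sum_le_sum_of_subset_of_nonneg (Finset.subset_univ _)
            (fun _ _ _ => (Real.exp_pos _).le)
  have h2 := Real.log_le_log (mul_pos hc (Real.exp_pos _)) h1
  rw [Real.log_mul hc.ne' (Real.exp_pos _).ne', Real.log_exp] at h2
  linarith

lemma sum_log_RS_le (s : ℕ) (l : ℝ) :
    ∑ u : W s, Real.log (RS τ s l u) ≤ KK s * Real.log (Z τ s l) := by
  have hK : (0:ℝ) < KK s := by exact_mod_cast KK_pos s
  have hZ : 0 < Z τ s l := lt_of_lt_of_le one_pos (Z_ge_one τ s l)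
  have hZe : ∑ u : W s, RS τ s l u = KK s * Z τ s l := by
    unfold Z RS
    field_simp
  have h1 : ∀ u : W s, Real.log (RS τ s l u) ≤ Real.log (Z τ s l) + (RS τ s l u / Z τ s l - 1) := by
    intro u
    have h2 := Real.log_le_sub_one_of_pos (div_pos (RS_pos (τ := τ) s l u) hZ)
    rw [Real.log_div (RS_pos s l u).ne' hZ.ne'] at h2
    linarith
  calc ∑ u : W s, Real.log (RS τ s l u)
      ≤ ∑ u : W s, (Real.log (Z τ s l) + (RS τ s l u / Z τ s l - 1)) :=
        Finset.sum_le_sum (fun u _ => h1 u)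
    _ = KK s * Real.log (Z τ s l) + ((∑ u : W s, RS τ s l u) / Z τ s l - KK s) := by
        rw [Finset.sum_add_distrib, Finset.sum_sub_distrib, Finset.sum_div, Finset.sum_const,
          Finset.sum_const, Finset.card_univ, card_W, nsmul_eq_mul, nsmul_eq_mul, mul_one]
    _ = KK s * Real.log (Z τ s l) := by
        rw [hZe]
        field_simp
        ring

lemma int_word [IsFiniteMeasure ν] (T : TowerMaps τ ν f w φ) (s : ℕ) (F : W s → ℝ) :
    ∫ x in {x | φ s x = 0}, F (w s x) ∂ν =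
      (1 / ((KK s : ℝ) * NN s)) * ∑ u : W s, F u := by
  classical
  have hms : ∀ u : W s, MeasurableSet {x | w s x = u} := fun u =>
    T.w_meas s (measurableSet_singleton u)
  have h1 : ∀ x, F (w s x) = ∑ u : W s, indicator {x | w s x = u} (fun _ => F u) x := by
    intro x
    rw [Finset.sum_eq_single (w s x)]
    · rw [indicator_of_mem (show x ∈ {y | w s y = w s x} from rfl)]
    · intro u _ hu
      exact indicator_of_notMem (fun h => hu (h : w s x = u).symm) _
    · intro h; exact absurd (Finset.mem_univ _) h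
  simp_rw [h1]
  rw [integral_finsetSum _ (fun u _ => (integrable_const _).indicator (hms u)), Finset.mul_sum]
  apply Finset.sum_congr rfl
  intro u _
  rw [integral_indicator (hms u), Measure.restrict_restrict (hms u), setIntegral_const, smul_eq_mul]
  congr 1
  have h2 : {x | w s x = u} ∩ {x | φ s x = 0} = {x | w s x = u ∧ φ s x = 0} := rfl
  rw [h2]
  unfold Measure.real
  rw [T.unif s u 0 (NN_pos s), ENNReal.toReal_ofReal (by positivity)]

lemma int_ham [IsProbabilityMeasure ν] (hf : MeasurePreserving f ν ν)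
    (T : TowerMaps τ ν f w φ) {q : Ω → Bool} (hq : Measurable q)
    (hδ : ν {x | q x ≠ (show Bool from w 0 x)} ≤ ENNReal.ofReal (rho ^ 2)) (s : ℕ) :
    ∫ x in {x | φ s x = 0}, (ham (NN s) (pn f w x) (itin f q x) : ℝ) ∂ν ≤ rho ^ 2 := by
  classical
  have hw0 : Measurable (fun x => (show Bool from w 0 x)) :=
    (measurable_from_top (f := fun u : W 0 => (show Bool from u))).comp (T.w_meas 0)
  set g : Ω → ℝ := fun x => if (show Bool from w 0 x) ≠ q x then (1:ℝ) else 0 with hg
  have hgm : Measurable g :=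
    Measurable.ite (measurableSet_eq_fun hw0 hq).compl measurable_const measurable_const
  have h1 : ∀ x, (ham (NN s) (pn f w x) (itin f q x) : ℝ) =
      ∑ i ∈ Finset.range (NN s), g (f^[i] x) := by
    intro x
    rw [ham_eq_sum]
    push_cast
    rfl
  simp_rw [h1]
  rw [kac hf T s hgm 1 (by intro x; rw [hg]; dsimp only; split_ifs <;> simp)]
  have h2 : ∫ x, g x ∂ν = ν.real {x | (show Bool from w 0 x) ≠ q x} := by
    have h3 : g = indicator {x | (show Bool from w 0 x) ≠ q x} (fun _ => (1:ℝ)) := by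
      funext x
      rw [hg]
      dsimp only
      by_cases h : (show Bool from w 0 x) ≠ q x
      · rw [if_pos h, indicator_of_mem (show x ∈ {x | (show Bool from w 0 x) ≠ q x} from h)]
      · rw [if_neg h, indicator_of_notMem (show x ∉ {x | (show Bool from w 0 x) ≠ q x} from h)]
    have hms : MeasurableSet {x | (show Bool from w 0 x) ≠ q x} :=
      (measurableSet_eq_fun hw0 hq).compl
    rw [h3, integral_indicator hms, setIntegral_const, smul_eq_mul, mul_one]
  rw [h2]
  unfold Measure.real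
  apply ENNReal.toReal_le_of_le_ofReal (by positivity)
  refine le_trans (measure_mono ?_) hδ
  intro x hx
  exact Ne.symm hx

lemma II_init [IsProbabilityMeasure ν] (hf : MeasurePreserving f ν ν)
    (T : TowerMaps τ ν f w φ) {q : Ω → Bool} (hq : Measurable q)
    (hδ : ν {x | q x ≠ (show Bool from w 0 x)} ≤ ENNReal.ofReal (rho ^ 2)) (s : ℕ)
    (hζ : Real.log (Z τ s (lam s)) ≤ 0.01 * Real.log (KK s)) :
    II τ ν f w φ q s s ≤ (29 / 1000) * Real.log (KK s) * (1 / (NN s : ℝ)) := by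
  have hm := meas_hid (τ := τ) hf.measurable T.w_meas hq s
  have hNp : (0:ℝ) < NN s := by exact_mod_cast NN_pos s
  have hKp : (0:ℝ) < KK s := by exact_mod_cast KK_pos s
  have hr : 0 < rho := by unfold rho; norm_num
  have hlogK : 0 ≤ Real.log (KK s) := Real.log_natCast_nonneg _
  set c : ℝ := Real.log (KK s) / (rho * NN s) with hc
  have hc0 : 0 ≤ c := by positivity
  have hi1 : Integrable (fun x => Real.log ((Ball τ s (w s x)).card : ℝ))
      (ν.restrict {x | φ s x = 0}) := by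
    have hmm : Measurable (fun x => Real.log ((Ball τ s (w s x)).card : ℝ)) :=
      (measurable_from_top (f := fun u : W s => Real.log ((Ball τ s u).card : ℝ))).comp
        (T.w_meas s)
    apply integrable_bdd hmm (Real.log (KK s))
    intro x
    rw [abs_of_nonneg (Real.log_natCast_nonneg _)]
    apply Real.log_le_log
    · exact_mod_cast Finset.card_pos.2 ⟨_, self_mem_Ball s (w s x)⟩
    · rw [← card_W s]
      exact_mod_cast Finset.card_le_univ _
  have hi2 : Integrable (fun x => c * (ham (NN s) (pn f w x) (itin f q x) : ℝ))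
      (ν.restrict {x | φ s x = 0}) := by
    apply Integrable.const_mul
    apply integrable_bdd (meas_ham (meas_pn hf.measurable T.w_meas) (meas_itin hf.measurable hq) _)
      (NN s : ℝ)
    intro x
    rw [abs_of_nonneg (Nat.cast_nonneg _)]
    exact_mod_cast ham_le _ _ _
  have h1 : II τ ν f w φ q s s ≤ ∫ x in {x | φ s x = 0},
      (Real.log ((Ball τ s (w s x)).card : ℝ) +
        c * (ham (NN s) (pn f w x) (itin f q x) : ℝ)) ∂ν := by
    unfold II
    apply integral_mono_ae (integrable_bdd (hm s) _ (abs_hid_le q s s)) (hi1.add hi2)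
    rw [Filter.EventuallyLE, ae_restrict_iff' (meas_phi T s 0)]
    filter_upwards [ae_Gd hf T] with x hx h0
    exact hx.hid_init q h0
  rw [integral_add hi1 hi2, integral_const_mul,
    int_word T s (fun u => Real.log ((Ball τ s u).card : ℝ))] at h1
  have h2 := int_ham hf T hq hδ s
  have h3 : ∑ u : W s, Real.log ((Ball τ s u).card : ℝ) ≤
      KK s * (0.01 * Real.log (KK s)) + KK s * (lam s * (2 * rho * NN s)) := by
    have hlam : 0 ≤ lam s := by
      unfold lam hh
      positivity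
    calc ∑ u : W s, Real.log ((Ball τ s u).card : ℝ)
        ≤ ∑ u : W s, (Real.log (RS τ s (lam s) u) + lam s * (2 * rho * NN s)) :=
          Finset.sum_le_sum (fun u _ => log_Ball_le hlam u)
      _ = (∑ u : W s, Real.log (RS τ s (lam s) u)) + KK s * (lam s * (2 * rho * NN s)) := by
          rw [Finset.sum_add_distrib, Finset.sum_const, Finset.card_univ, card_W, nsmul_eq_mul]
      _ ≤ KK s * Real.log (Z τ s (lam s)) + KK s * (lam s * (2 * rho * NN s)) :=
          add_le_add (sum_log_RS_le s _) le_rfl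
      _ ≤ _ := by
          apply add_le_add _ le_rfl
          exact mul_le_mul_of_nonneg_left hζ hKp.le
  have h4 : lam s * (2 * rho * NN s) = 18 * rho * Real.log (KK s) := by
    unfold lam
    rw [← hh_mul s]
    ring
  rw [h4] at h3
  have h5 : 1 / ((KK s : ℝ) * NN s) * ∑ u : W s, Real.log ((Ball τ s u).card : ℝ) ≤
      (28 / 1000) * Real.log (KK s) * (1 / (NN s : ℝ)) := by
    calc 1 / ((KK s : ℝ) * NN s) * ∑ u : W s, Real.log ((Ball τ s u).card : ℝ)
        ≤ 1 / ((KK s : ℝ) * NN s) * (KK s * (0.01 * Real.log (KK s)) +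
          KK s * (18 * rho * Real.log (KK s))) := mul_le_mul_of_nonneg_left h3 (by positivity)
      _ = _ := by
          unfold rho
          field_simp
          ring
  have h6 : c * ∫ x in {x | φ s x = 0}, (ham (NN s) (pn f w x) (itin f q x) : ℝ) ∂ν ≤
      (1 / 1000) * Real.log (KK s) * (1 / (NN s : ℝ)) := by
    calc c * ∫ x in {x | φ s x = 0}, (ham (NN s) (pn f w x) (itin f q x) : ℝ) ∂ν
        ≤ c * rho ^ 2 := mul_le_mul_of_nonneg_left h2 hc0
      _ = _ := by
          rw [hc]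
          unfold rho
          field_simp
  have h7 : (29 / 1000) * Real.log (KK s) * (1 / (NN s : ℝ)) =
    (28 / 1000) * Real.log (KK s) * (1 / (NN s : ℝ)) +
      (1 / 1000) * Real.log (KK s) * (1 / (NN s : ℝ)) := by ring
  rw [h7]
  linarith

lemma numP : NumP mm NN hh where
  hm _ := rfl
  hN0 := rfl
  hN _ := rfl
  hh0 := Par.hh_zero
  hh s := Par.hh_succ s

/-- THEOREM POT (from the consequence of (B)) -/
theorem stPot_of_zeta (hZ : StZeta) : StPot := by
  intro τ hB hP1 Ω _ ν _ f w φ q hf T hq hδ St hSt S0 hE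
  refine numP.pot_num St hSt (fun s0 s => NN s0 * II τ ν f w φ q s0 s) S0 ?_ ?_ ?_ ?_
  · intro s0 s _
    exact mul_nonneg (Nat.cast_nonneg _) (II_nonneg q s0 s)
  · intro s0 _
    have h1 := II_init hf T hq hδ s0 (hZ τ hB s0)
    have hNp : (0:ℝ) < NN s0 := by exact_mod_cast NN_pos s0
    have hlogK : 0 ≤ Real.log (KK s0) := Real.log_natCast_nonneg _
    have h2 := hh_mul s0
    rw [mul_comm] at h2
    rw [h2]
    calc (NN s0 : ℝ) * II τ ν f w φ q s0 s0
        ≤ NN s0 * ((29 / 1000) * Real.log (KK s0) * (1 / (NN s0 : ℝ))) :=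
          mul_le_mul_of_nonneg_left h1 hNp.le
      _ = (29 / 1000) * Real.log (KK s0) := by field_simp
      _ ≤ 1 / 8 * Real.log (KK s0) := by nlinarith
  · intro s0 s _ hs
    have h1 := II_rec1 hP1 hf T hq hs
    have hNp : (0:ℝ) < NN s0 := by exact_mod_cast NN_pos s0
    have hNp1 : (0:ℝ) < NN (s + 1) := by exact_mod_cast NN_pos (s + 1)
    calc (NN s0 : ℝ) * II τ ν f w φ q s0 (s + 1)
        ≤ NN s0 * (II τ ν f w φ q s0 s + (4 * Real.log (NN (s + 1)) + 4) *
          (1 / (NN (s + 1) : ℝ))) := mul_le_mul_of_nonneg_left h1 hNp.le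
      _ = NN s0 * II τ ν f w φ q s0 s + (4 * Real.log (NN (s + 1)) + 4) /
          ((NN (s + 1) : ℝ) / NN s0) := by
          field_simp
  · intro s0 s hS hs hst
    have h1 := II_rec2 hP1 hf T hq hs (hE s0 s hS hs hst)
    have hNp : (0:ℝ) < NN s0 := by exact_mod_cast NN_pos s0
    have hNps : (0:ℝ) < NN s := by exact_mod_cast NN_pos s
    have hmp : (0:ℝ) < mm s := by exact_mod_cast mm_pos s
    have hNp1 : (0:ℝ) < NN (s + 1) := by exact_mod_cast NN_pos (s + 1)
    have hM : ((NN (s + 1) / NN s0 : ℕ) : ℝ) = (NN (s + 1) : ℝ) / NN s0 :=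
      Nat.cast_div (NN_dvd (by omega)) hNp.ne'
    have hlog : Real.log (KK s) = hh s * NN s := (hh_mul s).symm
    have hNs : (NN (s + 1) : ℝ) = mm s * NN s := by rw [NN_succ]; push_cast; ring
    calc (NN s0 : ℝ) * II τ ν f w φ q s0 (s + 1)
        ≤ NN s0 * (II τ ν f w φ q s0 s +
      ((4 * Real.log (NN (s + 1)) + 4) + 3 * ((NN (s + 1) / NN s0 : ℕ) : ℝ)
        - 9 / 10 * Real.log (KK s)) * (1 / (NN (s + 1) : ℝ))) :=
          mul_le_mul_of_nonneg_left h1 hNp.le
      _ = NN s0 * II τ ν f w φ q s0 s + (4 * Real.log (NN (s + 1)) + 4) /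
          ((NN (s + 1) : ℝ) / NN s0) + 3 - 9 / 10 * (Real.log (KK s) / NN (s + 1)) * NN s0 := by
          rw [hM]
          field_simp
          ring
      _ = _ := by
          rw [hlog, hNs]
          field_simp
          ring

end Crest.Agent.R133.Pot
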