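import Crest.Agent.R133.CombDefs
import Crest.Agent.R133.L2b
import Mathlib
import Crest.Agent.R133.SMDefs
import Crest.Agent.R133.Phi
import Crest.Agent.R133.Par
import Crest.Agent.R133.Skel
import Crest.Agent.R133.Cnt

-- ▼ part R133/ExcCore
section

/-! # Row 133 (S0182): section 11, EXC-core

The pigeonhole over words: given a representative `(g, νg)` matching `(f, ν)` on good points,
property `(P2')` of the law of the `Q`-name of `g` bounds the measure of the exceptional set. -/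

set_option autoImplicit false

open MeasureTheory Finset

namespace Crest.Agent.R133.Exc


/-- positions of the letters of the word `u` whose name is `ρ N_{s0}`-close to `z` -/
def gm (τ : Tau) (s0 s : ℕ) (z : ℕ → Bool) (u : W s) : Set ℕ :=
  {j | (ham (NN s0) (sh (j * NN s0) (nm τ s u)) (sh (j * NN s0) z) : ℝ) ≤ rho * NN s0}

/-- law of the name of length `N` -/
noncomputable def law {Ω : Type*} [MeasurableSpace Ω] (N : ℕ) (ν : Measure Ω) (g : Ω → Ω)
    (q : Ω → Bool) : (Fin N → Bool) → ℝ :=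
  fun z => (ν {y | ∀ i : Fin N, q (g^[(i : ℕ)] y) = z i}).toReal

theorem nn_pos (s : ℕ) : 0 < nn s := by unfold nn; positivity
theorem mm_pos (s : ℕ) : 0 < mm s := by unfold mm; exact pow_pos (nn_pos s) 2
theorem NN_pos : ∀ s, 0 < NN s
  | 0 => Nat.one_pos
  | s + 1 => Nat.mul_pos (mm_pos s) (NN_pos s)










section law
variable {Ω : Type*} [MeasurableSpace Ω] {N : ℕ} (ν : Measure Ω) {g : Ω → Ω} {q : Ω → Bool}

theorem meas_cyl (hg : Measurable g) (hq : Measurable q) (z : Fin N → Bool) :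
    MeasurableSet {y | ∀ i : Fin N, q (g^[(i : ℕ)] y) = z i} := by
  have : {y | ∀ i : Fin N, q (g^[(i : ℕ)] y) = z i}
      = ⋂ i : Fin N, {y | q (g^[(i : ℕ)] y) = z i} := by
    ext y; simp
  rw [this]
  apply MeasurableSet.iInter
  intro i
  exact (hq.comp (hg.iterate i)) (measurableSet_singleton (z i))

theorem law_nonneg (z : Fin N → Bool) : 0 ≤ law N ν g q z := ENNReal.toReal_nonneg

theorem law_sum_eq [IsProbabilityMeasure ν] (hg : Measurable g) (hq : Measurable q)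
    (S : Finset (Fin N → Bool)) :
    ν {y | (fun i : Fin N => q (g^[(i : ℕ)] y)) ∈ S} = ENNReal.ofReal (∑ z ∈ S, law N ν g q z) := by
  have h1 : {y | (fun i : Fin N => q (g^[(i : ℕ)] y)) ∈ S}
      = ⋃ z ∈ S, {y | ∀ i : Fin N, q (g^[(i : ℕ)] y) = z i} := by
    ext y
    simp only [Set.mem_ofPred_eq, Set.mem_iUnion, exists_prop]
    constructor
    · intro h
      exact ⟨_, h, fun i => rfl⟩
    · rintro ⟨z, hz, h⟩
      have : (fun i : Fin N => q (g^[(i : ℕ)] y)) = z := funext h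
      rw [this]; exact hz
  rw [h1, measure_biUnion_finset]
  · rw [ENNReal.ofReal_sum_of_nonneg (fun z _ => law_nonneg ν z)]
    apply Finset.sum_congr rfl
    intro z _
    unfold law
    rw [ENNReal.ofReal_toReal (measure_ne_top ν _)]
  · intro z _ z' _ hne
    show Disjoint _ _
    rw [Set.disjoint_left]
    intro y hy hy'
    apply hne
    funext i
    rw [← hy i, ← hy' i]
  · intro z _
    exact meas_cyl hg hq z

theorem law_isLaw [IsProbabilityMeasure ν] (hg : Measurable g) (hq : Measurable q) :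
    IsLaw (law N ν g q) := by
  refine ⟨fun z => law_nonneg ν z, ?_⟩
  have h := law_sum_eq (N := N) ν hg hq Finset.univ
  simp only [Finset.mem_univ, Set.ofPred_true, measure_univ] at h
  have h2 : ENNReal.ofReal (∑ z, law N ν g q z) = ENNReal.ofReal 1 := by
    rw [← h, ENNReal.ofReal_one]
  have h3 := (ENNReal.ofReal_eq_ofReal_iff (Finset.sum_nonneg fun z _ => law_nonneg ν z)
    zero_le_one).1 h2
  exact h3.le

end law

variable {Ω Ω' : Type*} [MeasurableSpace Ω] [MeasurableSpace Ω']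


end Crest.Agent.R133.Exc
end

-- ▼ part R133/L2
section

/-! Row 133, section 8 of note 12068: the nonlinear lemma
`Leb B_f(r/4) ≤ 4 * 8^d * Leb B_g(r/8)`. -/

set_option autoImplicit false
open Finset Metric Set MeasureTheory Module
open scoped ENNReal NNReal Pointwise
set_option linter.unusedSectionVars false

namespace Crest.Agent.R133.L2

open Crest.Agent.R133

variable {E : Type*} [NormedAddCommGroup E] [NormedSpace ℝ E]

/-- the nonlinear remainder -/
def qq (g : E → E) (x : ℕ → E) (A : ℕ → E →L[ℝ] E) (i : ℕ) (w : E) : E :=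
  g (x i + w) - x (i + 1) - A i w

/-- the coordinate map `β`. -/
noncomputable def bet (g : E → E) (x : ℕ → E) (A : ℕ → E →L[ℝ] E) (S : E →L[ℝ] E) (n : ℕ) (y : E) : E :=
  (y - x 0) + S ((g^[n] y - x n) - Phi A 0 n (y - x 0))

theorem qq_lip {g : E → E} {g' : E → E →L[ℝ] E} {x : ℕ → E} {A : ℕ → E →L[ℝ] E} {n : ℕ} {r η : ℝ}
    (hg' : ∀ i < n, ∀ z ∈ closedBall (x i) r, HasFDerivAt g (g' z) z ∧ ‖g' z - A i‖ ≤ η)
    {i : ℕ} (hi : i < n) {w w' : E} (hw : ‖w‖ ≤ r) (hw' : ‖w'‖ ≤ r) :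
    ‖qq g x A i w - qq g x A i w'‖ ≤ η * ‖w - w'‖ := by
  have hconv : Convex ℝ (closedBall (0 : E) r) := convex_closedBall 0 r
  have hd : ∀ z ∈ closedBall (0 : E) r,
      HasFDerivWithinAt (qq g x A i) (g' (x i + z) - A i) (closedBall (0 : E) r) z := by
    intro z hz
    have hz' : x i + z ∈ closedBall (x i) r := by
      rw [mem_closedBall_zero_iff] at hz
      simpa [mem_closedBall, dist_eq_norm] using hz
    have h1 : HasFDerivAt (fun w => g (x i + w)) (g' (x i + z)) z := by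
      have h2 : HasFDerivAt (fun w : E => x i + w) (ContinuousLinearMap.id ℝ E) z :=
        (hasFDerivAt_id z).const_add (x i)
      have h3 := (hg' i hi _ hz').1.comp z h2
      rw [ContinuousLinearMap.comp_id] at h3
      exact h3
    have h4 : HasFDerivAt (qq g x A i) (g' (x i + z) - A i) z :=
      (h1.sub_const (x (i + 1))).sub (A i).hasFDerivAt
    exact h4.hasFDerivWithinAt
  have hb : ∀ z ∈ closedBall (0 : E) r, ‖g' (x i + z) - A i‖ ≤ η := by
    intro z hz
    have hz' : x i + z ∈ closedBall (x i) r := by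
      rw [mem_closedBall_zero_iff] at hz
      simpa [mem_closedBall, dist_eq_norm] using hz
    exact (hg' i hi _ hz').2
  have hw1 : w ∈ closedBall (0 : E) r := by rwa [mem_closedBall_zero_iff]
  have hw1' : w' ∈ closedBall (0 : E) r := by rwa [mem_closedBall_zero_iff]
  exact hconv.norm_image_sub_le_of_norm_hasFDerivWithin_le hd hb hw1' hw1

theorem qq_zero (g : E → E) (x : ℕ → E) (A : ℕ → E →L[ℝ] E) (i : ℕ) :
    qq g x A i 0 = g (x i) - x (i + 1) := by
  simp [qq]

/-- an orbit of `g` gives a solution of the recursion. -/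
theorem orbit_rec (g : E → E) (x : ℕ → E) (A : ℕ → E →L[ℝ] E) (y : E) (i : ℕ) :
    g^[i + 1] y - x (i + 1) = A i (g^[i] y - x i) + qq g x A i (g^[i] y - x i) := by
  rw [Function.iterate_succ_apply']
  simp [qq]

/-- Green representation of an orbit. -/
theorem orbit_green (g : E → E) (x : ℕ → E) (A : ℕ → E →L[ℝ] E) (S : E →L[ℝ] E) (n : ℕ) (y : E)
    {i : ℕ} (hi : i ≤ n) :
    g^[i] y - x i = Phi A 0 i (bet g x A S n y) +
      ∑ j ∈ range n, Gf A S n i (j + 1) (qq g x A j (g^[j] y - x j)) :=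
  sol_formula S (w := fun i => g^[i] y - x i) (e := fun j => qq g x A j (g^[j] y - x j))
    (fun i _ => orbit_rec g x A y i) hi

theorem sum_bound {A : ℕ → E →L[ℝ] E} {S : E →L[ℝ] E} {n : ℕ} {G c : ℝ} (hG : 0 ≤ G)
    (hGf : ∀ i j, i ≤ n → j ≤ n → ‖Gf A S n i j‖ ≤ G) {e : ℕ → E}
    (he : ∀ j < n, ‖e j‖ ≤ c) {i : ℕ} (hi : i ≤ n) :
    ‖∑ j ∈ range n, Gf A S n i (j + 1) (e j)‖ ≤ n * G * c := by
  have h1 : ‖∑ j ∈ range n, Gf A S n i (j + 1) (e j)‖ ≤ ∑ _j ∈ range n, G * c := by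
    refine (norm_sum_le _ _).trans (Finset.sum_le_sum fun j hj => ?_)
    rw [Finset.mem_range] at hj
    refine (ContinuousLinearMap.le_opNorm _ _).trans ?_
    have := hGf i (j + 1) hi (by omega)
    have h2 := he j hj
    have h3 : 0 ≤ c := (norm_nonneg _).trans h2
    gcongr
  rw [Finset.sum_const, card_range, nsmul_eq_mul] at h1
  linarith [h1, mul_assoc (n : ℝ) G c]

section
variable {n : ℕ} {r η ε G : ℝ} {x : ℕ → E} {A : ℕ → E →L[ℝ] E} {S : E →L[ℝ] E}

/-- (a) injectivity -/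
theorem bet_injOn (hr : 0 < r) (hη : 0 ≤ η) (hG : 0 ≤ G)
    (hGf : ∀ i j, i ≤ n → j ≤ n → ‖Gf A S n i j‖ ≤ G)
    {f : E → E} {f' : E → E →L[ℝ] E}
    (hf' : ∀ i < n, ∀ z ∈ closedBall (x i) r, HasFDerivAt f (f' z) z ∧ ‖f' z - A i‖ ≤ η)
    (h1 : n * G * η ≤ 1 / 8) :
    InjOn (bet f x A S n) {y | ∀ i ≤ n, ‖f^[i] y - x i‖ ≤ r / 4} := by
  intro y hy y' hy' hyy
  simp only [mem_setOf_eq] at hy hy'
  obtain ⟨i0, hi0, hmax⟩ := Finset.exists_max_image (range (n + 1))
    (fun i => ‖(f^[i] y - x i) - (f^[i] y' - x i)‖) ⟨0, by simp⟩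
  rw [Finset.mem_range] at hi0
  have hmax' : ∀ i ≤ n, ‖(f^[i] y - x i) - (f^[i] y' - x i)‖ ≤
      ‖(f^[i0] y - x i0) - (f^[i0] y' - x i0)‖ := fun i hi => hmax i (Finset.mem_range.2 (by omega))
  set m := ‖(f^[i0] y - x i0) - (f^[i0] y' - x i0)‖ with hm
  have hi0' : i0 ≤ n := by omega
  have hdiff : (f^[i0] y - x i0) - (f^[i0] y' - x i0) = ∑ j ∈ range n, Gf A S n i0 (j + 1)
      (qq f x A j (f^[j] y - x j) - qq f x A j (f^[j] y' - x j)) := by
    have e1 := orbit_green f x A S n y hi0'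
    have e2 := orbit_green f x A S n y' hi0'
    rw [← hyy] at e2
    rw [e1, e2, add_sub_add_left_eq_sub, ← Finset.sum_sub_distrib]
    simp only [map_sub]
  have hle : m ≤ n * G * (η * m) := by
    rw [hm, hdiff]
    apply sum_bound hG hGf _ hi0'
    intro j hj
    refine (qq_lip hf' hj ((hy j hj.le).trans (by linarith)) ((hy' j hj.le).trans (by linarith))).trans ?_
    rw [← hdiff]
    gcongr
    exact hmax' j hj.le
  have hm0 : 0 ≤ m := norm_nonneg _
  have hmz : m = 0 := by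
    have : n * G * (η * m) ≤ 1 / 8 * m := by
      have := mul_le_mul_of_nonneg_right h1 hm0
      linarith
    linarith
  have h0 := hmax' 0 (Nat.zero_le n)
  rw [hmz] at h0
  have h00 := norm_le_zero_iff.1 h0
  simp only [Function.iterate_zero, id_eq] at h00
  have : y - y' = 0 := by rw [← h00]; abel
  exact sub_eq_zero.1 this

/-- (a) image in `K_{r/2}` -/
theorem bet_mem_K (hr : 0 < r) (hη : 0 ≤ η) (hG : 0 ≤ G)
    (hGf : ∀ i j, i ≤ n → j ≤ n → ‖Gf A S n i j‖ ≤ G)
    {f : E → E} {f' : E → E →L[ℝ] E}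
    (hf' : ∀ i < n, ∀ z ∈ closedBall (x i) r, HasFDerivAt f (f' z) z ∧ ‖f' z - A i‖ ≤ η)
    (hx : ∀ i < n, f (x i) = x (i + 1))
    (h1 : n * G * η ≤ 1 / 8) {y : E} (hy : ∀ i ≤ n, ‖f^[i] y - x i‖ ≤ r / 4) :
    ∀ i ≤ n, ‖Phi A 0 i (bet f x A S n y)‖ ≤ r / 2 := by
  intro i hi
  have e1 := orbit_green f x A S n y hi
  have e2 : Phi A 0 i (bet f x A S n y) = (f^[i] y - x i) -
      ∑ j ∈ range n, Gf A S n i (j + 1) (qq f x A j (f^[j] y - x j)) := by
    rw [e1]; abel
  rw [e2]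
  refine (norm_sub_le _ _).trans ?_
  have h3 : ‖∑ j ∈ range n, Gf A S n i (j + 1) (qq f x A j (f^[j] y - x j))‖ ≤
      n * G * (η * (r / 4)) := by
    apply sum_bound hG hGf _ hi
    intro j hj
    have h4 := qq_lip hf' hj (w := f^[j] y - x j) (w' := 0) ((hy j hj.le).trans (by linarith))
      (by simpa using hr.le)
    rw [qq_zero, hx j hj, sub_self, sub_zero, sub_zero] at h4
    refine h4.trans ?_
    gcongr
    exact hy j hj.le
  have h5 : n * G * (η * (r / 4)) ≤ 1 / 8 * (r / 4) := by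
    have := mul_le_mul_of_nonneg_right h1 (show 0 ≤ r / 4 by linarith)
    linarith
  have := hy i hi
  linarith

/-- (b) surjectivity onto `K_{r/16}` -/
theorem K_subset_image [CompleteSpace E] (hr : 0 < r) (hη : 0 ≤ η) (hG : 0 ≤ G)
    (hGf : ∀ i j, i ≤ n → j ≤ n → ‖Gf A S n i j‖ ≤ G)
    {g : E → E} {g' : E → E →L[ℝ] E}
    (hg' : ∀ i < n, ∀ z ∈ closedBall (x i) r, HasFDerivAt g (g' z) z ∧ ‖g' z - A i‖ ≤ η)
    (hgx : ∀ i < n, ‖g (x i) - x (i + 1)‖ ≤ ε)
    (h1 : n * G * η ≤ 1 / 8) (h2 : n * G * ε ≤ r / 64) {b : E}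
    (hb : ∀ i ≤ n, ‖Phi A 0 i b‖ ≤ r / 16) :
    b ∈ bet g x A S n '' {y | ∀ i ≤ n, ‖g^[i] y - x i‖ ≤ r / 8} := by
  classical
  -- the fixed point problem on `Fin (n+1) → E`
  let ext : (Fin (n + 1) → E) → ℕ → E := fun w j => if h : j < n + 1 then w ⟨j, h⟩ else 0
  let F : (Fin (n + 1) → E) → (Fin (n + 1) → E) := fun w i =>
    Phi A 0 i b + ∑ j ∈ range n, Gf A S n i (j + 1) (qq g x A j (ext w j))
  have hext : ∀ w : Fin (n + 1) → E, ∀ j, ‖ext w j‖ ≤ ‖w‖ := by
    intro w j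
    simp only [ext]
    split_ifs with h
    · exact norm_le_pi_norm w ⟨j, h⟩
    · simp
  have hext2 : ∀ w w' : Fin (n + 1) → E, ∀ j, ‖ext w j - ext w' j‖ ≤ ‖w - w'‖ := by
    intro w w' j
    simp only [ext]
    split_ifs with h
    · exact norm_le_pi_norm (w - w') ⟨j, h⟩
    · simp
  let s : Set (Fin (n + 1) → E) := closedBall 0 (r / 8)
  have hmaps : MapsTo F s s := by
    intro w hw
    simp only [s, mem_closedBall_zero_iff] at hw ⊢
    rw [pi_norm_le_iff_of_nonneg (by linarith)]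
    intro i
    have hi : (i : ℕ) ≤ n := by omega
    have h3 : ‖∑ j ∈ range n, Gf A S n i (j + 1) (qq g x A j (ext w j))‖ ≤
        n * G * (ε + η * (r / 8)) := by
      apply sum_bound hG hGf _ hi
      intro j hj
      have h4 := qq_lip hg' hj (w := ext w j) (w' := 0)
        ((hext w j).trans (by linarith)) (by simpa using hr.le)
      rw [qq_zero, sub_zero] at h4
      have h5 := hgx j hj
      have h6 : ‖qq g x A j (ext w j)‖ ≤ ‖g (x j) - x (j + 1)‖ +
          ‖qq g x A j (ext w j) - (g (x j) - x (j + 1))‖ := by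
        have := norm_add_le (g (x j) - x (j + 1)) (qq g x A j (ext w j) - (g (x j) - x (j + 1)))
        simpa using this
      have h7 : η * ‖ext w j‖ ≤ η * (r / 8) := by
        gcongr
        exact (hext w j).trans hw
      linarith
    have h8 : n * G * (ε + η * (r / 8)) = n * G * ε + (n * G * η) * (r / 8) := by ring
    have h9 : (n * G * η) * (r / 8) ≤ 1 / 8 * (r / 8) := by gcongr
    calc ‖F w i‖ ≤ ‖Phi A 0 i b‖ + ‖∑ j ∈ range n, Gf A S n i (j + 1) (qq g x A j (ext w j))‖ :=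
          norm_add_le _ _
      _ ≤ r / 16 + n * G * (ε + η * (r / 8)) := add_le_add (hb i hi) h3
      _ ≤ r / 8 := by rw [h8]; linarith
  have hcontr : ContractingWith (1 / 8 : ℝ≥0) (hmaps.restrict F s s) := by
    refine ⟨by
      rw [← NNReal.coe_lt_coe]; norm_num, ?_⟩
    apply LipschitzWith.of_dist_le_mul
    rintro ⟨w, hw⟩ ⟨w', hw'⟩
    simp only [s, mem_closedBall_zero_iff] at hw hw'
    rw [Subtype.dist_eq, Subtype.dist_eq, dist_eq_norm, dist_eq_norm]
    simp only [MapsTo.val_restrict_apply]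
    have hnn : 0 ≤ ((1 / 8 : ℝ≥0) : ℝ) * ‖w - w'‖ := by positivity
    rw [pi_norm_le_iff_of_nonneg hnn]
    intro i
    have hi : (i : ℕ) ≤ n := by omega
    have h3 : (F w - F w') i = ∑ j ∈ range n, Gf A S n i (j + 1)
        (qq g x A j (ext w j) - qq g x A j (ext w' j)) := by
      simp only [F, Pi.sub_apply, map_sub, Finset.sum_sub_distrib]
      abel
    rw [h3]
    have h4 : ‖∑ j ∈ range n, Gf A S n i (j + 1)
        (qq g x A j (ext w j) - qq g x A j (ext w' j))‖ ≤ n * G * (η * ‖w - w'‖) := by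
      apply sum_bound hG hGf _ hi
      intro j hj
      refine (qq_lip hg' hj ((hext w j).trans (by linarith)) ((hext w' j).trans (by linarith))).trans ?_
      gcongr
      exact hext2 w w' j
    refine h4.trans ?_
    have h5 := mul_le_mul_of_nonneg_right h1 (norm_nonneg (w - w'))
    have h6 : ((1 / 8 : ℝ≥0) : ℝ) = 1 / 8 := by norm_num
    rw [h6]
    linarith
  have hcomplete : IsComplete s := isClosed_closedBall.isComplete
  obtain ⟨w, hws, hwF, -⟩ := ContractingWith.exists_fixedPoint' hcomplete hmaps hcontr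
    (x := 0) (by simp only [s, mem_closedBall_zero_iff, norm_zero]; linarith) (edist_ne_top _ _)
  have hwF' : F w = w := hwF
  simp only [s, mem_closedBall_zero_iff] at hws
  have hwv : ∀ i ≤ n, ext w i = Phi A 0 i b +
      ∑ j ∈ range n, Gf A S n i (j + 1) (qq g x A j (ext w j)) := by
    intro i hi
    have h3 : ext w i = w ⟨i, by omega⟩ := by simp only [ext]; rw [dif_pos (by omega)]
    rw [h3]
    conv_lhs => rw [← hwF']
  have hrec : ∀ i < n, ext w (i + 1) = A i (ext w i) + qq g x A i (ext w i) := by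
    intro i hi
    rw [hwv (i + 1) (by omega), green_step A S b (fun j => qq g x A j (ext w j)) hi,
      ← hwv i hi.le]
  have horb : ∀ i ≤ n, g^[i] (x 0 + ext w 0) = x i + ext w i := by
    intro i
    induction i with
    | zero => intro _; rfl
    | succ i ih =>
      intro hi
      rw [Function.iterate_succ_apply', ih (by omega), hrec i (by omega)]
      simp only [qq]
      abel
  refine ⟨x 0 + ext w 0, ?_, ?_⟩
  · intro i hi
    rw [horb i hi, add_sub_cancel_left]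
    exact (hext w i).trans hws
  · unfold bet
    rw [horb n le_rfl, add_sub_cancel_left, add_sub_cancel_left]
    have h3 := green_bdry A S b (fun j => qq g x A j (ext w j)) n
    rw [← hwv 0 (Nat.zero_le n), ← hwv n le_rfl] at h3
    exact h3

end

section measure
variable [FiniteDimensional ℝ E] [MeasurableSpace E] [BorelSpace E]

/-- derivative of the iterates along the window. -/
theorem iterate_hasFDerivAt {f : E → E} {f' : E → E →L[ℝ] E} {n : ℕ} {y : E}
    (h : ∀ i < n, HasFDerivAt f (f' (f^[i] y)) (f^[i] y)) {i : ℕ} (hi : i ≤ n) :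
    HasFDerivAt (f^[i]) (Phi (fun j => f' (f^[j] y)) 0 i) y := by
  induction i with
  | zero => simpa using hasFDerivAt_id y
  | succ i ih =>
    rw [Function.iterate_succ', Phi_succ _ (Nat.zero_le i)]
    exact (h i (by omega)).comp y (ih (by omega))

theorem bet_hasFDerivAt {f : E → E} {f' : E → E →L[ℝ] E} {n : ℕ} {y : E} (x : ℕ → E)
    (A : ℕ → E →L[ℝ] E) (S : E →L[ℝ] E)
    (h : ∀ i < n, HasFDerivAt f (f' (f^[i] y)) (f^[i] y)) :
    HasFDerivAt (bet f x A S n) (ContinuousLinearMap.id ℝ E +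
      S.comp (Phi (fun j => f' (f^[j] y)) 0 n - Phi A 0 n)) y := by
  have h1 := iterate_hasFDerivAt h (le_refl n)
  have h2 : HasFDerivAt (fun y => y - x 0) (ContinuousLinearMap.id ℝ E) y :=
    (hasFDerivAt_id y).sub_const (x 0)
  have h3 : HasFDerivAt (fun y => (f^[n] y - x n) - Phi A 0 n (y - x 0))
      (Phi (fun j => f' (f^[j] y)) 0 n - (Phi A 0 n).comp (ContinuousLinearMap.id ℝ E)) y :=
    (h1.sub_const (x n)).sub ((Phi A 0 n).hasFDerivAt.comp y h2)
  rw [ContinuousLinearMap.comp_id] at h3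
  exact h2.add (S.hasFDerivAt.comp y h3)

theorem measurableSet_tube {f : E → E} (hf : Measurable f) (x : ℕ → E) (n : ℕ) (ρ : ℝ) :
    MeasurableSet {y | ∀ i ≤ n, ‖f^[i] y - x i‖ ≤ ρ} := by
  have : {y | ∀ i ≤ n, ‖f^[i] y - x i‖ ≤ ρ} = ⋂ i, ⋂ (_ : i ≤ n), {y | ‖f^[i] y - x i‖ ≤ ρ} := by
    ext y; simp
  rw [this]
  refine MeasurableSet.iInter fun i => MeasurableSet.iInter fun _ => ?_
  exact measurableSet_le ((hf.iterate i).sub_const (x i)).norm measurable_const

/-- **NONLINEAR LEMMA L2** (section 8 of note 12068). -/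
theorem nonlinear (μ : Measure E) [μ.IsAddHaarMeasure] {n : ℕ} {r η ε G : ℝ} (hr : 0 < r)
    (hη : 0 ≤ η) (hG : 0 ≤ G) (x : ℕ → E) (A : ℕ → E →L[ℝ] E) (S : E →L[ℝ] E)
    (hG1 : ∀ i j, i < j → j ≤ n → ‖(Phi A 0 i).comp (S.comp (Phi A j n))‖ ≤ G)
    (hG2 : ∀ i j, j ≤ i → i ≤ n → ‖Phi A j i - (Phi A 0 i).comp (S.comp (Phi A j n))‖ ≤ G)
    (f g : E → E) (f' g' : E → E →L[ℝ] E) (hf : Measurable f) (hg : Measurable g)
    (hf' : ∀ i < n, ∀ z ∈ closedBall (x i) r, HasFDerivAt f (f' z) z ∧ ‖f' z - A i‖ ≤ η)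
    (hg' : ∀ i < n, ∀ z ∈ closedBall (x i) r, HasFDerivAt g (g' z) z ∧ ‖g' z - A i‖ ≤ η)
    (hx : ∀ i < n, f (x i) = x (i + 1)) (hgx : ∀ i < n, ‖g (x i) - x (i + 1)‖ ≤ ε)
    (h1 : n * G * η ≤ 1 / (8 * (finrank ℝ E + 1))) (h2 : n * G * ε ≤ r / 64) :
    μ {y | ∀ i ≤ n, ‖f^[i] y - x i‖ ≤ r / 4} ≤
      4 * 8 ^ finrank ℝ E * μ {y | ∀ i ≤ n, ‖g^[i] y - x i‖ ≤ r / 8} := by
  have hGf : ∀ i j, i ≤ n → j ≤ n → ‖Gf A S n i j‖ ≤ G := fun i j hi hj => norm_Gf_le hG1 hG2 hi hj
  have hd : (0 : ℝ) ≤ (finrank ℝ E : ℝ) := by positivity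
  have h8 : n * G * η ≤ 1 / 8 := by
    refine h1.trans ?_
    apply one_div_le_one_div_of_le <;> linarith
  set Bf := {y | ∀ i ≤ n, ‖f^[i] y - x i‖ ≤ r / 4} with hBf
  set Bg := {y | ∀ i ≤ n, ‖g^[i] y - x i‖ ≤ r / 8} with hBg
  let K : ℝ → Set E := fun ρ => {b | ∀ i ≤ n, ‖Phi A 0 i b‖ ≤ ρ}
  have hdet : ∀ (h : E → E) (h' : E → E →L[ℝ] E)
      (_ : ∀ i < n, ∀ z ∈ closedBall (x i) r, HasFDerivAt h (h' z) z ∧ ‖h' z - A i‖ ≤ η)
      (y : E) (_ : ∀ i ≤ n, ‖h^[i] y - x i‖ ≤ r),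
      HasFDerivAt (bet h x A S n) (ContinuousLinearMap.id ℝ E +
        S.comp (Phi (fun j => h' (h^[j] y)) 0 n - Phi A 0 n)) y ∧
      1 / 2 ≤ |(ContinuousLinearMap.id ℝ E +
        S.comp (Phi (fun j => h' (h^[j] y)) 0 n - Phi A 0 n)).det| ∧
      |(ContinuousLinearMap.id ℝ E +
        S.comp (Phi (fun j => h' (h^[j] y)) 0 n - Phi A 0 n)).det| ≤ 2 := by
    intro h h' hh y hy
    have hmem : ∀ i < n, h^[i] y ∈ closedBall (x i) r := by
      intro i hi
      rw [mem_closedBall, dist_eq_norm]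
      exact hy i hi.le
    refine ⟨bet_hasFDerivAt x A S fun i hi => (hh i hi _ (hmem i hi)).1, ?_⟩
    exact abs_det_bounds hη hG hGf h1 fun i hi => (hh i hi _ (hmem i hi)).2
  -- f side
  have hfside : ENNReal.ofReal (1 / 2) * μ Bf ≤ μ (K (r / 2)) := by
    have himg : bet f x A S n '' Bf ⊆ K (r / 2) := by
      rintro _ ⟨y, hy, rfl⟩
      exact bet_mem_K hr hη hG hGf hf' hx h8 hy
    have hcv := lintegral_abs_det_fderiv_eq_addHaar_image μ (measurableSet_tube hf x n (r / 4))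
      (f := bet f x A S n) (f' := fun y => ContinuousLinearMap.id ℝ E +
        S.comp (Phi (fun j => f' (f^[j] y)) 0 n - Phi A 0 n))
      (fun y hy => (hdet f f' hf' y fun i hi => (hy i hi).trans (by linarith)).1.hasFDerivWithinAt)
      (bet_injOn hr hη hG hGf hf' h8)
    calc ENNReal.ofReal (1 / 2) * μ Bf = ∫⁻ _y in Bf, ENNReal.ofReal (1 / 2) ∂μ := by
          rw [setLIntegral_const]
      _ ≤ ∫⁻ y in Bf, ENNReal.ofReal |(ContinuousLinearMap.id ℝ E +
            S.comp (Phi (fun j => f' (f^[j] y)) 0 n - Phi A 0 n)).det| ∂μ := by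
          apply setLIntegral_mono' (measurableSet_tube hf x n (r / 4))
          intro y hy
          exact ENNReal.ofReal_le_ofReal
            (hdet f f' hf' y fun i hi => (hy i hi).trans (by linarith)).2.1
      _ = μ (bet f x A S n '' Bf) := hcv
      _ ≤ μ (K (r / 2)) := measure_mono himg
  -- g side
  have hgside : μ (K (r / 16)) ≤ ENNReal.ofReal 2 * μ Bg := by
    have himg : K (r / 16) ⊆ bet g x A S n '' Bg := by
      intro b hb
      exact K_subset_image hr hη hG hGf hg' hgx h8 h2 hb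
    have hcv := addHaar_image_le_lintegral_abs_det_fderiv μ (measurableSet_tube hg x n (r / 8))
      (f := bet g x A S n) (f' := fun y => ContinuousLinearMap.id ℝ E +
        S.comp (Phi (fun j => g' (g^[j] y)) 0 n - Phi A 0 n))
      (fun y hy => (hdet g g' hg' y fun i hi => (hy i hi).trans (by linarith)).1.hasFDerivWithinAt)
    calc μ (K (r / 16)) ≤ μ (bet g x A S n '' Bg) := measure_mono himg
      _ ≤ ∫⁻ y in Bg, ENNReal.ofReal |(ContinuousLinearMap.id ℝ E +
            S.comp (Phi (fun j => g' (g^[j] y)) 0 n - Phi A 0 n)).det| ∂μ := hcv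
      _ ≤ ∫⁻ _y in Bg, ENNReal.ofReal 2 ∂μ := by
          apply setLIntegral_mono' (measurableSet_tube hg x n (r / 8))
          intro y hy
          exact ENNReal.ofReal_le_ofReal
            (hdet g g' hg' y fun i hi => (hy i hi).trans (by linarith)).2.2
      _ = ENNReal.ofReal 2 * μ Bg := by rw [setLIntegral_const]
  -- scaling
  have hscale : μ (K (r / 2)) = 8 ^ finrank ℝ E * μ (K (r / 16)) := by
    have hK : K (r / 2) = (8 : ℝ) • K (r / 16) := by
      ext b
      rw [Set.mem_smul_set_iff_inv_smul_mem₀ (by norm_num : (8 : ℝ) ≠ 0)]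
      simp only [K, mem_setOf_eq, map_smul, norm_smul]
      refine forall₂_congr fun i _ => ?_
      rw [norm_inv, Real.norm_of_nonneg (by norm_num : (0 : ℝ) ≤ 8)]
      constructor <;> intro h <;> linarith
    rw [hK, Measure.addHaar_smul, abs_of_nonneg (by positivity),
      ENNReal.ofReal_pow (by norm_num)]
    norm_num
  have h2eq : ENNReal.ofReal (1 / 2) = 2⁻¹ := by
    rw [one_div, ENNReal.ofReal_inv_of_pos (by norm_num)]; norm_num
  have h2eq' : ENNReal.ofReal 2 = 2 := by norm_num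
  rw [h2eq] at hfside
  rw [h2eq'] at hgside
  calc μ Bf = 2 * (2⁻¹ * μ Bf) := by
        rw [← mul_assoc, ENNReal.mul_inv_cancel (by norm_num) (by norm_num), one_mul]
    _ ≤ 2 * μ (K (r / 2)) := by gcongr
    _ = 2 * (8 ^ finrank ℝ E * μ (K (r / 16))) := by rw [hscale]
    _ ≤ 2 * (8 ^ finrank ℝ E * (2 * μ Bg)) := by gcongr
    _ = 4 * 8 ^ finrank ℝ E * μ Bg := by
        rw [← mul_assoc, ← mul_assoc]
        congr 1
        rw [mul_right_comm]
        norm_num

end measure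

end Crest.Agent.R133.L2
end

-- ▼ part R133/KLCover
section

/-!
Row 133, section 10 (KL matching): the covering step.
Abstract form: a maximal `r/4`-separated subset for the Bowen metric
`max_{i ≤ N} ‖f^i x - f^i x'‖` gives a countable cover by `f`-Bowen balls of radius `r/4`
while the `g`-Bowen balls of radius `r/8` around the same pseudo orbits are disjoint.
-/

set_option autoImplicit false

open MeasureTheory Set Function
open scoped ENNReal

namespace Crest.Agent.R133.KL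

variable {E : Type*} [NormedAddCommGroup E] [MeasurableSpace E] [BorelSpace E]

/-- the set of points whose `g`-orbit stays `ρ`-close to the sequence `x` on `[0,N]`. -/
def BB (g : E → E) (N : ℕ) (x : ℕ → E) (ρ : ℝ) : Set E := {y | ∀ i ≤ N, ‖g^[i] y - x i‖ ≤ ρ}

lemma measurableSet_BB {g : E → E} (hg : Measurable g) (N : ℕ) (x : ℕ → E) (ρ : ℝ) :
    MeasurableSet (BB g N x ρ) := by
  have : BB g N x ρ = ⋂ i ∈ Set.Iic N, {y | ‖g^[i] y - x i‖ ≤ ρ} := by
    ext y; simp [BB]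
  rw [this]
  refine MeasurableSet.biInter (Set.to_countable _) fun i _ => ?_
  exact measurableSet_le ((hg.iterate i).sub_const _).norm measurable_const

theorem cover [SecondCountableTopology E] {f g : E → E} (hg : Measurable g) (N : ℕ)
    (νf νg : Measure E) (C : ℝ≥0∞) {r : ℝ} (hr : 0 < r) (G' : Set E)
    (hloc : ∀ x ∈ G', νf (BB f N (fun i => f^[i] x) (r / 4)) ≤
      C * νg (BB g N (fun i => f^[i] x) (r / 8))) :
    νf G' ≤ C * νg (⋃ x ∈ G', BB g N (fun i => f^[i] x) (r / 8)) := by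
  classical
  -- the orbit map
  set Φ : E → (Fin (N + 1) → E) := fun x i => f^[(i : ℕ)] x with hΦ
  -- separated subsets
  set 𝒮 : Set (Set E) := {A | A ⊆ G' ∧ A.Pairwise fun a b => ∃ i ≤ N, r / 4 < ‖f^[i] a - f^[i] b‖} with h𝒮
  obtain ⟨A, hA⟩ : ∃ A, Maximal (· ∈ 𝒮) A := by
    refine zorn_subset 𝒮 ?_
    intro c hc hchain
    refine ⟨⋃₀ c, ⟨Set.sUnion_subset fun s hs => (hc hs).1, ?_⟩, fun s hs => Set.subset_sUnion_of_mem hs⟩
    intro a ha b hb hab
    obtain ⟨s, hs, has⟩ := ha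
    obtain ⟨t, ht, hbt⟩ := hb
    rcases hchain.total hs ht with h | h
    · exact (hc ht).2 (h has) hbt hab
    · exact (hc hs).2 has (h hbt) hab
  have hAG : A ⊆ G' := hA.prop.1
  have hsep := hA.prop.2
  -- covering
  have hcov : G' ⊆ ⋃ a ∈ A, BB f N (fun i => f^[i] a) (r / 4) := by
    intro x hx
    by_cases hxA : x ∈ A
    · simp only [Set.mem_iUnion]
      refine ⟨x, hxA, fun i _ => ?_⟩
      simp; positivity
    · by_contra hcon
      simp only [Set.mem_iUnion, not_exists, BB, Set.mem_ofPred_eq, not_forall, not_le] at hcon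
      have hmem : insert x A ∈ 𝒮 := by
        refine ⟨Set.insert_subset hx hAG, ?_⟩
        intro a ha b hb hab
        rcases Set.mem_insert_iff.1 ha with ha1 | ha1
        · rcases Set.mem_insert_iff.1 hb with hb1 | hb1
          · exact absurd (ha1.trans hb1.symm) hab
          · obtain ⟨i, hi, h⟩ := hcon b hb1
            exact ⟨i, hi, by rw [ha1]; exact h⟩
        · rcases Set.mem_insert_iff.1 hb with hb1 | hb1
          · obtain ⟨i, hi, h⟩ := hcon a ha1
            exact ⟨i, hi, by rw [hb1, norm_sub_rev]; exact h⟩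
          · exact hsep ha1 hb1 hab
      have := hA.eq_of_subset hmem (Set.subset_insert x A)
      exact hxA (this ▸ Set.mem_insert x A)
  -- countability
  have hcount : A.Countable := by
    have hinj : Set.InjOn Φ A := by
      intro a ha b hb hab
      by_contra hne
      obtain ⟨i, hi, h⟩ := hsep ha hb hne
      have := congrFun hab ⟨i, by omega⟩
      simp only [hΦ] at this
      rw [this] at h
      simp at h
      linarith
    have hdisj : (Φ '' A).PairwiseDisjoint (fun z => Metric.ball z (r / 8)) := by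
      rintro _ ⟨a, ha, rfl⟩ _ ⟨b, hb, rfl⟩ hab
      have hne : a ≠ b := fun h => hab (by rw [h])
      obtain ⟨i, hi, h⟩ := hsep ha hb hne
      refine Metric.ball_disjoint_ball ?_
      have h1 : ‖f^[i] a - f^[i] b‖ ≤ dist (Φ a) (Φ b) := by
        rw [← dist_eq_norm]
        exact dist_le_pi_dist (Φ a) (Φ b) ⟨i, by omega⟩
      linarith
    have h2 : (Φ '' A).Countable := by
      refine hdisj.countable_of_isOpen (fun z _ => Metric.isOpen_ball) ?_
      rintro z _
      exact Metric.nonempty_ball.2 (by positivity)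
    exact Set.countable_of_injective_of_countable_image hinj h2
  -- disjointness
  have hdis : A.PairwiseDisjoint (fun a => BB g N (fun i => f^[i] a) (r / 8)) := by
    intro a ha b hb hab
    obtain ⟨i, hi, h⟩ := hsep ha hb hab
    refine Set.disjoint_left.2 fun y hya hyb => ?_
    have h1 := hya i hi
    have h2 := hyb i hi
    have h3 : ‖f^[i] a - f^[i] b‖ ≤ ‖g^[i] y - f^[i] a‖ + ‖g^[i] y - f^[i] b‖ := by
      have : f^[i] a - f^[i] b = (g^[i] y - f^[i] b) - (g^[i] y - f^[i] a) := by abel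
      rw [this]
      exact (norm_sub_le _ _).trans (by linarith [add_comm ‖g^[i] y - f^[i] a‖ ‖g^[i] y - f^[i] b‖])
    simp only at h1 h2
    linarith
  have := hcount.to_subtype
  calc νf G' ≤ νf (⋃ a ∈ A, BB f N (fun i => f^[i] a) (r / 4)) := measure_mono hcov
    _ ≤ ∑' a : A, νf (BB f N (fun i => f^[i] (a : E)) (r / 4)) := measure_biUnion_le νf hcount _
    _ ≤ ∑' a : A, C * νg (BB g N (fun i => f^[i] (a : E)) (r / 8)) :=
        ENNReal.tsum_le_tsum fun a => hloc a (hAG a.2)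
    _ = C * ∑' a : A, νg (BB g N (fun i => f^[i] (a : E)) (r / 8)) := ENNReal.tsum_mul_left
    _ = C * νg (⋃ a ∈ A, BB g N (fun i => f^[i] a) (r / 8)) := by
        rw [measure_biUnion hcount hdis fun a _ => measurableSet_BB hg N _ _]
    _ ≤ C * νg (⋃ x ∈ G', BB g N (fun i => f^[i] x) (r / 8)) := by
        exact mul_le_mul_right (measure_mono (Set.biUnion_subset_biUnion_left hAG)) _

end Crest.Agent.R133.KL
end

-- ▼ part R133/KL
section

/-!
Row 133, section 10 (KL matching).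
-/

set_option autoImplicit false

open MeasureTheory Set Function Metric
open scoped ENNReal

namespace Crest.Agent.R133.KL

/-- The output of L1 at the orbit of `x` (section 7): a shadowing operator with constant `G`. -/
def HasS {E : Type*} [NormedAddCommGroup E] [NormedSpace ℝ E] (f : E → E) (N : ℕ) (G : ℝ) (x : E) :
    Prop :=
  ∃ S : E →L[ℝ] E,
    (∀ i j, i < j → j ≤ N → ‖(Phi (fun k => fderiv ℝ f (f^[k] x)) 0 i).comp
      (S.comp (Phi (fun k => fderiv ℝ f (f^[k] x)) j N))‖ ≤ G) ∧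
    (∀ i j, j ≤ i → i ≤ N → ‖Phi (fun k => fderiv ℝ f (f^[k] x)) j i -
      (Phi (fun k => fderiv ℝ f (f^[k] x)) 0 i).comp
      (S.comp (Phi (fun k => fderiv ℝ f (f^[k] x)) j N))‖ ≤ G)

theorem local_compare {d : ℕ} {D : ℝ} (hD : 0 ≤ D)
    {f g : EE d → EE d}
    {νf νg : Measure (EE d)} (hf : SM D f νf) (hg : SM D g νg)
    {r ε G : ℝ} {N : ℕ} (hr : 0 < r) (hε : 0 ≤ ε) (hG : 0 ≤ G)
    (hclose : Close D f νf g νg ε (4 * r))
    (h1 : N * G * (D * r + ε) ≤ 1 / (8 * (d + 1))) (h2 : N * G * ε ≤ r / 64)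
    {x : EE d} (hreg : ∀ k ≤ N, Reg D f νf (8 * r) (f^[k] x))
    (hS : HasS f N G x) :
    νf (BB f N (fun i => f^[i] x) (r / 4)) ≤
      ENNReal.ofReal (4 * 8 ^ d * D ^ 2) * νg (BB g N (fun i => f^[i] x) (r / 8)) := by
  obtain ⟨S, hS1, hS2⟩ := hS
  have hcl : ∀ k ≤ N, (volume : Measure (EE d)).restrict
        (ball (f^[k] x) (2 * r)) ≤ ENNReal.ofReal D • νg ∧
      ∀ y ∈ ball (f^[k] x) (2 * r), DifferentiableAt ℝ g y ∧ ‖g y - f y‖ ≤ ε ∧
      ‖fderiv ℝ g y - fderiv ℝ f y‖ ≤ ε := by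
    intro k hk
    have := hclose (f^[k] x) (by
      have := hreg k hk
      rwa [show 2 * (4 * r) = 8 * r by ring])
    rwa [show 4 * r / 2 = 2 * r by ring] at this
  have hfr : Module.finrank ℝ (EE d) = d := finrank_euclideanSpace_fin
  have hvol := L2.nonlinear (volume : Measure (EE d)) (n := N) (r := r) (η := D * r + ε) (ε := ε)
    (G := G) hr (by positivity) hG (fun i => f^[i] x) (fun k => fderiv ℝ f (f^[k] x)) S hS1 hS2 f g (fderiv ℝ f) (fderiv ℝ g)
    hf.meas hg.meas ?_ ?_ ?_ ?_ (by rw [hfr]; exact h1) h2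
  · rw [hfr] at hvol
    have e1 : νf (BB f N (fun i => f^[i] x) (r / 4)) ≤
        ENNReal.ofReal D * volume (BB f N (fun i => f^[i] x) (r / 4)) := by
      have := hf.le (BB f N (fun i => f^[i] x) (r / 4))
      simpa using this
    have e2 : (volume : Measure (EE d)) (BB g N (fun i => f^[i] x) (r / 8)) ≤
        ENNReal.ofReal D * νg (BB g N (fun i => f^[i] x) (r / 8)) := by
      have h := (hcl 0 (Nat.zero_le _)).1 (BB g N (fun i => f^[i] x) (r / 8))
      have hsub : BB g N (fun i => f^[i] x) (r / 8) ⊆ ball (f^[0] x) (2 * r) := by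
        intro y hy
        have := hy 0 (Nat.zero_le _)
        simp only [iterate_zero, id_eq] at this ⊢
        rw [mem_ball, dist_eq_norm]
        linarith
      rw [Measure.restrict_eq_self _ hsub] at h
      simpa using h
    calc νf (BB f N (fun i => f^[i] x) (r / 4)) ≤
          ENNReal.ofReal D * volume (BB f N (fun i => f^[i] x) (r / 4)) := e1
      _ ≤ ENNReal.ofReal D * (4 * 8 ^ d * volume (BB g N (fun i => f^[i] x) (r / 8))) := by
          gcongr
          exact hvol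
      _ ≤ ENNReal.ofReal D * (4 * 8 ^ d *
          (ENNReal.ofReal D * νg (BB g N (fun i => f^[i] x) (r / 8)))) := by
          gcongr
      _ = ENNReal.ofReal (4 * 8 ^ d * D ^ 2) * νg (BB g N (fun i => f^[i] x) (r / 8)) := by
          rw [ENNReal.ofReal_mul (by positivity), ENNReal.ofReal_mul (by positivity),
            ENNReal.ofReal_pow (by positivity), ENNReal.ofReal_pow hD]
          norm_num
          ring
  · intro i hi z hz
    have hz' : z ∈ ball (f^[i] x) (8 * r) := by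
      rw [mem_closedBall] at hz; rw [mem_ball]; linarith
    have hc' : f^[i] x ∈ ball (f^[i] x) (8 * r) := mem_ball_self (by linarith)
    refine ⟨((hreg i hi.le).diff z hz').hasFDerivAt, ?_⟩
    have := (hreg i hi.le).lip z hz' _ hc'
    rw [mem_closedBall, dist_eq_norm] at hz
    nlinarith [mul_le_mul_of_nonneg_left hz hD]
  · intro i hi z hz
    have hz' : z ∈ ball (f^[i] x) (8 * r) := by
      rw [mem_closedBall] at hz; rw [mem_ball]; linarith
    have hz2 : z ∈ ball (f^[i] x) (2 * r) := by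
      rw [mem_closedBall] at hz; rw [mem_ball]; linarith
    have hc' : f^[i] x ∈ ball (f^[i] x) (8 * r) := mem_ball_self (by linarith)
    obtain ⟨hd, -, hd2⟩ := (hcl i hi.le).2 z hz2
    refine ⟨hd.hasFDerivAt, ?_⟩
    have := (hreg i hi.le).lip z hz' _ hc'
    rw [mem_closedBall, dist_eq_norm] at hz
    have h3 : fderiv ℝ g z - fderiv ℝ f (f^[i] x) =
        (fderiv ℝ g z - fderiv ℝ f z) + (fderiv ℝ f z - fderiv ℝ f (f^[i] x)) := by abel
    rw [h3]
    refine (norm_add_le _ _).trans ?_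
    nlinarith [mul_le_mul_of_nonneg_left hz hD]
  · intro i _
    exact (Function.iterate_succ_apply' f i x).symm
  · intro i hi
    rw [Function.iterate_succ_apply']
    exact ((hcl i hi.le).2 _ (mem_ball_self (by linarith))).2.1

/-- **KL matching** (section 10): for every set `G'` of good points. -/
theorem kl {d : ℕ} {D : ℝ} (hD : 0 ≤ D)
    {f g : EE d → EE d}
    {νf νg : Measure (EE d)} (hf : SM D f νf) (hg : SM D g νg)
    {r ε G : ℝ} {N : ℕ} (hr : 0 < r) (hε : 0 ≤ ε) (hG : 0 ≤ G)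
    (hclose : Close D f νf g νg ε (4 * r))
    (h1 : N * G * (D * r + ε) ≤ 1 / (8 * (d + 1))) (h2 : N * G * ε ≤ r / 64)
    (G' : Set (EE d))
    (hreg : ∀ x ∈ G', ∀ k ≤ N, Reg D f νf (8 * r) (f^[k] x))
    (hS : ∀ x ∈ G', HasS f N G x) :
    νf G' ≤ ENNReal.ofReal (4 * 8 ^ d * D ^ 2) *
      νg (⋃ x ∈ G', BB g N (fun i => f^[i] x) (r / 8)) :=
  cover hg.meas N νf νg _ hr G' fun x hx =>
    local_compare hD hf hg hr hε hG hclose h1 h2 (hreg x hx) (hS x hx)

/-- equality of `Q`-names on the `g`-Bowen ball. -/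
theorem name_eq {E : Type*} [NormedAddCommGroup E] {f g : E → E} {N : ℕ} {r : ℝ} (hr : 0 < r)
    {Q : Set E} {x y : E}
    (hQ : ∀ k ≤ N, ball (f^[k] x) (4 * r) ⊆ Q ∨ ball (f^[k] x) (4 * r) ⊆ Qᶜ)
    (hy : y ∈ BB g N (fun i => f^[i] x) (r / 8)) {k : ℕ} (hk : k ≤ N) :
    g^[k] y ∈ Q ↔ f^[k] x ∈ Q := by
  have h1 : g^[k] y ∈ ball (f^[k] x) (4 * r) := by
    rw [mem_ball, dist_eq_norm]
    have := hy k hk
    simp only at this
    linarith
  have h2 : f^[k] x ∈ ball (f^[k] x) (4 * r) := mem_ball_self (by linarith)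
  rcases hQ k hk with h | h
  · exact ⟨fun _ => h h2, fun _ => h h1⟩
  · exact ⟨fun h' => absurd h' (h h1), fun h' => absurd h' (h h2)⟩

end Crest.Agent.R133.KL
end

-- ▼ part R133/KLGood
section

/-!
Row 133, section 10: the good set and the numeric choice of `r, ε`.
-/

set_option autoImplicit false

open MeasureTheory Set Function Metric Filter
open scoped ENNReal Topology

namespace Crest.Agent.R133.KL

/-- The regularity part of the good set. -/
def GoodReg {d : ℕ} (D : ℝ) (f : EE d → EE d) (ν : Measure (EE d)) (Q : Set (EE d))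
    (r : ℝ) (N : ℕ) : Set (EE d) :=
  {x | ∀ k ≤ N, Reg D f ν (8 * r) (f^[k] x) ∧
    (ball (f^[k] x) (4 * r) ⊆ Q ∨ ball (f^[k] x) (4 * r) ⊆ Qᶜ)}

lemma map_iterate {E : Type*} [MeasurableSpace E] {f : E → E} (hf : Measurable f)
    {ν : Measure E} (h : ν.map f = ν) (k : ℕ) : ν.map (f^[k]) = ν := by
  have : MeasurePreserving f ν ν := ⟨hf, h⟩
  exact (this.iterate k).map_eq

theorem goodReg_compl {d : ℕ}
    {D : ℝ} (hD : 0 ≤ D) {f : EE d → EE d} {ν : Measure (EE d)} (hf : SM D f ν)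
    {Q : Set (EE d)} {CQ r : ℝ}
    (hr : 0 < r) (hr8 : 8 * r ≤ 1) (hCQ : 0 ≤ CQ)
    (hQ : (volume : Measure (EE d)) {x | ¬ (ball x (4 * r) ⊆ Q ∨ ball x (4 * r) ⊆ Qᶜ)} ≤
      ENNReal.ofReal (CQ * (4 * r))) (N : ℕ) :
    ν (GoodReg D f ν Q r N)ᶜ ≤ ENNReal.ofReal ((N + 1) * (D * (8 + 4 * CQ) * r)) := by
  set A : Set (EE d) := {x | ¬ Reg D f ν (8 * r) x} with hA
  set B : Set (EE d) := {x | ¬ (ball x (4 * r) ⊆ Q ∨ ball x (4 * r) ⊆ Qᶜ)} with hB
  have hsub : (GoodReg D f ν Q r N)ᶜ ⊆ ⋃ k ∈ Finset.range (N + 1), (f^[k]) ⁻¹' (A ∪ B) := by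
    intro x hx
    simp only [GoodReg, mem_compl_iff, Set.mem_ofPred_eq, not_forall] at hx
    obtain ⟨k, hk, h⟩ := hx
    simp only [Set.mem_iUnion, Finset.mem_range]
    refine ⟨k, by omega, ?_⟩
    by_contra hcon
    apply h
    have h1 : f^[k] x ∉ A := fun h' => hcon (Or.inl h')
    have h2 : f^[k] x ∉ B := fun h' => hcon (Or.inr h')
    exact ⟨not_not.1 h1, not_not.1 h2⟩
  have hAB : ν (A ∪ B) ≤ ENNReal.ofReal (D * (8 + 4 * CQ) * r) := by
    calc ν (A ∪ B) ≤ ν A + ν B := measure_union_le _ _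
      _ ≤ ENNReal.ofReal (D * (8 * r)) + ENNReal.ofReal D * ENNReal.ofReal (CQ * (4 * r)) := by
          refine add_le_add (hf.reg _ (by positivity) hr8) ?_
          have h1 := hf.le B
          simp only [Measure.smul_apply, smul_eq_mul] at h1
          exact h1.trans (by gcongr)
      _ = ENNReal.ofReal (D * (8 + 4 * CQ) * r) := by
          rw [← ENNReal.ofReal_mul hD, ← ENNReal.ofReal_add (by positivity) (by positivity)]
          congr 1; ring
  calc ν (GoodReg D f ν Q r N)ᶜ ≤ ν (⋃ k ∈ Finset.range (N + 1), (f^[k]) ⁻¹' (A ∪ B)) :=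
        measure_mono hsub
    _ ≤ ∑ k ∈ Finset.range (N + 1), ν ((f^[k]) ⁻¹' (A ∪ B)) := measure_biUnion_finset_le _ _
    _ ≤ ∑ k ∈ Finset.range (N + 1), ENNReal.ofReal (D * (8 + 4 * CQ) * r) := by
        refine Finset.sum_le_sum fun k _ => ?_
        have h1 := Measure.le_map_apply (μ := ν) (hf.meas.iterate k).aemeasurable (A ∪ B)
        rw [map_iterate hf.meas hf.pres k] at h1
        exact h1.trans hAB
    _ = ENNReal.ofReal ((N + 1) * (D * (8 + 4 * CQ) * r)) := by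
        rw [Finset.sum_const, Finset.card_range, nsmul_eq_mul,
          ENNReal.ofReal_mul (p := (N : ℝ) + 1) (by positivity), ← Nat.cast_succ,
          ENNReal.ofReal_natCast]

/-- good-set estimate: `Lin` is any set (the `LIN` set). -/
theorem base_diff_good {d : ℕ}
    {D : ℝ} (hD : 0 ≤ D) {f : EE d → EE d} {ν : Measure (EE d)} (hf : SM D f ν)
    {Q : Set (EE d)} {CQ r : ℝ}
    (hr : 0 < r) (hr8 : 8 * r ≤ 1) (hCQ : 0 ≤ CQ)
    (hQ : (volume : Measure (EE d)) {x | ¬ (ball x (4 * r) ⊆ Q ∨ ball x (4 * r) ⊆ Qᶜ)} ≤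
      ENNReal.ofReal (CQ * (4 * r))) (N : ℕ) (B L : Set (EE d)) :
    ν (B \ (L ∩ GoodReg D f ν Q r N)) ≤
      ν (B \ L) + ENNReal.ofReal ((N + 1) * (D * (8 + 4 * CQ) * r)) := by
  calc ν (B \ (L ∩ GoodReg D f ν Q r N)) ≤ ν ((B \ L) ∪ (GoodReg D f ν Q r N)ᶜ) := by
        refine measure_mono fun x hx => ?_
        by_cases h : x ∈ L
        · exact Or.inr fun h' => hx.2 ⟨h, h'⟩
        · exact Or.inl ⟨hx.1, h⟩
    _ ≤ ν (B \ L) + ν (GoodReg D f ν Q r N)ᶜ := measure_union_le _ _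
    _ ≤ _ := by gcongr; exact goodReg_compl hD hf hr hr8 hCQ hQ N

/-- **Numeric choice of the scales** `r = exp (-C3 t)`, `ε = exp (-C4 t)`. Here `G = a * exp (b t)`
is the constant of L1 (`a = 2 (d+1)`, `b = 4 C''`). -/
theorem scales (d : ℕ) {D CQ a b δ : ℝ} (hD : 0 ≤ D) (hCQ : 0 ≤ CQ) (ha : 0 ≤ a) (hb : 0 ≤ b)
    (hδ : 0 < δ) :
    ∃ t₀ : ℕ, ∀ t : ℕ, t₀ ≤ t → ∀ N : ℕ, N ≤ t ^ 2 →
      8 * Real.exp (-(b + 1) * t) ≤ 1 ∧
      (N : ℝ) * (a * Real.exp (b * t)) * (D * Real.exp (-(b + 1) * t) + Real.exp (-(2 * b + 3) * t)) ≤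
        1 / (8 * (d + 1)) ∧
      (N : ℝ) * (a * Real.exp (b * t)) * Real.exp (-(2 * b + 3) * t) ≤
        Real.exp (-(b + 1) * t) / 64 ∧
      ((N : ℝ) + 1) * (D * (8 + 4 * CQ) * Real.exp (-(b + 1) * t)) * (N : ℝ) ≤ δ := by
  -- it is enough that `K * t^4 * exp (-t) ≤ η`
  have key : ∀ K η : ℝ, 0 < η → ∃ t₀ : ℕ, ∀ t : ℕ, t₀ ≤ t →
      K * ((t : ℝ) ^ 4 * Real.exp (-(t : ℝ))) ≤ η := by
    intro K η hη
    have h1 : Tendsto (fun t : ℕ => K * ((t : ℝ) ^ 4 * Real.exp (-(t : ℝ)))) atTop (𝓝 (K * 0)) :=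
      ((Real.tendsto_pow_mul_exp_neg_atTop_nhds_zero 4).comp
        tendsto_natCast_atTop_atTop).const_mul K
    rw [mul_zero] at h1
    have h2 := h1.eventually (ge_mem_nhds hη)
    obtain ⟨t₀, h⟩ := eventually_atTop.1 h2
    exact ⟨t₀, h⟩
  obtain ⟨t1, h1⟩ := key 8 1 one_pos
  obtain ⟨t2, h2⟩ := key (a * (D + 1)) (1 / (8 * (d + 1))) (by positivity)
  obtain ⟨t3, h3⟩ := key (a * 64) 1 one_pos
  obtain ⟨t4, h4⟩ := key (2 * (D * (8 + 4 * CQ))) δ hδ
  refine ⟨max 1 (max (max t1 t2) (max t3 t4)), fun t ht N hN => ?_⟩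
  have ht1 : 1 ≤ t := by omega
  have htr : (1 : ℝ) ≤ t := by exact_mod_cast ht1
  have h1 := h1 t (by omega)
  have h2 := h2 t (by omega)
  have h3 := h3 t (by omega)
  have h4 := h4 t (by omega)
  have hNr : (N : ℝ) ≤ (t : ℝ) ^ 2 := by exact_mod_cast hN
  have hN0 : (0 : ℝ) ≤ N := Nat.cast_nonneg _
  have htpow : (t : ℝ) ^ 2 ≤ (t : ℝ) ^ 4 := pow_le_pow_right₀ htr (by norm_num)
  have ht4 : (1 : ℝ) ≤ (t : ℝ) ^ 4 := one_le_pow₀ htr
  have e0 : Real.exp (-(b + 1) * t) ≤ Real.exp (-(t : ℝ)) := by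
    apply Real.exp_le_exp.2; nlinarith
  have epos := Real.exp_pos (-(t : ℝ))
  refine ⟨?_, ?_, ?_, ?_⟩
  · calc 8 * Real.exp (-(b + 1) * t) ≤ 8 * Real.exp (-(t : ℝ)) := by linarith
      _ ≤ 8 * ((t : ℝ) ^ 4 * Real.exp (-(t : ℝ))) := by
          nlinarith [mul_le_mul_of_nonneg_right ht4 epos.le]
      _ ≤ 1 := h1
  · have hx : Real.exp (b * t) * Real.exp (-(b + 1) * t) = Real.exp (-(t : ℝ)) := by
      rw [← Real.exp_add]; congr 1; ring
    have hy : Real.exp (b * t) * Real.exp (-(2 * b + 3) * t) ≤ Real.exp (-(t : ℝ)) := by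
      rw [← Real.exp_add]; apply Real.exp_le_exp.2; nlinarith
    calc (N : ℝ) * (a * Real.exp (b * t)) *
          (D * Real.exp (-(b + 1) * t) + Real.exp (-(2 * b + 3) * t))
        = N * a * (D * (Real.exp (b * t) * Real.exp (-(b + 1) * t)) +
            Real.exp (b * t) * Real.exp (-(2 * b + 3) * t)) := by ring
      _ ≤ N * a * (D * Real.exp (-(t : ℝ)) + Real.exp (-(t : ℝ))) := by
          rw [hx]; gcongr
      _ = N * (a * (D + 1) * Real.exp (-(t : ℝ))) := by ring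
      _ ≤ (t : ℝ) ^ 4 * (a * (D + 1) * Real.exp (-(t : ℝ))) := by
          gcongr; linarith
      _ = a * (D + 1) * ((t : ℝ) ^ 4 * Real.exp (-(t : ℝ))) := by ring
      _ ≤ _ := h2
  · have hy : Real.exp (b * t) * Real.exp (-(2 * b + 3) * t) =
        Real.exp (-(b + 1) * t) * (Real.exp (-(t : ℝ)) * Real.exp (-(t : ℝ))) := by
      rw [← Real.exp_add, ← Real.exp_add, ← Real.exp_add]; congr 1; ring
    have hle1 : Real.exp (-(t : ℝ)) ≤ 1 := Real.exp_le_one_iff.2 (by linarith)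
    have hc : (N : ℝ) * a * (Real.exp (-(t : ℝ)) * Real.exp (-(t : ℝ))) ≤ 1 / 64 := by
      calc (N : ℝ) * a * (Real.exp (-(t : ℝ)) * Real.exp (-(t : ℝ)))
          ≤ (t : ℝ) ^ 4 * a * (Real.exp (-(t : ℝ)) * 1) := by
            gcongr; linarith
        _ = (a * 64 * ((t : ℝ) ^ 4 * Real.exp (-(t : ℝ)))) / 64 := by ring
        _ ≤ 1 / 64 := by linarith
    calc (N : ℝ) * (a * Real.exp (b * t)) * Real.exp (-(2 * b + 3) * t)
        = N * a * (Real.exp (b * t) * Real.exp (-(2 * b + 3) * t)) := by ring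
      _ = (N * a * (Real.exp (-(t : ℝ)) * Real.exp (-(t : ℝ)))) * Real.exp (-(b + 1) * t) := by
          rw [hy]; ring
      _ ≤ (1 / 64) * Real.exp (-(b + 1) * t) := by gcongr
      _ = _ := by ring
  · have hNN : ((N : ℝ) + 1) * N ≤ 2 * (t : ℝ) ^ 4 := by
      have : (N : ℝ) * N ≤ (t : ℝ) ^ 2 * (t : ℝ) ^ 2 := by gcongr
      nlinarith
    calc ((N : ℝ) + 1) * (D * (8 + 4 * CQ) * Real.exp (-(b + 1) * t)) * (N : ℝ)
        = (((N : ℝ) + 1) * N) * (D * (8 + 4 * CQ)) * Real.exp (-(b + 1) * t) := by ring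
      _ ≤ (2 * (t : ℝ) ^ 4) * (D * (8 + 4 * CQ)) * Real.exp (-(t : ℝ)) := by
          gcongr
      _ = 2 * (D * (8 + 4 * CQ)) * ((t : ℝ) ^ 4 * Real.exp (-(t : ℝ))) := by ring
      _ ≤ δ := h4

end Crest.Agent.R133.KL
end

-- ▼ part R133/L1
section

/-!
Row 133, section 7 (Linear Lemma L1).
-/

set_option autoImplicit false

namespace Crest.Agent.R133

noncomputable section

open ContinuousAlternatingMap

variable {E : Type*} [NormedAddCommGroup E] [NormedSpace ℝ E]

/-- Pull-back of continuous alternating `p`-forms along `L`. -/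
def pb (p : ℕ) (L : E →L[ℝ] E) : (E [⋀^Fin p]→L[ℝ] ℝ) →L[ℝ] (E [⋀^Fin p]→L[ℝ] ℝ) :=
  ContinuousAlternatingMap.compContinuousLinearMapCLM L

/-- The operator norm of the pull-back on `p`-forms. -/
def pn (p : ℕ) (L : E →L[ℝ] E) : ℝ := ‖pb p L‖

@[simp] lemma pb_apply (p : ℕ) (L : E →L[ℝ] E) (ω : E [⋀^Fin p]→L[ℝ] ℝ) (v : Fin p → E) :
    pb p L ω v = ω (fun i => L (v i)) := rfl

lemma pn_nonneg (p : ℕ) (L : E →L[ℝ] E) : 0 ≤ pn p L := by
  unfold pn
  exact norm_nonneg (pb p L)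

lemma pb_comp (p : ℕ) (L M : E →L[ℝ] E) : pb p (L.comp M) = (pb p M).comp (pb p L) := rfl

lemma pb_id (p : ℕ) : pb p (ContinuousLinearMap.id ℝ E) = ContinuousLinearMap.id ℝ _ := rfl

lemma pn_comp_le (p : ℕ) (L M : E →L[ℝ] E) : pn p (L.comp M) ≤ pn p L * pn p M := by
  unfold pn
  rw [pb_comp, mul_comm]
  exact ContinuousLinearMap.opNorm_comp_le _ _

lemma norm_pb_apply_le (p : ℕ) (L : E →L[ℝ] E) (ω : E [⋀^Fin p]→L[ℝ] ℝ) :
    ‖pb p L ω‖ ≤ pn p L * ‖ω‖ := (pb p L).le_opNorm ω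

lemma pn_le_pow (p : ℕ) (L : E →L[ℝ] E) : pn p L ≤ ‖L‖ ^ p := by
  refine ContinuousLinearMap.opNorm_le_bound _ (by positivity) fun ω => ?_
  have := ContinuousAlternatingMap.norm_compContinuousLinearMap_le ω L
  rw [Fintype.card_fin] at this
  rw [mul_comm]
  exact this


/-- a vector tuple almost realising the norm of an alternating form -/
lemma exists_unit_tuple {p : ℕ} (f : E [⋀^Fin p]→L[ℝ] ℝ) {r : ℝ} (hr0 : 0 ≤ r) (hr : r < ‖f‖) :
    ∃ u : Fin p → E, (∀ b, ‖u b‖ ≤ 1) ∧ r < ‖f u‖ := by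
  by_contra hcon
  push Not at hcon
  have : ‖f‖ ≤ r := by
    refine ContinuousAlternatingMap.opNorm_le_bound f hr0 fun m => ?_
    by_cases hm : ∃ i, m i = 0
    · obtain ⟨i, hi⟩ := hm
      rw [f.map_coord_zero i hi]
      simp only [norm_zero]
      positivity
    · push Not at hm
      have hu : ∀ b, ‖(‖m b‖⁻¹ • m b)‖ ≤ 1 := fun b => by
        rw [norm_smul, norm_inv, norm_norm, inv_mul_cancel₀ (norm_ne_zero_iff.mpr (hm b))]
      have h1 := hcon (fun b => ‖m b‖⁻¹ • m b) hu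
      have h2 : f (fun b => ‖m b‖ • (‖m b‖⁻¹ • m b)) = (∏ b, ‖m b‖) • f (fun b => ‖m b‖⁻¹ • m b) :=
        f.toContinuousMultilinearMap.map_smul_univ (fun b => ‖m b‖) (fun b => ‖m b‖⁻¹ • m b)
      have h3 : (fun b => ‖m b‖ • (‖m b‖⁻¹ • m b)) = m := by
        ext b
        rw [smul_smul, mul_inv_cancel₀ (norm_ne_zero_iff.mpr (hm b)), one_smul]
      rw [h3] at h2
      rw [h2, norm_smul, mul_comm]
      have h4 : ‖∏ b, ‖m b‖‖ = ∏ b, ‖m b‖ := by
        rw [Real.norm_eq_abs, abs_of_nonneg (Finset.prod_nonneg fun _ _ => norm_nonneg _)]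
      rw [h4]
      exact mul_le_mul_of_nonneg_right h1 (Finset.prod_nonneg fun _ _ => norm_nonneg _)
  linarith

/-- `l ∧ η` -/
def wed {p : ℕ} (l : E →L[ℝ] ℝ) (η : E [⋀^Fin p]→L[ℝ] ℝ) : E [⋀^Fin (p + 1)]→L[ℝ] ℝ :=
  alternatizeUncurryFin (l.smulRight η)

lemma wed_apply {p : ℕ} (l : E →L[ℝ] ℝ) (η : E [⋀^Fin p]→L[ℝ] ℝ) (v : Fin (p + 1) → E) :
    wed l η v = ∑ i : Fin (p + 1), (-1) ^ (i : ℕ) * (l (v i) * η (Fin.removeNth i v)) := by
  rw [wed, alternatizeUncurryFin_apply]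
  refine Finset.sum_congr rfl fun i _ => ?_
  simp [zsmul_eq_mul]

lemma norm_wed_le {p : ℕ} (l : E →L[ℝ] ℝ) (η : E [⋀^Fin p]→L[ℝ] ℝ) :
    ‖wed l η‖ ≤ (p + 1) * (‖l‖ * ‖η‖) := by
  refine (norm_alternatizeUncurryFin_le _).trans_eq ?_
  rw [ContinuousLinearMap.norm_smulRight_apply]

lemma curryLeft_norm_le {p : ℕ} (ω : E [⋀^Fin (p + 1)]→L[ℝ] ℝ) (v : E) :
    ‖ω.curryLeft v‖ ≤ ‖ω‖ * ‖v‖ := by
  have := (ω.curryLeft).le_opNorm v
  rwa [norm_curryLeft] at this

/-- value on a unit tuple -/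
lemma le_unit {p : ℕ} (ω : E [⋀^Fin p]→L[ℝ] ℝ) (u : Fin p → E) (hu : ∀ b, ‖u b‖ ≤ 1) :
    |ω u| ≤ ‖ω‖ := by
  have h := ω.le_opNorm u
  rw [Real.norm_eq_abs] at h
  refine h.trans ?_
  have : ∏ b, ‖u b‖ ≤ 1 := Finset.prod_le_one (fun _ _ => norm_nonneg _) (fun b _ => hu b)
  nlinarith [norm_nonneg ω]

/-- sign lemma: update in slot `b` versus first slot. -/
lemma update_eq {p : ℕ} (ω : E [⋀^Fin (p + 1)]→L[ℝ] ℝ) (w : Fin (p + 1) → E) (b : Fin (p + 1))
    (x : E) :
    (-1 : ℝ) ^ (b : ℕ) * ω (Matrix.vecCons x (Fin.removeNth b w)) = ω (Function.update w b x) := by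
  have h := ω.map_insertNth b x (Fin.removeNth b w)
  rw [Fin.insertNth_removeNth] at h
  rw [h]
  simp [zsmul_eq_mul]

/-- the operator `S` of section 7. -/
def Sop {p : ℕ} (ω : E [⋀^Fin p]→L[ℝ] ℝ) (w u : Fin p → E) : E →L[ℝ] E :=
  ∑ b : Fin p, ((ω w)⁻¹ • (ω.toContinuousMultilinearMap.toContinuousLinearMap w b)).smulRight (u b)

lemma Sop_apply {p : ℕ} (ω : E [⋀^Fin p]→L[ℝ] ℝ) (w u : Fin p → E) (v : E) :
    Sop ω w u v = ∑ b : Fin p, ((ω w)⁻¹ * ω (Function.update w b v)) • u b := by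
  simp [Sop]


/-- first bound (algebraic form), `p = q + 1`. -/
lemma first_identity {q : ℕ} (ω : E [⋀^Fin (q + 1)]→L[ℝ] ℝ) (u : Fin (q + 1) → E)
    (P0i Pij Pjn P0n : E →L[ℝ] E) (h0n : P0n = Pjn.comp (Pij.comp P0i)) (l : E →L[ℝ] ℝ) (v : E)
    (hD : ω (fun b => P0n (u b)) ≠ 0) :
    ω (fun b => P0n (u b)) * l (P0i (Sop ω (fun b => P0n (u b)) u (Pjn v))) =
      pb (q + 1) P0i (wed l (pb q Pij ((pb (q + 1) Pjn ω).curryLeft v))) u := by
  rw [Sop_apply, pb_apply, wed_apply, _root_.map_sum, _root_.map_sum, Finset.mul_sum]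
  refine Finset.sum_congr rfl fun b _ => ?_
  rw [map_smul, map_smul, smul_eq_mul]
  have h1 := update_eq ω (fun b => P0n (u b)) b (Pjn v)
  rw [← h1]
  have h2 : pb q Pij ((pb (q + 1) Pjn ω).curryLeft v) (Fin.removeNth b fun i => P0i (u i)) =
      ω (Matrix.vecCons (Pjn v) (Fin.removeNth b fun b => P0n (u b))) := by
    rw [pb_apply, curryLeft_apply_apply, pb_apply]
    congr 1
    ext k
    refine Fin.cases ?_ (fun k => ?_) k
    · simp
    · simp [Fin.removeNth, h0n]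
  rw [h2]
  field_simp

/-- second bound (algebraic form). -/
lemma second_identity {p : ℕ} (ω : E [⋀^Fin p]→L[ℝ] ℝ) (u : Fin p → E)
    (P0j Pji Pin P0i Pjn P0n : E →L[ℝ] E) (h0i : P0i = Pji.comp P0j) (hjn : Pjn = Pin.comp Pji)
    (h0n : P0n = Pin.comp P0i) (l : E →L[ℝ] ℝ) (v : E)
    (hD : ω (fun b => P0n (u b)) ≠ 0) :
    ω (fun b => P0n (u b)) *
        l (Pji v - P0i (Sop ω (fun b => P0n (u b)) u (Pjn v))) =
      pb p P0j ((pb (p + 1) Pji (wed l (pb p Pin ω))).curryLeft v) u := by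
  rw [map_sub, mul_sub, pb_apply, curryLeft_apply_apply, pb_apply, wed_apply, Fin.sum_univ_succ]
  simp only [Fin.val_zero, pow_zero, one_mul, Matrix.cons_val_zero, Matrix.cons_val_succ,
    Fin.val_succ]
  have h0 : pb p Pin ω (Fin.removeNth 0 fun i : Fin (p + 1) =>
      Pji ((Matrix.vecCons v fun i => P0j (u i)) i)) = ω (fun b => P0n (u b)) := by
    rw [pb_apply]
    congr 1
    ext k
    simp [Fin.removeNth, h0n, h0i]
  rw [h0, sub_eq_add_neg, mul_comm (l (Pji v))]
  congr 1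
  rw [Sop_apply, _root_.map_sum, _root_.map_sum, Finset.mul_sum, ← Finset.sum_neg_distrib]
  refine Finset.sum_congr rfl fun b _ => ?_
  obtain ⟨q, rfl⟩ : ∃ q, p = q + 1 := ⟨p - 1, by have := b.pos; omega⟩
  rw [map_smul, map_smul, smul_eq_mul]
  have h1 := update_eq ω (fun b => P0n (u b)) b (Pjn v)
  rw [← h1]
  have h2 : pb (q + 1) Pin ω (Fin.removeNth b.succ fun i : Fin (q + 1 + 1) =>
      Pji ((Matrix.vecCons v fun i => P0j (u i)) i)) =
      ω (Matrix.vecCons (Pjn v) (Fin.removeNth b fun b => P0n (u b))) := by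
    rw [pb_apply]
    congr 1
    ext k
    refine Fin.cases ?_ (fun k => ?_) k
    · simp [Fin.removeNth, hjn]
    · simp [Fin.removeNth, h0n, h0i]
  rw [h2]
  have h3 : P0i (u b) = Pji (P0j (u b)) := by rw [h0i]; rfl
  rw [h3]
  field_simp
  ring


/-- the raw form of L1: bounds in terms of the norms `pn`. -/
theorem L1_raw (p : ℕ) (P0n : E →L[ℝ] E) (hpos : 0 < pn p P0n) :
    ∃ S : E →L[ℝ] E,
      (∀ P0i Pij Pjn : E →L[ℝ] E, P0n = Pjn.comp (Pij.comp P0i) → ∀ q, p = q + 1 →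
        ‖P0i.comp (S.comp Pjn)‖ * pn p P0n ≤ 2 * p * (pn p P0i * pn q Pij * pn p Pjn)) ∧
      (p = 0 → S = 0) ∧
      (∀ P0j Pji Pin P0i Pjn : E →L[ℝ] E, P0i = Pji.comp P0j → Pjn = Pin.comp Pji →
        P0n = Pin.comp P0i →
        ‖Pji - P0i.comp (S.comp Pjn)‖ * pn p P0n ≤
          2 * (p + 1) * (pn p P0j * pn (p + 1) Pji * pn p Pin)) := by
  have h34 : 3 / 4 * pn p P0n < ‖pb p P0n‖ := by
    have : pn p P0n = ‖pb p P0n‖ := rfl
    rw [← this]; linarith
  obtain ⟨ω, hω1, hω2⟩ := ContinuousLinearMap.exists_lt_apply_of_lt_opNorm (pb p P0n) h34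
  have h12 : 1 / 2 * pn p P0n < ‖pb p P0n ω‖ := by linarith
  obtain ⟨u, hu1, hu2⟩ := exists_unit_tuple (pb p P0n ω) (by positivity) h12
  rw [pb_apply, Real.norm_eq_abs] at hu2
  have hDne : ω (fun b => P0n (u b)) ≠ 0 := by
    intro h0
    rw [h0, abs_zero] at hu2
    linarith
  have hDpos : 0 < |ω (fun b => P0n (u b))| := abs_pos.mpr hDne
  -- general conversion
  have key : ∀ (T : E →L[ℝ] E) (M : ℝ), 0 ≤ M →
      (∀ (l : E →L[ℝ] ℝ) (v : E), |ω (fun b => P0n (u b)) * l (T v)| ≤ M * ‖l‖ * ‖v‖) →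
      ‖T‖ * pn p P0n ≤ 2 * M := by
    intro T M hM hT
    have h1 : ‖T‖ ≤ M / |ω (fun b => P0n (u b))| := by
      refine ContinuousLinearMap.opNorm_le_bound _ (by positivity) fun v => ?_
      refine NormedSpace.norm_le_dual_bound ℝ (T v) (by positivity) fun l => ?_
      have h2 := hT l v
      rw [abs_mul] at h2
      rw [Real.norm_eq_abs]
      have h3 : M / |ω (fun b => P0n (u b))| * ‖v‖ * ‖l‖ =
        (M * ‖l‖ * ‖v‖) / |ω (fun b => P0n (u b))| := by ring
      rw [h3, le_div_iff₀ hDpos]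
      linarith
    have h4 : ‖T‖ * |ω (fun b => P0n (u b))| ≤ M := by
      rwa [le_div_iff₀ hDpos] at h1
    have h5 : 0 ≤ ‖T‖ := norm_nonneg T
    nlinarith
  refine ⟨Sop ω (fun b => P0n (u b)) u, ?_, ?_, ?_⟩
  · rintro P0i Pij Pjn h0n q rfl
    have hM : 0 ≤ ((q + 1 : ℕ) : ℝ) * (pn (q + 1) P0i * pn q Pij * pn (q + 1) Pjn) := by
      have := pn_nonneg (q + 1) P0i
      have := pn_nonneg q Pij
      have := pn_nonneg (q + 1) Pjn
      positivity
    have := key (P0i.comp ((Sop ω (fun b => P0n (u b)) u).comp Pjn)) _ hM ?_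
    · linarith
    intro l v
    have h1 := first_identity ω u P0i Pij Pjn P0n h0n l v hDne
    change |ω (fun b => P0n (u b)) * l (P0i (Sop ω (fun b => P0n (u b)) u (Pjn v)))| ≤ _
    rw [h1]
    refine (le_unit _ u hu1).trans ?_
    refine (norm_pb_apply_le _ _ _).trans ?_
    have h2 := norm_wed_le l (pb q Pij ((pb (q + 1) Pjn ω).curryLeft v))
    have h3 := norm_pb_apply_le q Pij ((pb (q + 1) Pjn ω).curryLeft v)
    have h4 := curryLeft_norm_le (pb (q + 1) Pjn ω) v
    have h5 := norm_pb_apply_le (q + 1) Pjn ω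
    have n1 := pn_nonneg (q + 1) P0i
    have n2 := pn_nonneg q Pij
    have n3 := pn_nonneg (q + 1) Pjn
    have h6 : ‖pb (q + 1) Pjn ω‖ ≤ pn (q + 1) Pjn := by nlinarith [norm_nonneg ω]
    have h7 : ‖(pb (q + 1) Pjn ω).curryLeft v‖ ≤ pn (q + 1) Pjn * ‖v‖ :=
      h4.trans (mul_le_mul_of_nonneg_right h6 (norm_nonneg v))
    have h8 : ‖pb q Pij ((pb (q + 1) Pjn ω).curryLeft v)‖ ≤
        pn q Pij * (pn (q + 1) Pjn * ‖v‖) :=
      h3.trans (mul_le_mul_of_nonneg_left h7 n2)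
    have h9 : ‖l‖ * ‖pb q Pij ((pb (q + 1) Pjn ω).curryLeft v)‖ ≤
        ‖l‖ * (pn q Pij * (pn (q + 1) Pjn * ‖v‖)) :=
      mul_le_mul_of_nonneg_left h8 (norm_nonneg l)
    have h10 : ‖wed l (pb q Pij ((pb (q + 1) Pjn ω).curryLeft v))‖ ≤
        ((q : ℝ) + 1) * (‖l‖ * (pn q Pij * (pn (q + 1) Pjn * ‖v‖))) :=
      h2.trans (mul_le_mul_of_nonneg_left h9 (by positivity))
    calc pn (q + 1) P0i * ‖wed l (pb q Pij ((pb (q + 1) Pjn ω).curryLeft v))‖
        ≤ pn (q + 1) P0i * (((q : ℝ) + 1) * (‖l‖ * (pn q Pij * (pn (q + 1) Pjn * ‖v‖)))) :=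
          mul_le_mul_of_nonneg_left h10 n1
      _ = ((q + 1 : ℕ) : ℝ) * (pn (q + 1) P0i * pn q Pij * pn (q + 1) Pjn) * ‖l‖ * ‖v‖ := by
          push_cast; ring
  · rintro rfl
    ext v
    rw [Sop_apply]
    simp
  · intro P0j Pji Pin P0i Pjn h0i hjn h0n
    have n1 := pn_nonneg p P0j
    have n2 := pn_nonneg (p + 1) Pji
    have n3 := pn_nonneg p Pin
    have hM : 0 ≤ ((p : ℝ) + 1) * (pn p P0j * pn (p + 1) Pji * pn p Pin) := by
      positivity
    have := key (Pji - P0i.comp ((Sop ω (fun b => P0n (u b)) u).comp Pjn)) _ hM ?_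
    · linarith
    intro l v
    have h1 := second_identity ω u P0j Pji Pin P0i Pjn P0n h0i hjn h0n l v hDne
    change |ω (fun b => P0n (u b)) *
      l (Pji v - P0i (Sop ω (fun b => P0n (u b)) u (Pjn v)))| ≤ _
    rw [h1]
    refine (le_unit _ u hu1).trans ?_
    refine (norm_pb_apply_le _ _ _).trans ?_
    have h2 := curryLeft_norm_le (pb (p + 1) Pji (wed l (pb p Pin ω))) v
    have h3 := norm_pb_apply_le (p + 1) Pji (wed l (pb p Pin ω))
    have h4 := norm_wed_le l (pb p Pin ω)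
    have h5 := norm_pb_apply_le p Pin ω
    have h6 : ‖pb p Pin ω‖ ≤ pn p Pin := by nlinarith [norm_nonneg ω]
    have h7 : ‖wed l (pb p Pin ω)‖ ≤ ((p : ℝ) + 1) * (‖l‖ * pn p Pin) :=
      h4.trans (mul_le_mul_of_nonneg_left
        (mul_le_mul_of_nonneg_left h6 (norm_nonneg l)) (by positivity))
    have h8 : ‖pb (p + 1) Pji (wed l (pb p Pin ω))‖ ≤
        pn (p + 1) Pji * (((p : ℝ) + 1) * (‖l‖ * pn p Pin)) :=
      h3.trans (mul_le_mul_of_nonneg_left h7 n2)
    have h9 : ‖(pb (p + 1) Pji (wed l (pb p Pin ω))).curryLeft v‖ ≤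
        pn (p + 1) Pji * (((p : ℝ) + 1) * (‖l‖ * pn p Pin)) * ‖v‖ :=
      h2.trans (mul_le_mul_of_nonneg_right h8 (norm_nonneg v))
    calc pn p P0j * ‖(pb (p + 1) Pji (wed l (pb p Pin ω))).curryLeft v‖
        ≤ pn p P0j * (pn (p + 1) Pji * (((p : ℝ) + 1) * (‖l‖ * pn p Pin)) * ‖v‖) :=
          mul_le_mul_of_nonneg_left h9 n1
      _ = ((p : ℝ) + 1) * (pn p P0j * pn (p + 1) Pji * pn p Pin) * ‖l‖ * ‖v‖ := by
          ring


section FinDim

variable [FiniteDimensional ℝ E]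

lemma form_eq_zero {p : ℕ} (hp : Module.finrank ℝ E < p) (ω : E [⋀^Fin p]→L[ℝ] ℝ) : ω = 0 := by
  ext v
  have hdep : ¬ LinearIndependent ℝ v := by
    intro h
    have := h.fintype_card_le_finrank
    rw [Fintype.card_fin] at this
    omega
  exact ω.toAlternatingMap.map_linearDependent v hdep

lemma pn_eq_zero {p : ℕ} (hp : Module.finrank ℝ E < p) (L : E →L[ℝ] E) : pn p L = 0 := by
  have h : pb p L = 0 := by
    refine ContinuousLinearMap.ext fun ω => ?_
    rw [form_eq_zero hp ω, _root_.map_zero, _root_.map_zero]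
  unfold pn
  rw [h]
  exact ContinuousLinearMap.opNorm_zero

/-- existence of a nonzero `p`-form -/
lemma exists_form {p : ℕ} (hp : p ≤ Module.finrank ℝ E) : ∃ ω : E [⋀^Fin p]→L[ℝ] ℝ, ω ≠ 0 := by
  let e := Module.finBasis ℝ E
  let φ : E →L[ℝ] (Fin p → ℝ) :=
    ContinuousLinearMap.pi fun i => LinearMap.toContinuousLinearMap (e.coord (Fin.castLE hp i))
  let a : E [⋀^Fin p]→ₗ[ℝ] ℝ := Matrix.detRowAlternating.compLinearMap (φ : E →ₗ[ℝ] (Fin p → ℝ))
  let ω : E [⋀^Fin p]→L[ℝ] ℝ :=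
    { toMultilinearMap := a.toMultilinearMap
      cont := by
        change Continuous fun v : Fin p → E => Matrix.det (fun i => φ (v i))
        refine Continuous.matrix_det ?_
        exact continuous_pi fun i => φ.continuous.comp (continuous_apply i)
      map_eq_zero_of_eq' := a.map_eq_zero_of_eq' }
  refine ⟨ω, fun h => ?_⟩
  have h1 : ω (fun i => e (Fin.castLE hp i)) = 1 := by
    change Matrix.det (fun i => φ (e (Fin.castLE hp i))) = 1
    have : (fun i => φ (e (Fin.castLE hp i))) = (1 : Matrix (Fin p) (Fin p) ℝ) := by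
      ext i j
      simp only [φ, ContinuousLinearMap.coe_pi', LinearMap.coe_toContinuousLinearMap',
        Module.Basis.coord_apply, Module.Basis.repr_self, Matrix.one_apply]
      rw [Finsupp.single_apply]
      simp [Fin.castLE_inj]
    rw [this, Matrix.det_one]
  rw [h] at h1
  simp at h1

lemma pn_id {p : ℕ} (hp : p ≤ Module.finrank ℝ E) : pn p (ContinuousLinearMap.id ℝ E) = 1 := by
  obtain ⟨ω, hω⟩ := exists_form (E := E) hp
  unfold pn
  rw [pb_id]
  have : Nontrivial (E [⋀^Fin p]→L[ℝ] ℝ) := ⟨⟨ω, 0, hω⟩⟩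
  exact ContinuousLinearMap.norm_id

lemma one_le_pn_mul {p : ℕ} (hp : p ≤ Module.finrank ℝ E) (B L : E →L[ℝ] E)
    (h : B.comp L = ContinuousLinearMap.id ℝ E) : 1 ≤ pn p B * pn p L := by
  rw [← pn_id hp, ← h]
  exact pn_comp_le p B L

lemma pn_pos {p : ℕ} (hp : p ≤ Module.finrank ℝ E) (B L : E →L[ℝ] E)
    (h : B.comp L = ContinuousLinearMap.id ℝ E) : 0 < pn p L := by
  have h1 := one_le_pn_mul hp B L h
  by_contra h2
  have h3 : pn p L = 0 := le_antisymm (not_lt.mp h2) (pn_nonneg p L)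
  rw [h3, mul_zero] at h1
  linarith

/-- if `B` is a left inverse of `L` with `‖B‖ ≤ b` then `b⁻¹ ^ p ≤ pn p L`. -/
lemma inv_pow_le_pn {p : ℕ} (hp : p ≤ Module.finrank ℝ E) (B L : E →L[ℝ] E)
    (h : B.comp L = ContinuousLinearMap.id ℝ E) {b : ℝ} (hb : ‖B‖ ≤ b) :
    (b ^ p)⁻¹ ≤ pn p L := by
  have h1 := one_le_pn_mul hp B L h
  have h2 : pn p B ≤ b ^ p := (pn_le_pow p B).trans (pow_le_pow_left₀ (norm_nonneg B) hb p)
  have h3 : 0 < pn p L := pn_pos hp B L h
  have h4 : 1 ≤ b ^ p * pn p L := h1.trans (mul_le_mul_of_nonneg_right h2 h3.le)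
  have h5 : 0 < b ^ p := by
    by_contra h6
    have : b ^ p * pn p L ≤ 0 := mul_nonpos_of_nonpos_of_nonneg (not_lt.mp h6) h3.le
    linarith
  rw [inv_le_iff_one_le_mul₀ h5]
  linarith

/-- if `L` has a left inverse and `‖L‖ ≤ exp D`, `‖B‖ ≤ exp D`, then `|log |L|_p| ≤ p D`. -/
lemma abs_log_pn_le {p : ℕ} (hp : p ≤ Module.finrank ℝ E) (B L : E →L[ℝ] E)
    (h : B.comp L = ContinuousLinearMap.id ℝ E) {D : ℝ} (hL : ‖L‖ ≤ Real.exp D)
    (hB : ‖B‖ ≤ Real.exp D) : |Real.log (pn p L)| ≤ p * D := by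
  have h1 := inv_pow_le_pn hp B L h hB
  have h2 : pn p L ≤ Real.exp D ^ p :=
    (pn_le_pow p L).trans (pow_le_pow_left₀ (norm_nonneg L) hL p)
  have h3 : 0 < pn p L := pn_pos hp B L h
  rw [abs_le]
  constructor
  · have := Real.log_le_log (by positivity) h1
    rw [Real.log_inv, Real.log_pow, Real.log_exp] at this
    linarith
  · have := Real.log_le_log h3 h2
    rwa [Real.log_pow, Real.log_exp] at this

/-- **Linear lemma L1** (abstract product form). -/
theorem L1_abs (n : ℕ) (Φ : ℕ → ℕ → E →L[ℝ] E)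
    (htr : ∀ i j k, i ≤ j → j ≤ k → k ≤ n → (Φ j k).comp (Φ i j) = Φ i k)
    (β : ℕ → ℝ) (C : ℝ)
    (hpos : ∀ p ≤ Module.finrank ℝ E, ∀ i j, i ≤ j → j ≤ n → 0 < pn p (Φ i j))
    (hlin : ∀ p ≤ Module.finrank ℝ E, ∀ i j, i ≤ j → j ≤ n →
      |Real.log (pn p (Φ i j)) - ((j : ℝ) - i) * β p| ≤ C) :
    ∃ S : E →L[ℝ] E,
      (∀ i j, i < j → j ≤ n → ‖(Φ 0 i).comp (S.comp (Φ j n))‖ ≤
        2 * (Module.finrank ℝ E + 1) * Real.exp (4 * C)) ∧
      (∀ i j, j ≤ i → i ≤ n → ‖Φ j i - (Φ 0 i).comp (S.comp (Φ j n))‖ ≤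
        2 * (Module.finrank ℝ E + 1) * Real.exp (4 * C)) := by
  set d := Module.finrank ℝ E with hd
  -- argmax of β over `p ≤ d`
  obtain ⟨p, hpm, hpmax⟩ := Finset.exists_max_image (Finset.range (d + 1)) β ⟨0, by simp⟩
  have hp : p ≤ d := by
    have := Finset.mem_range.mp hpm
    omega
  have hmax : ∀ q ≤ d, β q ≤ β p := fun q hq => hpmax q (Finset.mem_range.mpr (by omega))
  -- exponential bounds
  have hup : ∀ q ≤ d, ∀ i j, i ≤ j → j ≤ n →
      pn q (Φ i j) ≤ Real.exp (((j : ℝ) - i) * β q + C) := by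
    intro q hq i j hij hjn
    have h1 := (abs_le.mp (hlin q hq i j hij hjn)).2
    rw [← Real.exp_log (hpos q hq i j hij hjn)]
    exact Real.exp_le_exp.mpr (by linarith)
  have hlow : Real.exp ((n : ℝ) * β p - C) ≤ pn p (Φ 0 n) := by
    have h1 := (abs_le.mp (hlin p hp 0 n (Nat.zero_le _) le_rfl)).1
    rw [← Real.exp_log (hpos p hp 0 n (Nat.zero_le _) le_rfl)]
    refine Real.exp_le_exp.mpr ?_
    push_cast at h1
    linarith
  obtain ⟨S, hS1, hS0, hS2⟩ := L1_raw p (Φ 0 n) (hpos p hp 0 n (Nat.zero_le _) le_rfl)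
  have hfin : ∀ (x c E' : ℝ), 0 ≤ x → 0 ≤ c → c ≤ (d : ℝ) + 1 →
      E' ≤ (n : ℝ) * β p + 3 * C →
      x * pn p (Φ 0 n) ≤ 2 * c * Real.exp E' →
      x ≤ 2 * (d + 1) * Real.exp (4 * C) := by
    intro x c E' hx hc hcd hE hle
    have h1 : x * Real.exp ((n : ℝ) * β p - C) ≤ 2 * c * Real.exp E' :=
      (mul_le_mul_of_nonneg_left hlow hx).trans hle
    have h2 : Real.exp E' ≤ Real.exp (4 * C) * Real.exp ((n : ℝ) * β p - C) := by
      rw [← Real.exp_add]
      exact Real.exp_le_exp.mpr (by linarith)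
    have h3 : 0 < Real.exp ((n : ℝ) * β p - C) := Real.exp_pos _
    have h4 : x * Real.exp ((n : ℝ) * β p - C) ≤
        (2 * (d + 1) * Real.exp (4 * C)) * Real.exp ((n : ℝ) * β p - C) := by
      calc x * Real.exp ((n : ℝ) * β p - C) ≤ 2 * c * Real.exp E' := h1
        _ ≤ 2 * (d + 1) * (Real.exp (4 * C) * Real.exp ((n : ℝ) * β p - C)) := by
            apply mul_le_mul _ h2 (Real.exp_pos _).le (by positivity)
            linarith
        _ = _ := by ring
    exact le_of_mul_le_mul_right h4 h3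
  refine ⟨S, ?_, ?_⟩
  · intro i j hij hjn
    rcases Nat.eq_zero_or_pos p with hp0 | hp0
    · rw [hS0 hp0]
      simp only [ContinuousLinearMap.zero_comp, ContinuousLinearMap.comp_zero, norm_zero]
      positivity
    obtain ⟨q, rfl⟩ : ∃ q, p = q + 1 := ⟨p - 1, by omega⟩
    have h0n : Φ 0 n = (Φ j n).comp ((Φ i j).comp (Φ 0 i)) := by
      rw [htr 0 i j (Nat.zero_le _) hij.le hjn, htr 0 j n (Nat.zero_le _) hjn le_rfl]
    have h1 := hS1 (Φ 0 i) (Φ i j) (Φ j n) h0n q rfl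
    refine hfin _ ((q + 1 : ℕ) : ℝ) (((i : ℝ) - 0) * β (q + 1) + C + (((j : ℝ) - i) * β q + C) +
      (((n : ℝ) - j) * β (q + 1) + C)) (norm_nonneg _) (by positivity) ?_ ?_ (h1.trans ?_)
    · push_cast
      have : ((q + 1 : ℕ) : ℝ) ≤ d := by exact_mod_cast hp
      push_cast at this
      linarith
    · have h2 := hmax q (by omega)
      have h3 : (i : ℝ) ≤ j := by exact_mod_cast hij.le
      nlinarith
    · rw [Real.exp_add, Real.exp_add]
      have n1 := hup (q + 1) hp 0 i (Nat.zero_le _) (by omega)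
      have n2 := hup q (by omega) i j hij.le hjn
      have n3 := hup (q + 1) hp j n hjn le_rfl
      have := pn_nonneg (q + 1) (Φ 0 i)
      have := pn_nonneg q (Φ i j)
      have := pn_nonneg (q + 1) (Φ j n)
      push_cast at n1 ⊢
      gcongr
  · intro i j hji hin
    have hjn : j ≤ n := hji.trans hin
    have h1 := hS2 (Φ 0 j) (Φ j i) (Φ i n) (Φ 0 i) (Φ j n)
      (htr 0 j i (Nat.zero_le _) hji hin).symm (htr j i n hji hin le_rfl).symm
      (htr 0 i n (Nat.zero_le _) hin le_rfl).symm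
    by_cases hpd : p + 1 ≤ d
    · refine hfin _ ((p : ℝ) + 1) (((j : ℝ) - 0) * β p + C + (((i : ℝ) - j) * β (p + 1) + C) +
        (((n : ℝ) - i) * β p + C)) (norm_nonneg _) (by positivity) ?_ ?_ (h1.trans ?_)
      · have : (p : ℝ) ≤ d := by exact_mod_cast hp
        linarith
      · have h2 := hmax (p + 1) hpd
        have h3 : (j : ℝ) ≤ i := by exact_mod_cast hji
        nlinarith
      · rw [Real.exp_add, Real.exp_add]
        have n1 := hup p hp 0 j (Nat.zero_le _) hjn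
        have n2 := hup (p + 1) hpd j i hji hin
        have n3 := hup p hp i n hin le_rfl
        have := pn_nonneg p (Φ 0 j)
        have := pn_nonneg (p + 1) (Φ j i)
        have := pn_nonneg p (Φ i n)
        push_cast at n1 ⊢
        gcongr
    · have h2 : pn (p + 1) (Φ j i) = 0 := pn_eq_zero (by omega) _
      rw [h2, mul_zero, zero_mul, mul_zero] at h1
      have h3 : ‖Φ j i - (Φ 0 i).comp (S.comp (Φ j n))‖ ≤ 0 := by
        by_contra h4
        have h5 := hpos p hp 0 n (Nat.zero_le _) le_rfl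
        have := mul_pos (not_le.mp h4) h5
        linarith
      exact h3.trans (by positivity)

/-- **Linear lemma L1** for products `Phi A i j`. -/
theorem L1 (n : ℕ) (A : ℕ → E →L[ℝ] E) (β : ℕ → ℝ) (C : ℝ)
    (hpos : ∀ p ≤ Module.finrank ℝ E, ∀ i j, i ≤ j → j ≤ n → 0 < pn p (Phi A i j))
    (hlin : ∀ p ≤ Module.finrank ℝ E, ∀ i j, i ≤ j → j ≤ n →
      |Real.log (pn p (Phi A i j)) - ((j : ℝ) - i) * β p| ≤ C) :
    ∃ S : E →L[ℝ] E,
      (∀ i j, i < j → j ≤ n → ‖(Phi A 0 i).comp (S.comp (Phi A j n))‖ ≤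
        2 * (Module.finrank ℝ E + 1) * Real.exp (4 * C)) ∧
      (∀ i j, j ≤ i → i ≤ n → ‖Phi A j i - (Phi A 0 i).comp (S.comp (Phi A j n))‖ ≤
        2 * (Module.finrank ℝ E + 1) * Real.exp (4 * C)) :=
  L1_abs n (Phi A) (fun _ _ _ hij hjk _ => Phi_trans A hij hjk) β C hpos hlin

/-- a left inverse of `Phi A i j` from left inverses of the factors. -/
lemma exists_inv_Phi (A B : ℕ → E →L[ℝ] E) (i : ℕ) (k : ℕ)
    (h : ∀ l, i ≤ l → l < i + k → (B l).comp (A l) = ContinuousLinearMap.id ℝ E) :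
    ∃ Q : E →L[ℝ] E, Q.comp (Phi A i (i + k)) = ContinuousLinearMap.id ℝ E ∧
      ∀ D : ℝ, (∀ l, i ≤ l → l < i + k → ‖B l‖ ≤ Real.exp D) → ‖Q‖ ≤ Real.exp (k * D) := by
  induction k with
  | zero =>
    refine ⟨ContinuousLinearMap.id ℝ E, ?_, fun D _ => ?_⟩
    · rw [Nat.add_zero, Phi_self]; rfl
    · simpa using ContinuousLinearMap.norm_id_le (𝕜 := ℝ) (E := E)
  | succ k ih =>
    obtain ⟨Q, hQ1, hQ2⟩ := ih (fun l h1 h2 => h l h1 (by omega))
    refine ⟨Q.comp (B (i + k)), ?_, fun D hD => ?_⟩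
    · rw [← Nat.add_assoc, Phi_succ A (by omega : i ≤ i + k), ContinuousLinearMap.comp_assoc,
        ← ContinuousLinearMap.comp_assoc (B (i + k)) (A (i + k)), h (i + k) (by omega) (by omega)]
      exact hQ1
    · have h1 := hQ2 D (fun l h1 h2 => hD l h1 (by omega))
      have h2 := hD (i + k) (by omega) (by omega)
      refine (ContinuousLinearMap.opNorm_comp_le _ _).trans ?_
      calc ‖Q‖ * ‖B (i + k)‖ ≤ Real.exp (k * D) * Real.exp D :=
            mul_le_mul h1 h2 (norm_nonneg _) (Real.exp_pos _).le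
        _ = Real.exp (((k + 1 : ℕ) : ℝ) * D) := by
            rw [← Real.exp_add]; congr 1; push_cast; ring

lemma norm_Phi_le (A : ℕ → E →L[ℝ] E) (i : ℕ) (k : ℕ) (D : ℝ)
    (h : ∀ l, i ≤ l → l < i + k → ‖A l‖ ≤ Real.exp D) :
    ‖Phi A i (i + k)‖ ≤ Real.exp (k * D) := by
  induction k with
  | zero => simpa using ContinuousLinearMap.norm_id_le (𝕜 := ℝ) (E := E)
  | succ k ih =>
    rw [← Nat.add_assoc, Phi_succ A (by omega : i ≤ i + k)]
    refine (ContinuousLinearMap.opNorm_comp_le _ _).trans ?_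
    calc ‖A (i + k)‖ * ‖Phi A i (i + k)‖ ≤ Real.exp D * Real.exp (k * D) :=
          mul_le_mul (h _ (by omega) (by omega)) (ih fun l h1 h2 => h l h1 (by omega))
            (norm_nonneg _) (Real.exp_pos _).le
      _ = Real.exp (((k + 1 : ℕ) : ℝ) * D) := by
          rw [← Real.exp_add]; congr 1; push_cast; ring

lemma pn_Phi_pos {p : ℕ} (hp : p ≤ Module.finrank ℝ E) (A B : ℕ → E →L[ℝ] E) {i j : ℕ}
    (hij : i ≤ j) (h : ∀ l, i ≤ l → l < j → (B l).comp (A l) = ContinuousLinearMap.id ℝ E) :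
    0 < pn p (Phi A i j) := by
  obtain ⟨k, rfl⟩ := Nat.exists_eq_add_of_le hij
  obtain ⟨Q, hQ, _⟩ := exists_inv_Phi A B i k h
  exact pn_pos hp Q _ hQ

/-- `|log |Phi(i,i+k)|_p| ≤ p k D`. -/
lemma abs_log_pn_Phi_le {p : ℕ} (hp : p ≤ Module.finrank ℝ E) (A B : ℕ → E →L[ℝ] E) (i k : ℕ)
    (D : ℝ) (h : ∀ l, i ≤ l → l < i + k → (B l).comp (A l) = ContinuousLinearMap.id ℝ E)
    (hA : ∀ l, i ≤ l → l < i + k → ‖A l‖ ≤ Real.exp D)
    (hB : ∀ l, i ≤ l → l < i + k → ‖B l‖ ≤ Real.exp D) :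
    |Real.log (pn p (Phi A i (i + k)))| ≤ p * (k * D) := by
  obtain ⟨Q, hQ, hQ2⟩ := exists_inv_Phi A B i k h
  exact abs_log_pn_le hp Q _ hQ (norm_Phi_le A i k D hA) (hQ2 D hB)

/-- submultiplicativity in logarithmic form. -/
lemma log_pn_Phi_le_add {p : ℕ} (A : ℕ → E →L[ℝ] E) {i j k : ℕ} (hij : i ≤ j) (hjk : j ≤ k)
    (h1 : 0 < pn p (Phi A i j)) (h2 : 0 < pn p (Phi A j k)) (h3 : 0 < pn p (Phi A i k)) :
    Real.log (pn p (Phi A i k)) ≤ Real.log (pn p (Phi A i j)) + Real.log (pn p (Phi A j k)) := by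
  rw [← Real.log_mul h1.ne' h2.ne', mul_comm]
  refine Real.log_le_log h3 ?_
  rw [← Phi_trans A hij hjk]
  exact pn_comp_le p _ _

end FinDim

end

end Crest.Agent.R133
end

-- ▼ part R133/StabDet
section

/-!
Row 133 (S0182), section 6, deterministic part (helper823): a subadditive cocycle along one orbit
which is almost additive on the scale `t` satisfies `LIN`.
-/

set_option autoImplicit false

namespace Crest.Agent.R133.Stab

/-- Upper bound of `u i ((j-i) t)` by the sum of blocks. `u i m` = value of the cocycle of length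
`m` started at time `i`. -/
theorem block_upper (u : ℕ → ℕ → ℝ) (t : ℕ)
    (hsub : ∀ i m k, u i (m + k) ≤ u i m + u (i + m) k) (h0 : ∀ i, u i 0 ≤ 0) (i q : ℕ) :
    u (i * t) (q * t) ≤ ∑ l ∈ Finset.range q, u ((i + l) * t) t := by
  induction q with
  | zero => simpa using h0 (i * t)
  | succ q ih =>
    rw [Finset.sum_range_succ, Nat.succ_mul]
    refine (hsub _ _ _).trans ?_
    have : i * t + q * t = (i + q) * t := by ring
    rw [this]
    linarith

/-- the deterministic linearity lemma. -/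
theorem lin_det (u : ℕ → ℕ → ℝ) (t J : ℕ) (ht : 1 ≤ t) (hJ : 1 ≤ J) (c τ : ℝ) (hc : 0 ≤ c)
    (hsub : ∀ i m k, u i (m + k) ≤ u i m + u (i + m) k)
    (hbd : ∀ i m, |u i m| ≤ c * m)
    (β : ℝ) (hβ : β * t * J = ∑ l ∈ Finset.range J, u (l * t) t)
    (h1 : ∑ l ∈ Finset.range J, |u (l * t) t - β * t| ≤ τ * t)
    (h2 : ∑ l ∈ Finset.range J, u (l * t) t - u 0 (J * t) ≤ τ * t)
    (k k' : ℕ) (hk : k ≤ k') (hk' : k' ≤ J * t) :
    |u k (k' - k) - ((k' : ℝ) - k) * β| ≤ (2 * τ + 4 * c) * t := by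
  have h0 : ∀ i, u i 0 ≤ 0 := by
    intro i
    have := hbd i 0
    simp at this
    exact this.le
  have htR : (1 : ℝ) ≤ t := by exact_mod_cast ht
  have htpos : (0 : ℝ) < t := by linarith
  have hJpos : (0 : ℝ) < J := by exact_mod_cast hJ
  have hτ : 0 ≤ τ * t := le_trans (Finset.sum_nonneg fun l _ => abs_nonneg _) h1
  -- |β| ≤ c
  have hβc : |β| ≤ c := by
    have h3 : |β * t * J| ≤ c * t * J := by
      rw [hβ]
      calc |∑ l ∈ Finset.range J, u (l * t) t| ≤ ∑ l ∈ Finset.range J, |u (l * t) t| :=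
            Finset.abs_sum_le_sum_abs _ _
        _ ≤ ∑ l ∈ Finset.range J, c * t := Finset.sum_le_sum fun l _ => hbd _ _
        _ = c * t * J := by rw [Finset.sum_const, Finset.card_range, nsmul_eq_mul]; ring
    rw [abs_mul, abs_mul, abs_of_pos htpos, abs_of_pos hJpos] at h3
    have h4 : |β| * (t * J) ≤ c * (t * J) := by linarith
    exact le_of_mul_le_mul_right h4 (by positivity)
  have hβ1 := (abs_le.1 hβc).1
  have hβ2 := (abs_le.1 hβc).2
  -- sums over sub-blocks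
  have hpart : ∀ i q, i + q ≤ J → |∑ l ∈ Finset.range q, (u ((i + l) * t) t - β * t)| ≤ τ * t := by
    intro i q hiq
    refine (Finset.abs_sum_le_sum_abs _ _).trans (le_trans ?_ h1)
    have : ∑ l ∈ Finset.range q, |u ((i + l) * t) t - β * t| =
        ∑ l ∈ Finset.Ico i (i + q), |u (l * t) t - β * t| := by
      rw [Finset.sum_Ico_eq_sum_range]
      simp
    rw [this]
    apply Finset.sum_le_sum_of_subset_of_nonneg
    · intro l hl
      rw [Finset.mem_Ico] at hl
      rw [Finset.mem_range]; omega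
    · intro l _ _; exact abs_nonneg _
  have hpart' : ∀ i q, i + q ≤ J →
      |∑ l ∈ Finset.range q, u ((i + l) * t) t - q * (β * t)| ≤ τ * t := by
    intro i q hiq
    have := hpart i q hiq
    rw [Finset.sum_sub_distrib, Finset.sum_const, Finset.card_range, nsmul_eq_mul] at this
    exact this
  -- block upper bound
  have hU : ∀ i q, i + q ≤ J → u (i * t) (q * t) ≤ q * (β * t) + τ * t := by
    intro i q hiq
    have h3 := block_upper u t hsub h0 i q
    have h4 := (abs_le.1 (hpart' i q hiq)).2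
    linarith
  -- block lower bound
  have hL : ∀ i q, i + q ≤ J → q * (β * t) - 2 * (τ * t) ≤ u (i * t) (q * t) := by
    intro i q hiq
    obtain ⟨r, hr⟩ := Nat.exists_eq_add_of_le hiq
    have h3 : u 0 (J * t) ≤ u 0 (i * t) + u (i * t) (q * t) + u ((i + q) * t) (r * t) := by
      have e1 : J * t = i * t + (q * t + r * t) := by rw [hr]; ring
      rw [e1]
      have h4 := hsub 0 (i * t) (q * t + r * t)
      have h5 := hsub (i * t) (q * t) (r * t)
      rw [zero_add] at h4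
      have e2 : i * t + q * t = (i + q) * t := by ring
      rw [e2] at h5
      linarith
    have h4 : u 0 (i * t) ≤ ∑ l ∈ Finset.range i, u (l * t) t := by
      have := block_upper u t hsub h0 0 i
      simpa using this
    have h5 : u ((i + q) * t) (r * t) ≤ ∑ l ∈ Finset.range r, u ((i + q + l) * t) t :=
      block_upper u t hsub h0 (i + q) r
    have h6 : ∑ l ∈ Finset.range J, u (l * t) t = ∑ l ∈ Finset.range i, u (l * t) t +
        ∑ l ∈ Finset.range q, u ((i + l) * t) t + ∑ l ∈ Finset.range r, u ((i + q + l) * t) t := by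
      rw [hr, Finset.sum_range_add, Finset.sum_range_add]
    have h7 := (abs_le.1 (hpart' i q hiq)).1
    linarith
  -- arithmetic of k, k'
  set i := k / t with hi
  set j := k' / t with hj
  have htp : 0 < t := ht
  have hi1 : i * t ≤ k := Nat.div_mul_le_self k t
  have hi2 : k < i * t + t := by
    have := Nat.lt_div_mul_add htp (a := k)
    simpa [hi] using this
  have hj1 : j * t ≤ k' := Nat.div_mul_le_self k' t
  have hj2 : k' < j * t + t := by
    have := Nat.lt_div_mul_add htp (a := k')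
    simpa [hj] using this
  have hij : i ≤ j := Nat.div_le_div_right hk
  have hjJ : j ≤ J := by
    rw [hj]; exact Nat.div_le_of_le_mul (by rw [mul_comm]; exact hk')
  have hkR : (k : ℝ) ≤ k' := by exact_mod_cast hk
  have hi1R : (i : ℝ) * t ≤ k := by exact_mod_cast hi1
  have hi2R : (k : ℝ) < i * t + t := by exact_mod_cast hi2
  have hj1R : (j : ℝ) * t ≤ k' := by exact_mod_cast hj1
  have hj2R : (k' : ℝ) < j * t + t := by exact_mod_cast hj2
  have hct : 0 ≤ c * t := by positivity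
  rw [abs_le]
  constructor
  · -- lower bound
    -- choose j0 = ceil
    obtain ⟨j0, hj0J, hj0a, hj0b⟩ : ∃ j0, j0 ≤ J ∧ k' ≤ j0 * t ∧ j0 * t ≤ k' + t := by
      by_cases h : k' = j * t
      · exact ⟨j, hjJ, h.le, by omega⟩
      · have h3 : j * t < k' := lt_of_le_of_ne hj1 (Ne.symm h)
        refine ⟨j + 1, ?_, ?_, ?_⟩
        · by_contra hcon
          have h4 : J ≤ j := by omega
          have h5 : J * t ≤ j * t := Nat.mul_le_mul_right t h4
          omega
        · rw [Nat.add_mul, one_mul]; omega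
        · rw [Nat.add_mul, one_mul]; omega
    have hij0 : i ≤ j0 := by
      by_contra hcon
      have h4 : j0 + 1 ≤ i := by omega
      have h5 : (j0 + 1) * t ≤ i * t := Nat.mul_le_mul_right t h4
      rw [Nat.add_mul, one_mul] at h5
      omega
    obtain ⟨q, hq⟩ := Nat.exists_eq_add_of_le hij0
    have h3 := hL i q (by omega)
    have hqt : i * t + q * t = j0 * t := by rw [hq]; ring
    -- decompose q*t = (k - i t) + (k' - k) + (j0 t - k')
    have e1 : q * t = (k - i * t) + ((k' - k) + (j0 * t - k')) := by omega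
    have h4 : u (i * t) (q * t) ≤ u (i * t) (k - i * t) + (u k (k' - k) + u k' (j0 * t - k')) := by
      rw [e1]
      have h5 := hsub (i * t) (k - i * t) ((k' - k) + (j0 * t - k'))
      have h6 := hsub k (k' - k) (j0 * t - k')
      have e2 : i * t + (k - i * t) = k := by omega
      have e3 : k + (k' - k) = k' := by omega
      rw [e2] at h5
      rw [e3] at h6
      linarith
    have h5 := (abs_le.1 (hbd (i * t) (k - i * t))).2
    have h6 := (abs_le.1 (hbd k' (j0 * t - k'))).2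
    have h7 : ((k - i * t : ℕ) : ℝ) ≤ t := by
      have : k - i * t ≤ t := by omega
      exact_mod_cast this
    have h8 : ((j0 * t - k' : ℕ) : ℝ) ≤ t := by
      have : j0 * t - k' ≤ t := by omega
      exact_mod_cast this
    have h9 : c * ((k - i * t : ℕ) : ℝ) ≤ c * t := mul_le_mul_of_nonneg_left h7 hc
    have h10 : c * ((j0 * t - k' : ℕ) : ℝ) ≤ c * t := mul_le_mul_of_nonneg_left h8 hc
    -- compare q t β with (k'-k) β
    have hqR : (i : ℝ) * t + q * t = j0 * t := by exact_mod_cast hqt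
    have hj0aR : (k' : ℝ) ≤ j0 * t := by exact_mod_cast hj0a
    have hj0bR : (j0 : ℝ) * t ≤ k' + t := by exact_mod_cast hj0b
    have h11 : 0 ≤ (q : ℝ) * t - (k' - k) := by linarith
    have h12 : (q : ℝ) * t - (k' - k) ≤ 2 * t := by linarith
    have h13 : -(c * (2 * t)) ≤ ((q : ℝ) * t - (k' - k)) * β := by
      have : -(((q : ℝ) * t - (k' - k)) * c) ≤ ((q : ℝ) * t - (k' - k)) * β := by
        have h15 := mul_nonneg h11 (by linarith : 0 ≤ β + c)
        rw [mul_add] at h15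
        linarith
      have h14 : ((q : ℝ) * t - (k' - k)) * c ≤ (2 * t) * c := mul_le_mul_of_nonneg_right h12 hc
      linarith
    linarith
  · -- upper bound
    -- choose i0 = ceil (k/t)
    obtain ⟨i0, hi0a, hi0b⟩ : ∃ i0, k ≤ i0 * t ∧ i0 * t < k + t := by
      by_cases h : k = i * t
      · exact ⟨i, h.le, by omega⟩
      · have h3 : i * t < k := lt_of_le_of_ne hi1 (Ne.symm h)
        refine ⟨i + 1, ?_, ?_⟩
        · rw [Nat.add_mul, one_mul]; omega
        · rw [Nat.add_mul, one_mul]; omega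
    by_cases hcase : i0 ≤ j
    · obtain ⟨q, hq⟩ := Nat.exists_eq_add_of_le hcase
      have h3 := hU i0 q (by omega)
      have hqt : i0 * t + q * t = j * t := by rw [hq]; ring
      have e1 : k' - k = (i0 * t - k) + (q * t + (k' - j * t)) := by omega
      have h4 : u k (k' - k) ≤ u k (i0 * t - k) + (u (i0 * t) (q * t) + u (j * t) (k' - j * t)) := by
        rw [e1]
        have h5 := hsub k (i0 * t - k) (q * t + (k' - j * t))
        have h6 := hsub (i0 * t) (q * t) (k' - j * t)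
        have e2 : k + (i0 * t - k) = i0 * t := by omega
        rw [e2] at h5
        rw [hqt] at h6
        linarith
      have h5 := (abs_le.1 (hbd k (i0 * t - k))).2
      have h6 := (abs_le.1 (hbd (j * t) (k' - j * t))).2
      have h7 : ((i0 * t - k : ℕ) : ℝ) ≤ t := by
        have : i0 * t - k ≤ t := by omega
        exact_mod_cast this
      have h8 : ((k' - j * t : ℕ) : ℝ) ≤ t := by
        have : k' - j * t ≤ t := by omega
        exact_mod_cast this
      have h9 : c * ((i0 * t - k : ℕ) : ℝ) ≤ c * t := mul_le_mul_of_nonneg_left h7 hc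
      have h10 : c * ((k' - j * t : ℕ) : ℝ) ≤ c * t := mul_le_mul_of_nonneg_left h8 hc
      have hqR : (i0 : ℝ) * t + q * t = j * t := by exact_mod_cast hqt
      have hi0aR : (k : ℝ) ≤ i0 * t := by exact_mod_cast hi0a
      have hi0bR : (i0 : ℝ) * t < k + t := by exact_mod_cast hi0b
      have h11 : 0 ≤ ((k' : ℝ) - k) - q * t := by linarith
      have h12 : ((k' : ℝ) - k) - q * t ≤ 2 * t := by linarith
      have h13 : -(c * (2 * t)) ≤ (((k' : ℝ) - k) - q * t) * β := by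
        have : -((((k' : ℝ) - k) - q * t) * c) ≤ (((k' : ℝ) - k) - q * t) * β := by
          have h15 := mul_nonneg h11 (by linarith : 0 ≤ β + c)
          rw [mul_add] at h15
          linarith
        have h14 : (((k' : ℝ) - k) - q * t) * c ≤ (2 * t) * c := mul_le_mul_of_nonneg_right h12 hc
        linarith
      linarith
    · have h3 : j + 1 ≤ i0 := by omega
      have h4 : (j + 1) * t ≤ i0 * t := Nat.mul_le_mul_right t h3
      rw [Nat.add_mul, one_mul] at h4
      have h5 : k' - k ≤ t := by omega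
      have h6 := (abs_le.1 (hbd k (k' - k))).2
      have h7 : ((k' - k : ℕ) : ℝ) ≤ t := by exact_mod_cast h5
      have h8 : c * ((k' - k : ℕ) : ℝ) ≤ c * t := mul_le_mul_of_nonneg_left h7 hc
      have h9 : ((k' - k : ℕ) : ℝ) = (k' : ℝ) - k := by
        rw [Nat.cast_sub hk]
      rw [h9] at h7 h8
      have h10 : 0 ≤ (k' : ℝ) - k := by linarith
      have h11 : -(c * t) ≤ ((k' : ℝ) - k) * β := by
        have : -(((k' : ℝ) - k) * c) ≤ ((k' : ℝ) - k) * β := by
          have h15 := mul_nonneg h10 (by linarith : 0 ≤ β + c)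
          rw [mul_add] at h15
          linarith
        linarith
      rw [h9] at h6
      linarith

end Crest.Agent.R133.Stab
end

-- ▼ part R133/Stab
section

/-!
Row 133 (S0182), section 6 (STABILITY), helper823.  Abstract subadditive cocycles.

`Coc ν f a c`  : `a p n : Ω → ℝ` (`p` in a finite type `P`), measurable, `|a p n| ≤ c n`,
subadditive along the orbit (a.e.).
`Psi ν a c k = ∑ p, ∫ (a p k / k + c)^2`.
`LIN f a K C x` : there are `β p` with `|a p (k'-k) (f^[k] x) - (k'-k) β p| ≤ C`, `k ≤ k' ≤ K`.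
`LINs` : the same with `β p = a p K x / K` (a measurable set).
-/

set_option autoImplicit false
set_option linter.unusedSectionVars false
set_option linter.unusedVariables false
set_option linter.deprecated false

namespace Crest.Agent.R133.Stab

open MeasureTheory

variable {Ω : Type*} [MeasurableSpace Ω] {P : Type*} [Fintype P]

structure Coc (ν : Measure Ω) (f : Ω → Ω) (a : P → ℕ → Ω → ℝ) (c : ℝ) : Prop where
  meas : ∀ p n, Measurable (a p n)
  nonneg : 0 ≤ c
  bd : ∀ᵐ x ∂ν, ∀ p n, |a p n x| ≤ c * n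
  sub : ∀ᵐ x ∂ν, ∀ p m n, a p (m + n) x ≤ a p m x + a p n (f^[m] x)

/-- all conditions hold along the orbit of `x`. -/
def Good (f : Ω → Ω) (a : P → ℕ → Ω → ℝ) (c : ℝ) (x : Ω) : Prop :=
  ∀ i, (∀ p n, |a p n (f^[i] x)| ≤ c * n) ∧
    ∀ p m n, a p (m + n) (f^[i] x) ≤ a p m (f^[i] x) + a p n (f^[m] (f^[i] x))

noncomputable def Psi (ν : Measure Ω) (a : P → ℕ → Ω → ℝ) (c : ℝ) (k : ℕ) : ℝ :=
  ∑ p, ∫ x, (a p k x / k + c) ^ 2 ∂ν

def LIN (f : Ω → Ω) (a : P → ℕ → Ω → ℝ) (K : ℕ) (C : ℝ) (x : Ω) : Prop :=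
  ∃ β : P → ℝ, ∀ p k k', k ≤ k' → k' ≤ K →
    |a p (k' - k) (f^[k] x) - ((k' : ℝ) - k) * β p| ≤ C

def LINs (f : Ω → Ω) (a : P → ℕ → Ω → ℝ) (K : ℕ) (C : ℝ) (x : Ω) : Prop :=
  ∀ p k k', k ≤ k' → k' ≤ K →
    |a p (k' - k) (f^[k] x) - ((k' : ℝ) - k) * (a p K x / K)| ≤ C


/-- `LIN` on a window of length `L` gives `LINs` (constant doubled) on subwindows. -/
theorem LIN.window {f : Ω → Ω} {a : P → ℕ → Ω → ℝ} {L : ℕ} {C : ℝ} {x : Ω}
    (h : LIN f a L C x) (i K : ℕ) (hK : 1 ≤ K) (hi : i + K ≤ L) :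
    LINs f a K (2 * C) (f^[i] x) := by
  obtain ⟨β, hβ⟩ := h
  intro p k k' hk hk'
  have h1 := hβ p (i + k) (i + k') (by omega) (by omega)
  have h2 := hβ p i (i + K) (by omega) hi
  have e1 : i + k' - (i + k) = k' - k := by omega
  have e2 : i + K - i = K := by omega
  have e3 : f^[i + k] x = f^[k] (f^[i] x) := by
    rw [add_comm, Function.iterate_add_apply]
  rw [e1, e3] at h1
  rw [e2] at h2
  push_cast at h1 h2
  have hKR : (1 : ℝ) ≤ K := by exact_mod_cast hK
  have hKpos : (0 : ℝ) < K := by linarith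
  have hkR : (k : ℝ) ≤ k' := by exact_mod_cast hk
  have hk'R : (k' : ℝ) ≤ K := by exact_mod_cast hk'
  have hk0 : (0 : ℝ) ≤ k := Nat.cast_nonneg k
  set g := a p (k' - k) (f^[k] (f^[i] x)) with hg
  set G := a p K (f^[i] x) with hG
  have h3 : |g - ((k' : ℝ) - k) * β p| ≤ C := by
    have : ((i : ℝ) + k' - (i + k)) = (k' : ℝ) - k := by ring
    rwa [this] at h1
  have h4 : |G - K * β p| ≤ C := by
    have : ((i : ℝ) + K - i) = (K : ℝ) := by ring
    rwa [this] at h2
  have hC : 0 ≤ C := le_trans (abs_nonneg _) h4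
  have h5 : |((k' : ℝ) - k) * (G / K) - ((k' : ℝ) - k) * β p| ≤ C := by
    have e4 : ((k' : ℝ) - k) * (G / K) - ((k' : ℝ) - k) * β p =
        (((k' : ℝ) - k) / K) * (G - K * β p) := by
      field_simp
    rw [e4, abs_mul]
    have h6 : |((k' : ℝ) - k) / K| ≤ 1 := by
      rw [abs_of_nonneg (div_nonneg (by linarith) hKpos.le), div_le_one hKpos]
      linarith
    calc _ ≤ 1 * C := mul_le_mul h6 h4 (abs_nonneg _) zero_le_one
      _ = C := one_mul C
  have h6 : g - ((k' : ℝ) - k) * (G / K) =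
      (g - ((k' : ℝ) - k) * β p) - (((k' : ℝ) - k) * (G / K) - ((k' : ℝ) - k) * β p) := by ring
  rw [h6]
  calc _ ≤ |g - ((k' : ℝ) - k) * β p| + |((k' : ℝ) - k) * (G / K) - ((k' : ℝ) - k) * β p| :=
        abs_sub _ _
    _ ≤ C + C := add_le_add h3 h5
    _ = 2 * C := by ring

variable {ν : Measure Ω} {f : Ω → Ω} {a : P → ℕ → Ω → ℝ} {c : ℝ}

theorem measurableSet_LINs (hf : Measurable f) (ha : ∀ p n, Measurable (a p n)) (K : ℕ) (C : ℝ) :
    MeasurableSet {x | LINs f a K C x} := by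
  simp only [LINs, Set.setOf_forall]
  refine MeasurableSet.iInter fun p => MeasurableSet.iInter fun k => MeasurableSet.iInter fun k' =>
    MeasurableSet.iInter fun _ => MeasurableSet.iInter fun _ => ?_
  apply measurableSet_le _ measurable_const
  apply Measurable.abs
  apply Measurable.sub
  · exact (ha p _).comp (hf.iterate k)
  · exact ((ha p K).div_const _).const_mul _

theorem ae_good (hf : MeasurePreserving f ν ν) (h : Coc ν f a c) : ∀ᵐ x ∂ν, Good f a c x := by
  unfold Good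
  rw [ae_all_iff]
  intro i
  have h1 := (hf.iterate i).quasiMeasurePreserving.ae h.bd
  have h2 := (hf.iterate i).quasiMeasurePreserving.ae h.sub
  filter_upwards [h1, h2] with x hx1 hx2
  exact ⟨hx1, hx2⟩

section blocks
variable (f a c)

noncomputable def bl (t : ℕ) (p : P) (l : ℕ) (x : Ω) : ℝ := a p t (f^[l * t] x) / t + c
noncomputable def bbar (t J : ℕ) (p : P) (x : Ω) : ℝ :=
  (∑ l ∈ Finset.range J, bl f a c t p l x) / J
noncomputable def BB (t J : ℕ) (p : P) (x : Ω) : ℝ := a p (J * t) x / ((J * t : ℕ) : ℝ) + c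
noncomputable def GG (t J : ℕ) (p : P) (x : Ω) : ℝ :=
  (∑ l ∈ Finset.range J, (bl f a c t p l x - bbar f a c t J p x) ^ 2) / J +
    (bbar f a c t J p x - BB a c t J p x) ^ 2

end blocks



theorem meas_bl (hf : Measurable f) (ha : ∀ p n, Measurable (a p n)) (t : ℕ) (p : P) (l : ℕ) :
    Measurable (bl f a c t p l) :=
  (((ha p t).comp (hf.iterate _)).div_const _).add_const _

theorem meas_bbar (hf : Measurable f) (ha : ∀ p n, Measurable (a p n)) (t J : ℕ) (p : P) :
    Measurable (bbar f a c t J p) :=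
  (Finset.measurable_fun_sum _ fun l _ => meas_bl hf ha t p l).div_const _

theorem meas_BB (ha : ∀ p n, Measurable (a p n)) (t J : ℕ) (p : P) :
    Measurable (BB a c t J p) := ((ha p _).div_const _).add_const _

theorem meas_GG (hf : Measurable f) (ha : ∀ p n, Measurable (a p n)) (t J : ℕ) (p : P) :
    Measurable (GG f a c t J p) := by
  apply Measurable.add
  · exact (Finset.measurable_fun_sum _ fun l _ =>
      ((meas_bl hf ha t p l).sub (meas_bbar hf ha t J p)).pow_const 2).div_const _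
  · exact ((meas_bbar hf ha t J p).sub (meas_BB ha t J p)).pow_const 2

theorem GG_nonneg (t J : ℕ) (p : P) (x : Ω) : 0 ≤ GG f a c t J p x :=
  add_nonneg (div_nonneg (Finset.sum_nonneg fun _ _ => sq_nonneg _) (Nat.cast_nonneg J))
    (sq_nonneg _)

theorem bl_bounds {x : Ω} (hx : Good f a c x) (hc : 0 ≤ c) {t : ℕ} (ht : 1 ≤ t) (p : P) (l : ℕ) :
    0 ≤ bl f a c t p l x ∧ bl f a c t p l x ≤ 2 * c := by
  have htR : (0 : ℝ) < t := by exact_mod_cast ht
  have h1 := (hx (l * t)).1 p t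
  rw [abs_le] at h1
  have h2 : -c ≤ a p t (f^[l * t] x) / t := by
    rw [le_div_iff₀ htR]; linarith [h1.1]
  have h3 : a p t (f^[l * t] x) / t ≤ c := by
    rw [div_le_iff₀ htR]; linarith [h1.2]
  unfold bl
  constructor <;> linarith

theorem BB_bounds {x : Ω} (hx : Good f a c x) (hc : 0 ≤ c) {t J : ℕ} (ht : 1 ≤ t) (hJ : 1 ≤ J)
    (p : P) : 0 ≤ BB a c t J p x ∧ BB a c t J p x ≤ 2 * c := by
  have hN : 1 ≤ J * t := Nat.mul_pos hJ ht
  have htR : (0 : ℝ) < ((J * t : ℕ) : ℝ) := by exact_mod_cast hN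
  have h1 := (hx 0).1 p (J * t)
  rw [abs_le] at h1
  simp only [Function.iterate_zero, id_eq] at h1
  have h2 : -c ≤ a p (J * t) x / ((J * t : ℕ) : ℝ) := by
    rw [le_div_iff₀ htR]; linarith [h1.1]
  have h3 : a p (J * t) x / ((J * t : ℕ) : ℝ) ≤ c := by
    rw [div_le_iff₀ htR]; linarith [h1.2]
  unfold BB
  constructor <;> linarith

theorem good_block {x : Ω} (hx : Good f a c x) (t : ℕ) (p : P) (J : ℕ) :
    a p (J * t) x ≤ ∑ l ∈ Finset.range J, a p t (f^[l * t] x) := by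
  have h := block_upper (fun i m => a p m (f^[i] x)) t ?_ ?_ 0 J
  · simpa using h
  · intro i m k
    have h1 := (hx i).2 p m k
    have e : f^[m] (f^[i] x) = f^[i + m] x := by
      rw [add_comm, Function.iterate_add_apply]
    rwa [e] at h1
  · intro i
    have h1 := (hx i).1 p 0
    simp only [Nat.cast_zero, mul_zero] at h1
    exact (abs_nonpos_iff.1 h1).le

theorem BB_le_bbar {x : Ω} (hx : Good f a c x) {t J : ℕ} (ht : 1 ≤ t) (hJ : 1 ≤ J) (p : P) :
    BB a c t J p x ≤ bbar f a c t J p x := by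
  have htR : (0 : ℝ) < t := by exact_mod_cast ht
  have hJR : (0 : ℝ) < J := by exact_mod_cast hJ
  have h1 := good_block hx t p J
  have h2 : bbar f a c t J p x = (∑ l ∈ Finset.range J, a p t (f^[l * t] x)) / (J * t) + c := by
    unfold bbar bl
    rw [Finset.sum_add_distrib, Finset.sum_const, Finset.card_range, nsmul_eq_mul, add_div,
      mul_div_cancel_left₀ _ hJR.ne', ← Finset.sum_div, div_div, mul_comm (t : ℝ)]
  rw [h2]
  unfold BB
  push_cast
  have h3 : a p (J * t) x / (J * t) ≤ (∑ l ∈ Finset.range J, a p t (f^[l * t] x)) / (J * t) :=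
    div_le_div_of_nonneg_right h1 (by positivity)
  linarith

theorem sum_sq_dev (J : ℕ) (hJ : 1 ≤ J) (b : ℕ → ℝ) :
    (∑ l ∈ Finset.range J, (b l - (∑ l ∈ Finset.range J, b l) / J) ^ 2) / J =
      (∑ l ∈ Finset.range J, (b l) ^ 2) / J - ((∑ l ∈ Finset.range J, b l) / J) ^ 2 := by
  have hJR : (J : ℝ) ≠ 0 := by
    have : (0 : ℝ) < J := by exact_mod_cast hJ
    exact this.ne'
  set m := (∑ l ∈ Finset.range J, b l) / J with hm
  have h1 : ∑ l ∈ Finset.range J, b l = J * m := by rw [hm]; field_simp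
  have h2 : ∑ l ∈ Finset.range J, (b l - m) ^ 2 =
      ∑ l ∈ Finset.range J, (b l) ^ 2 - 2 * m * ∑ l ∈ Finset.range J, b l + J * m ^ 2 := by
    rw [Finset.mul_sum, ← Finset.sum_sub_distrib]
    have : (J : ℝ) * m ^ 2 = ∑ l ∈ Finset.range J, m ^ 2 := by
      rw [Finset.sum_const, Finset.card_range, nsmul_eq_mul]
    rw [this, ← Finset.sum_add_distrib]
    refine Finset.sum_congr rfl fun l _ => by ring
  rw [h2, h1]
  field_simp
  ring

theorem GG_le {x : Ω} (hx : Good f a c x) (hc : 0 ≤ c) {t J : ℕ} (ht : 1 ≤ t) (hJ : 1 ≤ J)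
    (p : P) : GG f a c t J p x ≤
      (∑ l ∈ Finset.range J, (bl f a c t p l x) ^ 2) / J - (BB a c t J p x) ^ 2 := by
  have h1 := sum_sq_dev J hJ (fun l => bl f a c t p l x)
  have h2 := BB_le_bbar hx ht hJ p
  have h3 := (BB_bounds hx hc ht hJ p).1
  unfold GG
  have h4 : (∑ l ∈ Finset.range J, (bl f a c t p l x - bbar f a c t J p x) ^ 2) / J =
      (∑ l ∈ Finset.range J, (bl f a c t p l x) ^ 2) / J - (bbar f a c t J p x) ^ 2 := h1
  rw [h4]
  nlinarith [mul_nonneg h3 (sub_nonneg.2 h2)]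

section integ
variable [IsProbabilityMeasure ν]

theorem integrable_of_bd {g : Ω → ℝ} (hg : Measurable g) {C : ℝ} (h : ∀ᵐ x ∂ν, |g x| ≤ C) :
    Integrable g ν :=
  Integrable.of_bound hg.aestronglyMeasurable C (by simpa [Real.norm_eq_abs] using h)

theorem integrable_bl_sq (hf : MeasurePreserving f ν ν) (h : Coc ν f a c) {t : ℕ} (ht : 1 ≤ t)
    (p : P) (l : ℕ) : Integrable (fun x => (bl f a c t p l x) ^ 2) ν := by
  apply integrable_of_bd (C := (2 * c) ^ 2) ((meas_bl hf.measurable h.meas t p l).pow_const 2)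
  filter_upwards [ae_good hf h] with x hx
  have h1 := bl_bounds hx h.nonneg ht p l
  rw [abs_of_nonneg (sq_nonneg _)]
  exact pow_le_pow_left₀ h1.1 h1.2 2

theorem integrable_BB_sq (hf : MeasurePreserving f ν ν) (h : Coc ν f a c) {t J : ℕ} (ht : 1 ≤ t)
    (hJ : 1 ≤ J) (p : P) : Integrable (fun x => (BB a c t J p x) ^ 2) ν := by
  apply integrable_of_bd (C := (2 * c) ^ 2) ((meas_BB h.meas t J p).pow_const 2)
  filter_upwards [ae_good hf h] with x hx
  have h1 := BB_bounds hx h.nonneg ht hJ p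
  rw [abs_of_nonneg (sq_nonneg _)]
  exact pow_le_pow_left₀ h1.1 h1.2 2

theorem integrable_rhs (hf : MeasurePreserving f ν ν) (h : Coc ν f a c) {t J : ℕ} (ht : 1 ≤ t)
    (hJ : 1 ≤ J) (p : P) : Integrable (fun x =>
      (∑ l ∈ Finset.range J, (bl f a c t p l x) ^ 2) / J - (BB a c t J p x) ^ 2) ν :=
  ((integrable_finset_sum _ fun l _ => integrable_bl_sq hf h ht p l).div_const _).sub
    (integrable_BB_sq hf h ht hJ p)

theorem integrable_GG (hf : MeasurePreserving f ν ν) (h : Coc ν f a c) {t J : ℕ} (ht : 1 ≤ t)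
    (hJ : 1 ≤ J) (p : P) : Integrable (GG f a c t J p) ν := by
  refine Integrable.mono' (integrable_rhs hf h ht hJ p)
    (meas_GG hf.measurable h.meas t J p).aestronglyMeasurable ?_
  filter_upwards [ae_good hf h] with x hx
  rw [Real.norm_eq_abs, abs_of_nonneg (GG_nonneg t J p x)]
  exact GG_le hx h.nonneg ht hJ p

theorem integral_bl_sq (hf : MeasurePreserving f ν ν) (h : Coc ν f a c) (t : ℕ)
    (p : P) (l : ℕ) : ∫ x, (bl f a c t p l x) ^ 2 ∂ν = ∫ x, (a p t x / t + c) ^ 2 ∂ν := by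
  have h1 : ∀ x, (bl f a c t p l x) ^ 2 = (fun y => (a p t y / t + c) ^ 2) (f^[l * t] x) := by
    intro x; rfl
  have hm := hf.iterate (l * t)
  have h2 : AEStronglyMeasurable (fun y => (a p t y / t + c) ^ 2) (ν.map (f^[l * t])) :=
    ((((h.meas p t).div_const _).add_const _).pow_const 2).aestronglyMeasurable
  simp only [h1]
  rw [← integral_map hm.measurable.aemeasurable h2, hm.map_eq]

/-- LEMMA PSI. -/
theorem psi_lemma (hf : MeasurePreserving f ν ν) (h : Coc ν f a c) {t J : ℕ} (ht : 1 ≤ t)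
    (hJ : 1 ≤ J) : ∑ p, ∫ x, GG f a c t J p x ∂ν ≤ Psi ν a c t - Psi ν a c (J * t) := by
  unfold Psi
  rw [← Finset.sum_sub_distrib]
  apply Finset.sum_le_sum
  intro p _
  have hJR : (0 : ℝ) < J := by exact_mod_cast hJ
  calc ∫ x, GG f a c t J p x ∂ν ≤ ∫ x, ((∑ l ∈ Finset.range J, (bl f a c t p l x) ^ 2) / J -
        (BB a c t J p x) ^ 2) ∂ν := by
        apply integral_mono_ae (integrable_GG hf h ht hJ p) (integrable_rhs hf h ht hJ p)
        filter_upwards [ae_good hf h] with x hx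
        exact GG_le hx h.nonneg ht hJ p
    _ = (∑ l ∈ Finset.range J, ∫ x, (bl f a c t p l x) ^ 2 ∂ν) / J
        - ∫ x, (BB a c t J p x) ^ 2 ∂ν := by
        rw [integral_sub ((integrable_finset_sum _ fun l _ =>
          integrable_bl_sq hf h ht p l).div_const _) (integrable_BB_sq hf h ht hJ p),
          integral_div, integral_finset_sum _ fun l _ => integrable_bl_sq hf h ht p l]
    _ = ∫ x, (a p t x / t + c) ^ 2 ∂ν - ∫ x, (a p (J * t) x / ((J * t : ℕ) : ℝ) + c) ^ 2 ∂ν := by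
        simp only [integral_bl_sq hf h t p]
        rw [Finset.sum_const, Finset.card_range, nsmul_eq_mul, mul_div_cancel_left₀ _ hJR.ne']
        rfl

theorem psi_antitone (hf : MeasurePreserving f ν ν) (h : Coc ν f a c) {t J : ℕ} (ht : 1 ≤ t)
    (hJ : 1 ≤ J) : Psi ν a c (J * t) ≤ Psi ν a c t := by
  have h1 := psi_lemma hf h ht hJ
  have h2 : 0 ≤ ∑ p, ∫ x, GG f a c t J p x ∂ν :=
    Finset.sum_nonneg fun p _ => integral_nonneg fun x => GG_nonneg t J p x
  linarith

theorem psi_nonneg (k : ℕ) : 0 ≤ Psi ν a c k :=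
  Finset.sum_nonneg fun p _ => integral_nonneg fun x => sq_nonneg _

/-- The unstable stages are summable. -/
theorem summable_unstable (hf : MeasurePreserving f ν ν) (h : Coc ν f a c) (n t : ℕ → ℕ)
    (hn : ∀ s, 1 ≤ n s) (ht : ∀ s, 1 ≤ t s) (hdiv : ∀ s, 2 * n s * t s ∣ t (s + 1))
    (St : Set ℕ) (hSt : ∀ s, s ∉ St → 1 / (n s : ℝ) ^ 2 ≤
      Psi ν a c (t s) - Psi ν a c (2 * n s * t s)) :
    Summable (fun s => Set.indicator Stᶜ (fun s => 1 / (n s : ℝ) ^ 2) s) := by
  have hstep : ∀ s, Psi ν a c (t (s + 1)) ≤ Psi ν a c (2 * n s * t s) := by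
    intro s
    obtain ⟨q, hq⟩ := hdiv s
    have hq1 : 1 ≤ q := by
      by_contra hcon
      have : q = 0 := by omega
      rw [this, mul_zero] at hq
      have := ht (s + 1)
      omega
    have h1 : 1 ≤ 2 * n s * t s := Nat.mul_pos (Nat.mul_pos two_pos (hn s)) (ht s)
    have := psi_antitone hf h (t := 2 * n s * t s) (J := q) h1 hq1
    rw [hq, mul_comm]
    exact this
  apply summable_of_sum_range_le (c := Psi ν a c (t 0))
  · intro s
    apply Set.indicator_nonneg
    intro _ _; positivity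
  · intro S
    have h1 : ∀ s, Set.indicator Stᶜ (fun s => 1 / (n s : ℝ) ^ 2) s ≤
        Psi ν a c (t s) - Psi ν a c (t (s + 1)) := by
      intro s
      by_cases hs : s ∈ St
      · rw [Set.indicator_of_notMem (by simpa using hs)]
        have h2 := hstep s
        have h3 := psi_antitone hf h (t := t s) (J := 2 * n s) (ht s)
          (Nat.mul_pos two_pos (hn s))
        linarith
      · rw [Set.indicator_of_mem (by simpa using hs)]
        have h2 := hstep s
        have h3 := hSt s hs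
        linarith
    calc _ ≤ ∑ s ∈ Finset.range S, (Psi ν a c (t s) - Psi ν a c (t (s + 1))) :=
          Finset.sum_le_sum fun s _ => h1 s
      _ = Psi ν a c (t 0) - Psi ν a c (t S) := by
          rw [Finset.sum_range_sub']
      _ ≤ Psi ν a c (t 0) := by
          have := psi_nonneg (ν := ν) (a := a) (c := c) (t S)
          linarith

/-- The good event. -/
def GE (f : Ω → Ω) (a : P → ℕ → Ω → ℝ) (c : ℝ) (t J : ℕ) (τ : ℝ) : Set Ω :=
  {x | ∀ p, GG f a c t J p x < τ ^ 2 / J ^ 2}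


theorem measure_GE_compl (hf : MeasurePreserving f ν ν) (h : Coc ν f a c) {n t : ℕ} (ht : 1 ≤ t)
    (hn : 1 ≤ n) {τ eps : ℝ} (hτ : 0 < τ) (hτ2 : 4 * (Fintype.card P : ℝ) ≤ eps * τ ^ 2)
    (hst : Psi ν a c t - Psi ν a c (2 * n * t) ≤ 1 / (n : ℝ) ^ 2) :
    ν.real (GE f a c t (2 * n) τ)ᶜ ≤ eps := by
  have hJ : 1 ≤ 2 * n := by omega
  have hnR : (0 : ℝ) < n := by exact_mod_cast hn
  have hpsi := psi_lemma hf h ht hJ
  have hG : ∀ p, ∫ x, GG f a c t (2 * n) p x ∂ν ≤ 1 / (n : ℝ) ^ 2 := by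
    intro p
    have h1 : ∫ x, GG f a c t (2 * n) p x ∂ν ≤ ∑ p, ∫ x, GG f a c t (2 * n) p x ∂ν :=
      Finset.single_le_sum (f := fun p => ∫ x, GG f a c t (2 * n) p x ∂ν)
        (fun p _ => integral_nonneg fun x => GG_nonneg t (2 * n) p x) (Finset.mem_univ p)
    linarith
  set δ : ℝ := τ ^ 2 / ((2 * n : ℕ) : ℝ) ^ 2 with hδ
  have hδpos : 0 < δ := by rw [hδ]; positivity
  have hsub : (GE f a c t (2 * n) τ)ᶜ ⊆ ⋃ p, {x | δ ≤ GG f a c t (2 * n) p x} := by
    intro x hx
    simp only [GE, Set.mem_compl_iff, Set.mem_setOf_eq, not_forall, not_lt] at hx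
    obtain ⟨p, hp⟩ := hx
    exact Set.mem_iUnion.2 ⟨p, hp⟩
  have hp : ∀ p, ν.real {x | δ ≤ GG f a c t (2 * n) p x} ≤ 4 / τ ^ 2 := by
    intro p
    have h1 := mul_meas_ge_le_integral_of_nonneg
      (Filter.Eventually.of_forall fun x => GG_nonneg (f := f) (a := a) (c := c) t (2 * n) p x)
      (integrable_GG hf h ht hJ p) δ
    have h2 : δ * ν.real {x | δ ≤ GG f a c t (2 * n) p x} ≤ 1 / (n : ℝ) ^ 2 := h1.trans (hG p)
    have h3 : ν.real {x | δ ≤ GG f a c t (2 * n) p x} ≤ (1 / (n : ℝ) ^ 2) / δ := by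
      rw [le_div_iff₀ hδpos, mul_comm]; exact h2
    refine h3.trans_eq ?_
    rw [hδ]
    push_cast
    field_simp
    norm_num
  calc ν.real (GE f a c t (2 * n) τ)ᶜ ≤ ν.real (⋃ p, {x | δ ≤ GG f a c t (2 * n) p x}) :=
        measureReal_mono hsub (measure_ne_top _ _)
    _ ≤ ∑ p, ν.real {x | δ ≤ GG f a c t (2 * n) p x} := measureReal_iUnion_fintype_le _
    _ ≤ ∑ p : P, 4 / τ ^ 2 := Finset.sum_le_sum fun p _ => hp p
    _ = 4 * (Fintype.card P : ℝ) / τ ^ 2 := by
        rw [Finset.sum_const, Finset.card_univ, nsmul_eq_mul]; ring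
    _ ≤ eps := by
        rw [div_le_iff₀ (by positivity)]; exact hτ2

end integ

/-- on the good event, `LIN` holds on the window `[0, J t]`. -/
theorem lin_of_GE {x : Ω} (hx : Good f a c x) (hc : 0 ≤ c) {t J : ℕ} (ht : 1 ≤ t) (hJ : 1 ≤ J)
    {τ : ℝ} (hτ : 0 < τ) (hG : x ∈ GE f a c t J τ) :
    LIN f a (J * t) ((2 * τ + 4 * c) * t) x := by
  have htR : (0 : ℝ) < t := by exact_mod_cast ht
  have hJR : (0 : ℝ) < J := by exact_mod_cast hJ
  refine ⟨fun p => (∑ l ∈ Finset.range J, a p t (f^[l * t] x)) / (J * t), ?_⟩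
  intro p k k' hk hk'
  set β := (∑ l ∈ Finset.range J, a p t (f^[l * t] x)) / (J * t) with hβ
  have hGp := hG p
  have hbbar : bbar f a c t J p x = β + c := by
    unfold bbar bl
    rw [Finset.sum_add_distrib, Finset.sum_const, Finset.card_range, nsmul_eq_mul, add_div,
      mul_div_cancel_left₀ _ hJR.ne', ← Finset.sum_div, div_div, mul_comm (t : ℝ)]
  have hdev : ∀ l, bl f a c t p l x - bbar f a c t J p x = (a p t (f^[l * t] x) - β * t) / t := by
    intro l
    rw [hbbar, bl]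
    field_simp
    ring
  have h1 : ∑ l ∈ Finset.range J, |a p t (f^[l * t] x) - β * t| ≤ τ * t := by
    have h2 : ∑ l ∈ Finset.range J, |a p t (f^[l * t] x) - β * t| =
        t * ∑ l ∈ Finset.range J, |bl f a c t p l x - bbar f a c t J p x| := by
      rw [Finset.mul_sum]
      refine Finset.sum_congr rfl fun l _ => ?_
      rw [hdev l, abs_div, abs_of_pos htR]
      field_simp
    rw [h2, mul_comm τ]
    apply mul_le_mul_of_nonneg_left _ htR.le
    apply abs_le_of_sq_le_sq' _ hτ.le |>.2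
    have h3 := sq_sum_le_card_mul_sum_sq (s := Finset.range J)
      (f := fun l => |bl f a c t p l x - bbar f a c t J p x|)
    rw [Finset.card_range] at h3
    simp only [sq_abs] at h3
    have h4 : (∑ l ∈ Finset.range J, (bl f a c t p l x - bbar f a c t J p x) ^ 2) / J ≤
        τ ^ 2 / J ^ 2 := by
      have h5 : (∑ l ∈ Finset.range J, (bl f a c t p l x - bbar f a c t J p x) ^ 2) / J ≤
          GG f a c t J p x := by
        unfold GG
        have := sq_nonneg (bbar f a c t J p x - BB a c t J p x)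
        linarith
      linarith
    rw [div_le_div_iff₀ hJR (by positivity)] at h4
    have h6 : (∑ l ∈ Finset.range J, (bl f a c t p l x - bbar f a c t J p x) ^ 2) * J ≤ τ ^ 2 := by
      have h7 : ((∑ l ∈ Finset.range J, (bl f a c t p l x - bbar f a c t J p x) ^ 2) * J) * J ≤
          τ ^ 2 * J := by nlinarith
      exact le_of_mul_le_mul_right h7 hJR
    nlinarith
  have h2 : ∑ l ∈ Finset.range J, a p t (f^[l * t] x) - a p (J * t) x ≤ τ * t := by
    have h3 : ∑ l ∈ Finset.range J, a p t (f^[l * t] x) - a p (J * t) x =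
        J * t * (bbar f a c t J p x - BB a c t J p x) := by
      rw [hbbar, BB, hβ]
      push_cast
      field_simp
      ring
    have h4 : (bbar f a c t J p x - BB a c t J p x) ^ 2 ≤ τ ^ 2 / J ^ 2 := by
      have h5 : (bbar f a c t J p x - BB a c t J p x) ^ 2 ≤ GG f a c t J p x := by
        unfold GG
        have : 0 ≤ (∑ l ∈ Finset.range J, (bl f a c t p l x - bbar f a c t J p x) ^ 2) / J :=
          div_nonneg (Finset.sum_nonneg fun _ _ => sq_nonneg _) hJR.le
        linarith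
      linarith
    have h6 : bbar f a c t J p x - BB a c t J p x ≤ τ / J := by
      apply abs_le_of_sq_le_sq' _ (by positivity) |>.2
      rw [div_pow]; exact h4
    rw [h3]
    calc J * t * (bbar f a c t J p x - BB a c t J p x) ≤ J * t * (τ / J) :=
          mul_le_mul_of_nonneg_left h6 (by positivity)
      _ = τ * t := by field_simp
  have hmain := lin_det (fun i m => a p m (f^[i] x)) t J ht hJ c τ hc ?_ ?_ β ?_ h1 ?_ k k' hk hk'
  · exact hmain
  · intro i m q
    have h3 := (hx i).2 p m q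
    have e : f^[m] (f^[i] x) = f^[i + m] x := by
      rw [add_comm, Function.iterate_add_apply]
    rwa [e] at h3
  · intro i m
    exact (hx i).1 p m
  · rw [hβ]; field_simp
  · simpa using h2

/-- LEMMA STAB (window form): outside a set of measure `≤ eps`, `LIN` holds on `[0, 2 n t]`. -/
theorem stab_window [IsProbabilityMeasure ν] (hf : MeasurePreserving f ν ν) (h : Coc ν f a c)
    {n t : ℕ} (ht : 1 ≤ t) (hn : 1 ≤ n) {τ : ℝ} (hτ : 0 < τ) :
    ∀ᵐ x ∂ν, x ∈ GE f a c t (2 * n) τ → LIN f a (2 * n * t) ((2 * τ + 4 * c) * t) x := by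
  filter_upwards [ae_good hf h] with x hx hG
  exact lin_of_GE hx h.nonneg ht (by omega) hτ hG


end Crest.Agent.R133.Stab
end

-- ▼ part R133/StabSM
section

/-!
Row 133 (S0182), section 6 for the smooth models `SM D f ν` (helper823).
Output: `stab_sm`.
-/

set_option autoImplicit false
set_option linter.unusedSectionVars false
set_option linter.unusedVariables false
set_option linter.deprecated false

open MeasureTheory Metric Set
open scoped ENNReal

namespace Crest.Agent.R133.Stab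

/-- LEMMA STAB, base form for a set with a.e. disjoint preimages. -/
theorem stab_base_set {Ω : Type*} [MeasurableSpace Ω] {P : Type*} [Fintype P]
    {ν : Measure Ω} {f : Ω → Ω} {a : P → ℕ → Ω → ℝ} {c : ℝ}
    [IsProbabilityMeasure ν] (hf : MeasurePreserving f ν ν) (h : Coc ν f a c)
    {n t : ℕ} (ht : 1 ≤ t) (hn : 1 ≤ n) {τ eps : ℝ} (hτ : 0 < τ)
    (hτ2 : 4 * (Fintype.card P : ℝ) ≤ eps * τ ^ 2)
    (hst : Psi ν a c t - Psi ν a c (2 * n * t) ≤ 1 / (n : ℝ) ^ 2)
    (B : Set Ω) (hB : MeasurableSet B)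
    (hd : ∀ i < n * t, ∀ j < n * t, i ≠ j → ν (f^[i] ⁻¹' B ∩ f^[j] ⁻¹' B) = 0) :
    ((n * t : ℕ) : ℝ) *
      ν.real (B ∩ {x | ¬ LINs f a (n * t) (2 * ((2 * τ + 4 * c) * t)) x}) ≤ eps := by
  classical
  set N := n * t with hN
  have hN1 : 1 ≤ N := Nat.mul_pos hn ht
  set Z : Set Ω := B ∩ {x | ¬ LINs f a N (2 * ((2 * τ + 4 * c) * t)) x} with hZ
  have hZm : MeasurableSet Z := by
    apply MeasurableSet.inter hB
    exact (measurableSet_LINs hf.measurable h.meas N _).compl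
  have hdis : (↑(Finset.range N) : Set ℕ).Pairwise
      (Function.onFun (AEDisjoint ν) (fun i => f^[i] ⁻¹' Z)) := by
    intro i hi j hj hij
    rw [Finset.mem_coe, Finset.mem_range] at hi hj
    have h1 := hd i hi j hj hij
    exact measure_mono_null (by
      intro x hx
      exact ⟨hx.1.1, hx.2.1⟩) h1
  have hunion : ν (⋃ i ∈ Finset.range N, f^[i] ⁻¹' Z) = (N : ENNReal) * ν Z := by
    rw [measure_biUnion_finset₀ hdis (fun i _ =>
      ((hf.iterate i).measurable hZm).nullMeasurableSet)]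
    rw [Finset.sum_congr rfl (fun i _ => (hf.iterate i).measure_preimage hZm.nullMeasurableSet)]
    rw [Finset.sum_const, Finset.card_range, nsmul_eq_mul]
  have hsub : (⋃ i ∈ Finset.range N, f^[i] ⁻¹' Z) ≤ᵐ[ν] (GE f a c t (2 * n) τ)ᶜ := by
    filter_upwards [stab_window hf h ht hn hτ] with x hx
    intro hxm hxG
    have hL := hx hxG
    have hxm' : x ∈ ⋃ i ∈ Finset.range N, f^[i] ⁻¹' Z := hxm
    simp only [Set.mem_iUnion, Finset.mem_range] at hxm'
    obtain ⟨i, hi, hiZ⟩ := hxm'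
    have hw := hL.window i N hN1 (by rw [mul_assoc, ← hN]; omega)
    exact hiZ.2 hw
  have h1 : (N : ENNReal) * ν Z ≤ ν (GE f a c t (2 * n) τ)ᶜ := by
    rw [← hunion]
    exact measure_mono_ae hsub
  have h2 := measure_GE_compl hf h ht hn hτ hτ2 hst
  have h3 : (N : ℝ) * ν.real Z ≤ ν.real (GE f a c t (2 * n) τ)ᶜ := by
    have := ENNReal.toReal_mono (measure_ne_top _ _) h1
    rwa [ENNReal.toReal_mul, ENNReal.toReal_natCast] at this
  exact h3.trans h2

/-! ### measurability of `pn p` -/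

section meas
variable {E : Type*} [NormedAddCommGroup E] [NormedSpace ℝ E]

theorem pn_le_iff (p : ℕ) (L : E →L[ℝ] E) {C : ℝ} (hC : 0 ≤ C) :
    pn p L ≤ C ↔ ∀ (ω : E [⋀^Fin p]→L[ℝ] ℝ) (v : Fin p → E),
      ‖ω (fun i => L (v i))‖ ≤ C * ‖ω‖ * ∏ i, ‖v i‖ := by
  constructor
  · intro h ω v
    have h1 : ‖pb p L ω‖ ≤ C * ‖ω‖ :=
      (norm_pb_apply_le p L ω).trans (mul_le_mul_of_nonneg_right h (norm_nonneg _))
    exact ((pb p L ω).le_opNorm v).trans
      (mul_le_mul_of_nonneg_right h1 (Finset.prod_nonneg fun _ _ => norm_nonneg _))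
  · intro h
    refine ContinuousLinearMap.opNorm_le_bound _ hC fun ω => ?_
    refine ContinuousAlternatingMap.opNorm_le_bound _ (by positivity) fun v => ?_
    exact h ω v

theorem isClosed_pn_le (p : ℕ) (C : ℝ) : IsClosed {L : E →L[ℝ] E | pn p L ≤ C} := by
  by_cases hC : 0 ≤ C
  · have : {L : E →L[ℝ] E | pn p L ≤ C} = ⋂ (ω : E [⋀^Fin p]→L[ℝ] ℝ), ⋂ (v : Fin p → E),
        {L | ‖ω (fun i => L (v i))‖ ≤ C * ‖ω‖ * ∏ i, ‖v i‖} := by
      ext L
      simp only [Set.mem_iInter]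
      exact pn_le_iff p L hC
    rw [this]
    refine isClosed_iInter fun ω => isClosed_iInter fun v => ?_
    apply isClosed_le _ continuous_const
    apply Continuous.norm
    apply ω.cont.comp
    exact continuous_pi fun i => (ContinuousLinearMap.apply ℝ E (v i)).continuous
  · have : {L : E →L[ℝ] E | pn p L ≤ C} = ∅ := by
      ext L
      simp only [Set.mem_empty_iff_false, iff_false]
      intro h
      exact hC ((pn_nonneg p L).trans h)
    rw [this]; exact isClosed_empty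

theorem measurable_pn (p : ℕ) : Measurable[borel (E →L[ℝ] E)] (pn p : (E →L[ℝ] E) → ℝ) := by
  borelize (E →L[ℝ] E)
  exact measurable_of_Iic fun C => (isClosed_pn_le p C).measurableSet

end meas

section sm
variable {d : ℕ} {D : ℝ} {f : EE d → EE d} {ν : Measure (EE d)}

/-- the derivative cocycle along the orbit of `x`. -/
noncomputable def AA (f : EE d → EE d) (x : EE d) : ℕ → EE d →L[ℝ] EE d :=
  fun l => fderiv ℝ f (f^[l] x)

/-- `a_p^{(n)}(x)` -/
noncomputable def aSM (f : EE d → EE d) (p : Fin (d + 1)) (n : ℕ) (x : EE d) : ℝ :=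
  Real.log (pn (p : ℕ) (Phi (AA f x) 0 n))

theorem Phi_shift (f : EE d → EE d) (x : EE d) (m n : ℕ) :
    Phi (AA f (f^[m] x)) 0 n = Phi (AA f x) m (m + n) := by
  induction n with
  | zero => simp
  | succ n ih =>
    rw [Phi_succ _ (Nat.zero_le n), ← Nat.add_assoc, Phi_succ _ (Nat.le_add_right m n), ih]
    congr 1
    unfold AA
    rw [← Function.iterate_add_apply, Nat.add_comm]

theorem aSM_shift (f : EE d → EE d) (p : Fin (d + 1)) (m n : ℕ) (x : EE d) :
    aSM f p n (f^[m] x) = Real.log (pn (p : ℕ) (Phi (AA f x) m (m + n))) := by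
  unfold aSM
  rw [Phi_shift]

theorem measurable_Phi (hf : Measurable f) (n : ℕ) :
    Measurable (fun x => Phi (AA f x) 0 n) := by
  induction n with
  | zero =>
    simp only [Phi_self]
    exact measurable_const
  | succ n ih =>
    have h1 : (fun x => Phi (AA f x) 0 (n + 1)) =
        fun x => (fderiv ℝ f (f^[n] x)).comp (Phi (AA f x) 0 n) := by
      ext1 x
      rw [Phi_succ _ (Nat.zero_le n)]
      rfl
    rw [h1]
    have h2 : Measurable (fun x => fderiv ℝ f (f^[n] x)) :=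
      (measurable_fderiv ℝ f).comp (hf.iterate n)
    have h3 : Continuous (fun q : (EE d →L[ℝ] EE d) × (EE d →L[ℝ] EE d) => q.1.comp q.2) :=
      continuous_fst.clm_comp continuous_snd
    exact h3.measurable.comp (h2.prodMk ih)

theorem measurable_aSM (hf : Measurable f) (p : Fin (d + 1)) (n : ℕ) : Measurable (aSM f p n) := by
  unfold aSM
  apply Real.measurable_log.comp
  have h1 : Measurable (pn (p : ℕ) : (EE d →L[ℝ] EE d) → ℝ) := by
    have := measurable_pn (E := EE d) (p : ℕ)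
    rwa [← BorelSpace.measurable_eq (α := EE d →L[ℝ] EE d)] at this
  exact h1.comp (measurable_Phi hf n)

/-- pointwise regularity along the orbit. -/
def OReg (D : ℝ) (f : EE d → EE d) (x : EE d) : Prop :=
  ∀ l : ℕ, ‖fderiv ℝ f (f^[l] x)‖ ≤ Real.exp D ∧
    ∃ B : EE d →L[ℝ] EE d, B.comp (fderiv ℝ f (f^[l] x)) = ContinuousLinearMap.id ℝ (EE d) ∧
      ‖B‖ ≤ Real.exp D

theorem ae_reg (h : SM D f ν) : ∀ᵐ x ∂ν, ∃ r > 0, Reg D f ν r x := by
  rw [ae_iff]
  have h1 : ∀ k : ℕ, ν {x | ¬ ∃ r > 0, Reg D f ν r x} ≤ ENNReal.ofReal (D * (1 / ((k : ℝ) + 1))) := by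
    intro k
    have hk : (0 : ℝ) < 1 / ((k : ℝ) + 1) := by positivity
    have hk1 : 1 / ((k : ℝ) + 1) ≤ 1 := by
      rw [div_le_one (by positivity)]
      have : (0 : ℝ) ≤ k := Nat.cast_nonneg k
      linarith
    refine (measure_mono ?_).trans (h.reg _ hk hk1)
    intro x hx hreg
    exact hx ⟨_, hk, hreg⟩
  have h2 : Filter.Tendsto (fun k : ℕ => ENNReal.ofReal (D * (1 / ((k : ℝ) + 1)))) Filter.atTop
      (nhds 0) := by
    have h3 : Filter.Tendsto (fun k : ℕ => D * (1 / ((k : ℝ) + 1))) Filter.atTop (nhds (D * 0)) :=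
      (tendsto_one_div_add_atTop_nhds_zero_nat).const_mul D
    rw [mul_zero] at h3
    have h4 := ENNReal.tendsto_ofReal h3
    rwa [ENNReal.ofReal_zero] at h4
  exact le_antisymm (ge_of_tendsto' h2 h1) bot_le

theorem SM.mp (h : SM D f ν) : MeasurePreserving f ν ν := ⟨h.meas, h.pres⟩

theorem ae_OReg (h : SM D f ν) : ∀ᵐ x ∂ν, OReg D f x := by
  unfold OReg
  rw [ae_all_iff]
  intro l
  filter_upwards [((SM.mp h).iterate l).quasiMeasurePreserving.ae (ae_reg h)] with x hx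
  obtain ⟨r, hr, hreg⟩ := hx
  have hmem : f^[l] x ∈ ball (f^[l] x) r := mem_ball_self hr
  obtain ⟨B, hB1, _, hB3⟩ := hreg.inv _ hmem
  exact ⟨hreg.norm_le _ hmem, B, hB1, hB3⟩

theorem OReg.pos {x : EE d} (h : OReg D f x) (p : ℕ) (hp : p ≤ d) (i j : ℕ) (hij : i ≤ j) :
    0 < pn p (Phi (AA f x) i j) := by
  choose h1 B hB1 hB2 using h
  exact pn_Phi_pos (by simpa using hp) (AA f x) B hij (fun l _ _ => hB1 l)

theorem OReg.bd {x : EE d} (h : OReg D f x) (p : ℕ) (hp : p ≤ d) (i k : ℕ) :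
    |Real.log (pn p (Phi (AA f x) i (i + k)))| ≤ p * (k * D) := by
  choose h1 B hB1 hB2 using h
  exact abs_log_pn_Phi_le (by simpa using hp) (AA f x) B i k D (fun l _ _ => hB1 l)
    (fun l _ _ => h1 l) (fun l _ _ => hB2 l)

theorem coc_SM (hD : 0 ≤ D) (h : SM D f ν) : Coc ν f (aSM f) (d * D) where
  meas p n := measurable_aSM h.meas p n
  nonneg := by positivity
  bd := by
    filter_upwards [ae_OReg h] with x hx p n
    have h1 := hx.bd (p : ℕ) (Nat.lt_succ_iff.1 p.2) 0 n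
    rw [Nat.zero_add] at h1
    unfold aSM
    refine h1.trans ?_
    have h2 : ((p : ℕ) : ℝ) ≤ d := by exact_mod_cast Nat.lt_succ_iff.1 p.2
    have h3 : (0 : ℝ) ≤ n * D := by positivity
    calc ((p : ℕ) : ℝ) * (n * D) ≤ d * (n * D) := mul_le_mul_of_nonneg_right h2 h3
      _ = d * D * n := by ring
  sub := by
    filter_upwards [ae_OReg h] with x hx p m n
    have hp := Nat.lt_succ_iff.1 p.2
    rw [aSM_shift]
    unfold aSM
    exact log_pn_Phi_le_add (AA f x) (Nat.zero_le m) (Nat.le_add_right m n)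
      (hx.pos _ hp _ _ (Nat.zero_le m)) (hx.pos _ hp _ _ (Nat.le_add_right m n))
      (hx.pos _ hp _ _ (Nat.zero_le _))

/-- the constant of LIN (`eps_g = 1/40`). -/
noncomputable def C0 (d : ℕ) (D : ℝ) : ℝ := 2 * (2 * (160 * ((d : ℝ) + 1)) + 4 * (d * D))

/-- The good window property at `x` used by L1: orbit regularity, positivity and linearity. -/
def Window (D : ℝ) (f : EE d → EE d) (N : ℕ) (C : ℝ) (x : EE d) : Prop :=
  OReg D f x ∧ (∀ p ≤ d, ∀ i j, i ≤ j → j ≤ N → 0 < pn p (Phi (AA f x) i j)) ∧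
    ∃ β : ℕ → ℝ, ∀ p ≤ d, ∀ i j, i ≤ j → j ≤ N →
      |Real.log (pn p (Phi (AA f x) i j)) - ((j : ℝ) - i) * β p| ≤ C

theorem window_of_LINs {x : EE d} (hx : OReg D f x) {N : ℕ} {C : ℝ}
    (h : LINs f (aSM f) N C x) : Window D f N C x := by
  refine ⟨hx, fun p hp i j hij _ => hx.pos p hp i j hij,
    fun p => if hp : p ≤ d then aSM f ⟨p, Nat.lt_succ_iff.2 hp⟩ N x / N else 0, ?_⟩
  intro p hp i j hij hj
  simp only [dif_pos hp]
  have h1 := h ⟨p, Nat.lt_succ_iff.2 hp⟩ i j hij hj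
  rw [aSM_shift] at h1
  have e : i + (j - i) = j := by omega
  rw [e] at h1
  exact h1

/-- **STAB for smooth models.** -/
theorem stab_sm (hD : 0 ≤ D) (h : SM D f ν) :
    ∃ St : Set ℕ, Summable (Stᶜ.indicator kap) ∧ ∀ s ∈ St, ∀ B : Set (EE d), MeasurableSet B →
      (∀ i < NN (s + 1), ∀ j < NN (s + 1), i ≠ j → ν (f^[i] ⁻¹' B ∩ f^[j] ⁻¹' B) = 0) →
      ∃ Z : Set (EE d), MeasurableSet Z ∧
        ν Z ≤ ENNReal.ofReal (1 / (40 * (NN (s + 1) : ℝ))) ∧
        ∀ x ∈ B \ Z, Window D f (NN (s + 1)) (C0 d D * tt s) x := by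
  have := h.prob
  have hc := coc_SM hD h
  have hmp := SM.mp h
  set c : ℝ := d * D with hcdef
  refine ⟨{s | Psi ν (aSM f) c (tt s) - Psi ν (aSM f) c (2 * nn s * tt s) ≤
    1 / (nn s : ℝ) ^ 2}, ?_, ?_⟩
  · have hs := summable_unstable hmp hc nn tt (fun s => Par.nn_pos s) (fun s => Par.tt_pos s)
      (fun s => by
        have h1 := Par.two_mul_NN_dvd_tt s
        rw [Par.two_mul_NN_eq] at h1
        exact h1)
      {s | Psi ν (aSM f) c (tt s) - Psi ν (aSM f) c (2 * nn s * tt s) ≤ 1 / (nn s : ℝ) ^ 2}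
      (fun s hs => by
        simp only [Set.mem_setOf_eq, not_le] at hs
        exact hs.le)
    have hk : (kap : ℕ → ℝ) = fun s => 1 / (nn s : ℝ) ^ 2 := by
      ext s; exact Par.kap_eq s
    rw [hk]
    exact hs
  · intro s hs B hB hd
    have hNN : NN (s + 1) = nn s * tt s := Par.NN_succ' s
    set τ : ℝ := 160 * ((d : ℝ) + 1) with hτdef
    have hd0 : (0 : ℝ) ≤ d := Nat.cast_nonneg d
    have hτ : 0 < τ := by rw [hτdef]; positivity
    have hτ2 : 4 * (Fintype.card (Fin (d + 1)) : ℝ) ≤ (1 / 40) * τ ^ 2 := by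
      rw [Fintype.card_fin, hτdef]
      push_cast
      nlinarith
    have hmain := stab_base_set hmp hc (n := nn s) (t := tt s) (Par.tt_pos s) (Par.nn_pos s) hτ hτ2
      hs B hB (by rw [← hNN]; exact hd)
    rw [← hNN] at hmain
    set Z1 : Set (EE d) := B ∩ {x | ¬ LINs f (aSM f) (NN (s + 1))
      (2 * ((2 * τ + 4 * c) * tt s)) x} with hZ1
    have hZ1m : MeasurableSet Z1 :=
      hB.inter (measurableSet_LINs h.meas hc.meas _ _).compl
    have hNpos : (0 : ℝ) < NN (s + 1) := by exact_mod_cast Par.NN_pos (s + 1)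
    have hZ1le : ν Z1 ≤ ENNReal.ofReal (1 / (40 * (NN (s + 1) : ℝ))) := by
      rw [← ENNReal.ofReal_toReal (measure_ne_top ν Z1)]
      apply ENNReal.ofReal_le_ofReal
      rw [le_div_iff₀ (by positivity)]
      have h1 : (NN (s + 1) : ℝ) * (ν Z1).toReal ≤ 1 / 40 := hmain
      linarith
    have hnull : ν {x | ¬ OReg D f x} = 0 := ae_iff.1 (ae_OReg h)
    refine ⟨Z1 ∪ toMeasurable ν {x | ¬ OReg D f x}, hZ1m.union (measurableSet_toMeasurable _ _),
      ?_, ?_⟩
    · refine (measure_union_le _ _).trans ?_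
      rw [measure_toMeasurable, hnull, add_zero]
      exact hZ1le
    · intro x hx
      have hxO : OReg D f x := by
        by_contra hcon
        exact hx.2 (Or.inr (subset_toMeasurable ν _ hcon))
      have hxL : LINs f (aSM f) (NN (s + 1)) (2 * ((2 * τ + 4 * c) * tt s)) x := by
        by_contra hcon
        exact hx.2 (Or.inl ⟨hx.1, hcon⟩)
      have hw := window_of_LINs hxO hxL
      have hC : 2 * ((2 * τ + 4 * c) * (tt s : ℝ)) = C0 d D * tt s := by
        unfold C0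
        rw [hτdef, hcdef]; ring
      rw [hC] at hw
      exact hw

end sm

/-- the form used by helper957's `SmoothAt`. -/
theorem stab_sm' (d : ℕ) (D : ℝ) (hD : 1 ≤ D) : ∃ C0 : ℝ, 0 ≤ C0 ∧
    ∀ (f : EE d → EE d) (ν : Measure (EE d)), SM D f ν →
      ∃ St : Set ℕ, Summable (Stᶜ.indicator kap) ∧
      ∀ s ∈ St, ∀ B : Set (EE d), MeasurableSet B →
        (∀ i < NN (s + 1), ∀ j < NN (s + 1), i ≠ j → ν (f^[i] ⁻¹' B ∩ f^[j] ⁻¹' B) = 0) →
        ∃ Z : Set (EE d), MeasurableSet Z ∧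
          ν Z ≤ ENNReal.ofReal (1 / (40 * (NN (s + 1) : ℝ))) ∧
          ∀ᵐ x ∂ν, x ∈ B → x ∉ Z → ∃ β : ℕ → ℝ,
            (∀ p ≤ d, ∀ i j, i ≤ j → j ≤ NN (s + 1) →
              0 < pn p (Phi (fun l => fderiv ℝ f (f^[l] x)) i j)) ∧
            (∀ p ≤ d, ∀ i j, i ≤ j → j ≤ NN (s + 1) →
              |Real.log (pn p (Phi (fun l => fderiv ℝ f (f^[l] x)) i j))
                - ((j : ℝ) - i) * β p| ≤ C0 * tt s) := by
  have hD0 : 0 ≤ D := by linarith
  refine ⟨C0 d D, by unfold C0; positivity, ?_⟩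
  intro f ν h
  obtain ⟨St, h1, h2⟩ := stab_sm hD0 h
  refine ⟨St, h1, ?_⟩
  intro s hs B hB hd
  obtain ⟨Z, hZ1, hZ2, hZ3⟩ := h2 s hs B hB hd
  refine ⟨Z, hZ1, hZ2, Filter.Eventually.of_forall ?_⟩
  intro x hxB hxZ
  obtain ⟨_, hpos, β, hβ⟩ := hZ3 x ⟨hxB, hxZ⟩
  exact ⟨β, hpos, hβ⟩

end Crest.Agent.R133.Stab
end

-- ▼ part R133/SmoothAt

/-!
Row 133: the smooth side in law form (`StSmoothAt`), from STAB, L1, L2, COUNT and KL.
-/

set_option autoImplicit false

open MeasureTheory Set Function Metric Filter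
open scoped ENNReal Topology

namespace Crest.Agent.R133

/-- Output of the stability section (6) for the smooth models of dimension `d`, constant `D`. -/
def StStab (d : ℕ) (D : ℝ) : Prop :=
  ∃ C0 : ℝ, 0 ≤ C0 ∧ ∀ (f : EE d → EE d) (ν : Measure (EE d)), SM D f ν →
    ∃ St : Set ℕ, Summable (Stᶜ.indicator kap) ∧ ∀ s ∈ St, ∀ B : Set (EE d), MeasurableSet B →
      (∀ i < NN (s + 1), ∀ j < NN (s + 1), i ≠ j → ν (f^[i] ⁻¹' B ∩ f^[j] ⁻¹' B) = 0) →
      ∃ Z : Set (EE d), MeasurableSet Z ∧ ν Z ≤ ENNReal.ofReal (1 / (40 * (NN (s + 1) : ℝ))) ∧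
      ∀ᵐ x ∂ν, x ∈ B → x ∉ Z → ∃ β : ℕ → ℝ,
        (∀ p ≤ d, ∀ i j, i ≤ j → j ≤ NN (s + 1) →
          0 < pn p (Phi (fun l => fderiv ℝ f (f^[l] x)) i j)) ∧
        (∀ p ≤ d, ∀ i j, i ≤ j → j ≤ NN (s + 1) →
          |Real.log (pn p (Phi (fun l => fderiv ℝ f (f^[l] x)) i j)) - ((j : ℝ) - i) * β p| ≤
            C0 * tt s)

/-- thin boundary -/
def Thin {d : ℕ} (Q : Set (EE d)) (CQ : ℝ) : Prop :=
  ∀ r : ℝ, 0 < r → r ≤ 1 →
    (volume : Measure (EE d)) {x | ¬ (ball x r ⊆ Q ∨ ball x r ⊆ Qᶜ)} ≤ ENNReal.ofReal (CQ * r)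

lemma measurable_qOf {Ω : Type*} [MeasurableSpace Ω] {Q : Set Ω} (hQ : MeasurableSet Q) :
    Measurable (qOf Q) := by
  classical
  refine measurable_to_bool ?_
  have : qOf Q ⁻¹' {true} = Q := by
    ext x; simp [qOf]
  rw [this]; exact hQ

theorem smoothAt_of {d : ℕ} {Q : Set (EE d)} (hQ : MeasurableSet Q) {CQ : ℝ} (hCQ : 0 ≤ CQ)
    (hthin : Thin Q CQ) (hst : ∀ D : ℝ, 1 ≤ D → StStab d D) : StSmoothAt Q := by
  classical
  intro D hD
  have hD0 : 0 ≤ D := by linarith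
  obtain ⟨C0, hC0, hstab⟩ := hst D hD
  obtain ⟨Cc, hCc, hcount⟩ := Cnt.count d D
  set a : ℝ := 2 * ((d : ℝ) + 1) with ha
  set b : ℝ := 4 * C0 with hb
  have hb0 : 0 ≤ b := by positivity
  have ha0 : 0 ≤ a := by positivity
  obtain ⟨t0, hscale⟩ := KL.scales d (δ := 1 / 40) hD0 hCQ ha0 hb0 (by norm_num)
  set r : ℕ → ℝ := fun s => Real.exp (-(b + 1) * tt s) with hr
  set ε : ℕ → ℝ := fun s => Real.exp (-(2 * b + 3) * tt s) with hε
  have hrpos : ∀ s, 0 < r s := fun s => Real.exp_pos _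
  have hεpos : ∀ s, 0 < ε s := fun s => Real.exp_pos _
  have hεr : ∀ s, ε s ≤ 4 * r s := by
    intro s
    have h1 : ε s ≤ r s := by
      apply Real.exp_le_exp.2
      have : (0 : ℝ) ≤ tt s := Nat.cast_nonneg _
      nlinarith
    linarith [hrpos s]
  have hR : ∀ s : ℕ, ∃ R : Finset ((EE d → EE d) × Measure (EE d)), (∀ p ∈ R, SM D p.1 p.2) ∧
      (4 * r s ≤ 1 → (R.card : ℝ) ≤ Real.exp ((Cc / ε s) ^ Cc) ∧
        ∀ f ν, SM D f ν → ∃ p ∈ R, Close D f ν p.1 p.2 (ε s) (4 * r s)) := by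
    intro s
    by_cases h : 4 * r s ≤ 1
    · obtain ⟨R, h1, h2, h3⟩ := hcount (ε s) (4 * r s) (hεpos s) (hεr s) h
      exact ⟨R, h1, fun _ => ⟨h2, h3⟩⟩
    · exact ⟨∅, by simp, fun h' => absurd h' h⟩
  choose R hR1 hR2 using hR
  have hqm : Measurable (qOf Q) := measurable_qOf hQ
  -- eventual facts
  have htt : Tendsto tt atTop atTop := Par.tt_tendsto
  have hev : ∀ᶠ s in atTop, max t0 1 ≤ tt s := htt.eventually (eventually_ge_atTop _)
  have hNt : ∀ s, NN (s + 1) ≤ tt s ^ 2 := by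
    intro s
    rw [Par.NN_succ', sq]
    refine Nat.mul_le_mul_right _ ?_
    unfold tt
    exact Nat.le_mul_of_pos_right _ (Exc.NN_pos s)
  refine ⟨max (4 * 8 ^ d * D ^ 2) (Cc * (Real.log Cc + (2 * b + 3))),
    fun s => (R s).image (fun p => Exc.law (NN (s + 1)) p.2 p.1 (qOf Q)), ?_, ?_, ?_, ?_⟩
  · exact le_max_of_le_left (by positivity)
  · intro s p hp
    obtain ⟨⟨g, νg⟩, hg, rfl⟩ := Finset.mem_image.1 hp
    have hSM := hR1 s _ hg
    have := hSM.prob
    exact Exc.law_isLaw νg hSM.meas hqm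
  · filter_upwards [hev] with s hs
    have ht0 : t0 ≤ tt s := le_trans (le_max_left _ _) hs
    have ht1 : 1 ≤ tt s := le_trans (le_max_right _ _) hs
    have htr : (1 : ℝ) ≤ tt s := by exact_mod_cast ht1
    obtain ⟨hs1, -, -, -⟩ := hscale (tt s) ht0 _ (hNt s)
    have h4r : 4 * r s ≤ 1 := by
      have : 8 * r s ≤ 1 := hs1
      linarith [hrpos s]
    have hcard : (((R s).image (fun p => Exc.law (NN (s + 1)) p.2 p.1 (qOf Q))).card : ℝ) ≤
        (R s).card := by exact_mod_cast Finset.card_image_le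
    refine hcard.trans ((hR2 s h4r).1.trans (Real.exp_le_exp.2 ?_))
    have hCc' : (1 : ℝ) ≤ Cc := by exact_mod_cast hCc
    have hlog : 0 ≤ Real.log Cc := Real.log_nonneg hCc'
    have e1 : (Cc : ℝ) / ε s = Real.exp (Real.log Cc + (2 * b + 3) * tt s) := by
      rw [Real.exp_add, Real.exp_log (by linarith), div_eq_mul_inv]
      congr 1
      simp only [hε]
      rw [← Real.exp_neg]
      congr 1
      ring
    rw [e1, ← Real.exp_nat_mul]
    apply Real.exp_le_exp.2
    calc (Cc : ℝ) * (Real.log Cc + (2 * b + 3) * tt s)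
        ≤ (Cc : ℝ) * ((Real.log Cc + (2 * b + 3)) * tt s) := by
          gcongr
          nlinarith
      _ = (Cc * (Real.log Cc + (2 * b + 3))) * tt s := by ring
      _ ≤ _ := by
          gcongr
          exact le_max_right _ _
  · intro f ν hf
    obtain ⟨St, hSt, hstab'⟩ := hstab f ν hf
    refine ⟨St, hSt, fun B hB hdisj => ?_⟩
    filter_upwards [hev] with s hs hsSt
    have ht0 : t0 ≤ tt s := le_trans (le_max_left _ _) hs
    obtain ⟨hs1, hs2, hs3, hs4⟩ := hscale (tt s) ht0 _ (hNt s)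
    have h8r : 8 * r s ≤ 1 := hs1
    have h4r : 4 * r s ≤ 1 := by linarith [hrpos s]
    obtain ⟨⟨g, νg⟩, hg, hclose⟩ := (hR2 s h4r).2 f ν hf
    have hSMg := hR1 s _ hg
    have := hf.prob
    have hpg := hSMg.prob
    simp only at hSMg hpg hclose
    obtain ⟨Z, hZ, hZν, hae⟩ := hstab' s hsSt (B s) (hB s) (hdisj s)
    set N := NN (s + 1) with hN
    have hNpos : 0 < N := Exc.NN_pos _
    have hNr : (0 : ℝ) < N := by exact_mod_cast hNpos
    -- the LIN set
    set L : Set (EE d) := {x | KL.HasS f N (a * Real.exp (b * tt s)) x} with hL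
    set Good0 : Set (EE d) := L ∩ KL.GoodReg D f ν Q (r s) N with hGood0
    have hBL : ν (B s \ L) ≤ ENNReal.ofReal (1 / (40 * (N : ℝ))) := by
      refine le_trans ?_ hZν
      have hsub : (B s \ L) ≤ᵐ[ν] Z := by
        filter_upwards [hae] with x hx hxBL
        by_contra hxZ
        obtain ⟨β, hpos, hlin⟩ := hx hxBL.1 hxZ
        apply hxBL.2
        have hfr : Module.finrank ℝ (EE d) = d := finrank_euclideanSpace_fin
        obtain ⟨S, hS1, hS2⟩ := L1 N (fun l => fderiv ℝ f (f^[l] x)) β (C0 * tt s)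
          (by rw [hfr]; exact hpos) (by rw [hfr]; exact hlin)
        rw [hfr] at hS1 hS2
        refine ⟨S, fun i j hij hj => ?_, fun i j hij hj => ?_⟩
        · refine (hS1 i j hij hj).trans (le_of_eq ?_)
          rw [ha, hb]; congr 2; ring
        · refine (hS2 i j hij hj).trans (le_of_eq ?_)
          rw [ha, hb]; congr 2; ring
      exact measure_mono_ae hsub
    have hBG0 : ν (B s \ Good0) ≤ ENNReal.ofReal (1 / (20 * (N : ℝ))) := by
      have h1 := KL.base_diff_good hD0 hf (hrpos s) h8r hCQ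
        (hthin (4 * r s) (by linarith [hrpos s]) h4r) N (B s) L
      refine h1.trans ((add_le_add hBL le_rfl).trans ?_)
      rw [← ENNReal.ofReal_add (by positivity) (by have := hrpos s; positivity)]
      apply ENNReal.ofReal_le_ofReal
      have h5 : ((N : ℝ) + 1) * (D * (8 + 4 * CQ) * r s) ≤ 1 / (40 * N) := by
        rw [le_div_iff₀ (by positivity)]
        have := hs4
        have e : ((N : ℝ) + 1) * (D * (8 + 4 * CQ) * r s) * (40 * N) =
          40 * (((N : ℝ) + 1) * (D * (8 + 4 * CQ) * r s) * N) := by ring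
        rw [e]
        have h6 : ((N : ℝ) + 1) * (D * (8 + 4 * CQ) * r s) * N ≤ 1 / 40 := hs4
        linarith
      have h7 : (1 : ℝ) / (20 * N) = 1 / (40 * N) + 1 / (40 * N) := by
        field_simp
        norm_num
      rw [h7]
      linarith
    set T := toMeasurable ν (B s \ Good0) with hT
    refine ⟨Exc.law N νg g (qOf Q), Finset.mem_image_of_mem _ hg, B s \ T,
      (hB s).diff (measurableSet_toMeasurable _ _), Set.sdiff_subset, ?_, ?_⟩
    · calc ν (B s \ (B s \ T)) ≤ ν T := measure_mono (by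
            intro x hx
            by_contra h
            exact hx.2 ⟨hx.1, h⟩)
        _ = ν (B s \ Good0) := measure_toMeasurable _
        _ ≤ _ := hBG0
    · intro A
      have hGsub : B s \ T ⊆ Good0 := by
        intro x hx
        by_contra h
        exact hx.2 (subset_toMeasurable _ _ ⟨hx.1, h⟩)
      set G' : Set (EE d) := {x | x ∈ B s \ T ∧ QName N f Q x ∈ A} with hG'
      have hG'sub : ∀ x ∈ G', x ∈ Good0 := fun x hx => hGsub hx.1
      have hkl := KL.kl (N := N) (G := a * Real.exp (b * tt s)) hD0 hf hSMg (hrpos s) (hεpos s).le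
        (by positivity) hclose ?_ ?_ G' (fun x hx k hk => ((hG'sub x hx).2 k hk).1)
        (fun x hx => (hG'sub x hx).1)
      · have hsub2 : (⋃ x ∈ G', KL.BB g N (fun i => f^[i] x) (r s / 8)) ⊆
            {y | (fun i : Fin N => qOf Q (g^[(i : ℕ)] y)) ∈ Finset.univ.filter (fun z => z ∈ A)} := by
          intro y hy
          simp only [Set.mem_iUnion] at hy
          obtain ⟨x, hx, hxy⟩ := hy
          have hname : (fun i : Fin N => qOf Q (g^[(i : ℕ)] y)) = QName N f Q x := by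
            funext i
            have := KL.name_eq (hrpos s) (fun k hk => ((hG'sub x hx).2 k hk).2) hxy
              (k := (i : ℕ)) i.2.le
            simp only [QName, qOf]
            exact decide_eq_decide.2 this
          show _ ∈ Finset.univ.filter (fun z => z ∈ A)
          rw [hname]
          simp only [Finset.mem_filter, Finset.mem_univ, true_and]
          exact hx.2
        calc ν G' ≤ ENNReal.ofReal (4 * 8 ^ d * D ^ 2) *
              νg (⋃ x ∈ G', KL.BB g N (fun i => f^[i] x) (r s / 8)) := hkl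
          _ ≤ ENNReal.ofReal (4 * 8 ^ d * D ^ 2) *
              ENNReal.ofReal (∑ z ∈ Finset.univ.filter (fun z => z ∈ A),
                Exc.law N νg g (qOf Q) z) := by
              rw [← Exc.law_sum_eq νg hSMg.meas hqm]
              exact mul_le_mul_right (measure_mono hsub2) _
          _ = ENNReal.ofReal ((4 * 8 ^ d * D ^ 2) *
              (∑ z ∈ Finset.univ.filter (fun z => z ∈ A), Exc.law N νg g (qOf Q) z)) := by
              rw [ENNReal.ofReal_mul (p := 4 * 8 ^ d * D ^ 2) (by positivity)]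
          _ ≤ _ := by
              apply ENNReal.ofReal_le_ofReal
              have hs0 : 0 ≤ ∑ z ∈ Finset.univ.filter (fun z => z ∈ A),
                  Exc.law N νg g (qOf Q) z := Finset.sum_nonneg fun z _ => Exc.law_nonneg νg z
              exact mul_le_mul_of_nonneg_right (le_max_left _ _) hs0
      · exact hs2
      · exact hs3

theorem stStab (d : ℕ) (D : ℝ) (hD : 1 ≤ D) : StStab d D := Stab.stab_sm' d D hD

/-- **The smooth side** (sections 6-10) for a set `Q` with thin boundary. -/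
theorem smoothAt {d : ℕ} {Q : Set (EE d)} (hQ : MeasurableSet Q)
    (hthin : ∃ CQ : ℝ, 0 ≤ CQ ∧ ∀ r : ℝ, 0 < r → r ≤ 1 →
      (volume : Measure (EE d)) {x | ¬ (ball x r ⊆ Q ∨ ball x r ⊆ Qᶜ)} ≤
        ENNReal.ofReal (CQ * r)) : StSmoothAt Q := by
  obtain ⟨CQ, h0, h⟩ := hthin
  exact smoothAt_of hQ h0 h fun D hD => stStab d D hD

end Crest.Agent.R133
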