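import Crest.Agent.R133.QSet_Mg
import Mathlib
import Crest.Prelude.Def_SmoothModel
import Crest.Agent.R133.MfdE
import Crest.Agent.R133.Skel
import Crest.Agent.R133.SmoothAt
import Crest.Agent.R133.CombDefs
import Crest.Agent.R133.CombBasic
import Crest.Agent.R133.Pot
import Crest.Agent.R133.Tower
import Crest.Agent.R133.Par

-- ▼ part R133/Main
section

/-!
# Row 133 (S0182): the final assembly with the concrete family of sets
-/

set_option autoImplicit false

open MeasureTheory Filter Set Metric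
open scoped ENNReal Topology

namespace Crest.Agent.R133.XF

theorem qfam_qs : QFam QSet.qs where
  meas := QSet.measurableSet_qs
  dense d ν _ A hA δ hδ := by
    obtain ⟨k, hk⟩ := QSet.approx ν hA (δ := ENNReal.ofReal δ) (by simpa using hδ)
    refine ⟨k, le_trans (measure_mono ?_) hk⟩
    intro x hx
    by_cases h1 : x ∈ QSet.qs d k
    · by_cases h2 : x ∈ A
      · exact absurd (iff_of_true h1 h2) hx
      · exact Or.inl ⟨h1, h2⟩
    · by_cases h2 : x ∈ A
      · exact Or.inr ⟨h2, h1⟩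
      · exact absurd (iff_of_false h1 h2) hx

/-- S0182 from the five nodes. -/
theorem main (hComb : StComb) (hA : StTheoremA) (hPot : StPot)
    (hSm : ∀ d i, StSmoothAt (QSet.qs (d + 1) i)) (hM : StNoModel) :
    ∃ (X : Type) (_ : MeasurableSpace X) (μ : Measure X) (T : X ≃ᵐ X),
      IsProbabilityMeasure μ ∧ Crest.AnalysisR.IsStandardProbability μ ∧
      MeasurePreserving T μ μ ∧ Ergodic T μ ∧ Crest.AnalysisR.HasZeroEntropy μ T ∧
      Crest.AnalysisR.NoSmoothPositiveVolumeModel μ T :=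
  final hComb hA hPot qfam_qs hSm hM

end Crest.Agent.R133.XF
end

-- ▼ part R133/MfdZero
section

set_option autoImplicit false

/-! Row 133, MFD: dimension zero (helper315). -/

open MeasureTheory Metric Set Topology
open scoped ENNReal NNReal Manifold ContDiff

namespace Crest.Agent.R133.Mfd

/-- a standard probability space is not conjugate to a system with an atom -/
theorem not_conj_of_atom {X M : Type*} [MeasurableSpace X] [MeasurableSpace M]
    [MeasurableSingletonClass M] (μ : Measure X) (T : X → X) (ν : Measure M) (S : M → M)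
    (hstd : Crest.AnalysisR.IsStandardProbability μ) (x : M) (hx : ν {x} ≠ 0) :
    ¬ Crest.AnalysisR.AreMeasConjugate μ T ν S := by
  rintro ⟨X₀, M₀, F, G, hX₀, hM₀, hX₀c, hM₀c, hTX, hSM, hF, hG, hbij, hGF, hmap, hconj⟩
  obtain ⟨X₁, Y₁, F', G', hX₁, hY₁, hX₁c, hY₁c, hF', hG', hbij', hGF', hmap'⟩ := hstd
  have h1 : μ (F ⁻¹' {x}) ≠ 0 := by
    rw [← Measure.map_apply hF (measurableSet_singleton x), hmap]
    exact hx
  have h2 : μ (F ⁻¹' {x} ∩ X₀) ≠ 0 := by
    intro h0
    apply h1
    refine measure_mono_null (t := (F ⁻¹' {x} ∩ X₀) ∪ X₀ᶜ) ?_ (measure_union_null h0 hX₀c)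
    intro y hy
    by_cases hyX : y ∈ X₀
    · exact Or.inl ⟨hy, hyX⟩
    · exact Or.inr hyX
  obtain ⟨p, hp⟩ : (F ⁻¹' {x} ∩ X₀).Nonempty := nonempty_of_measure_ne_zero h2
  have hsub : F ⁻¹' {x} ∩ X₀ ⊆ F' ⁻¹' {F' p} := by
    rintro q ⟨hq1, hq2⟩
    have : q = p := hbij.injOn hq2 hp.2 (by
      rw [mem_preimage, mem_singleton_iff] at hq1
      rw [hq1]; exact hp.1.symm)
    rw [this]; rfl
  apply h2
  refine measure_mono_null hsub ?_
  rw [← Measure.map_apply hF' (measurableSet_singleton _), hmap']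
  exact measure_singleton _

/-- a compact manifold of dimension zero carries only atomic probability measures -/
theorem exists_atom_of_dim_zero (M : Type) [TopologicalSpace M] [T2Space M] [CompactSpace M]
    [ChartedSpace (EuclideanSpace ℝ (Fin 0)) M] [MeasurableSpace M] [BorelSpace M]
    (ν : Measure M) [IsProbabilityMeasure ν] : ∃ x : M, ν {x} ≠ 0 := by
  have hdisc : DiscreteTopology M := by
    rw [discreteTopology_iff_isOpen_singleton]
    intro x
    have h1 : IsOpen (chartAt (EuclideanSpace ℝ (Fin 0)) x).source :=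
      (chartAt (EuclideanSpace ℝ (Fin 0)) x).open_source
    have h2 : (chartAt (EuclideanSpace ℝ (Fin 0)) x).source = {x} := by
      apply Subset.antisymm
      · intro y hy
        exact (chartAt (EuclideanSpace ℝ (Fin 0)) x).injOn hy (mem_chart_source _ x)
          (Subsingleton.elim _ _)
      · rw [singleton_subset_iff]; exact mem_chart_source _ x
    rwa [h2] at h1
  have hfin : Finite M := finite_of_compact_of_discrete
  by_contra hcon
  push Not at hcon
  have h0 : ν univ = 0 := by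
    have : (univ : Set M) = ⋃ x : M, {x} := (iUnion_of_singleton M).symm
    rw [this]
    exact measure_iUnion_null hcon
  rw [measure_univ] at h0
  exact one_ne_zero h0

/-- the zero-dimensional case of the first half of `NoSmoothPositiveVolumeModel` -/
theorem noModel_dim_zero {X : Type*} [MeasurableSpace X] (μ : Measure X) (T : X → X)
    (hstd : Crest.AnalysisR.IsStandardProbability μ)
    (M : Type) [TopologicalSpace M] [T2Space M] [CompactSpace M]
    [ChartedSpace (EuclideanSpace ℝ (Fin 0)) M] [MeasurableSpace M] [BorelSpace M]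
    (ν : Measure M) [IsProbabilityMeasure ν] (S : M → M) :
    ¬ Crest.AnalysisR.AreMeasConjugate μ T ν S := by
  obtain ⟨x, hx⟩ := exists_atom_of_dim_zero M ν
  exact not_conj_of_atom μ T ν S hstd x hx

end Crest.Agent.R133.Mfd
end

-- ▼ part R133/Mfd
section

/-! Row 133 (S0182), section 5 = MFD, final statement `StNoModel`. -/

set_option autoImplicit false

namespace Crest.Agent.R133.Mfd

open MeasureTheory Metric Set Filter
open scoped Manifold ContDiff Topology ENNReal

section
variable {d : ℕ} {H : Type*} [TopologicalSpace H]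
  {I : ModelWithCorners ℝ (EuclideanSpace ℝ (Fin (d + 1))) H}

/-- transfer of a conjugacy to the abstract smooth model -/
theorem noConj (hI : GoodRange (range I)) {X : Type*} [MeasurableSpace X] (μ : Measure X)
    (T : X → X)
    (hno : ∀ (D : ℝ) (f : EE (d + 1) → EE (d + 1)) (F : X → EE (d + 1)) (G : EE (d + 1) → X),
      1 ≤ D → SM D f (μ.map F) → Measurable F → Measurable G →
      (∀ᵐ x ∂μ, G (F x) = x) → (∀ᵐ x ∂μ, f (F x) = F (T x)) → False)
    {M : Type*} [TopologicalSpace M] [T2Space M] [CompactSpace M] [ChartedSpace H M]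
    [IsManifold I ∞ M] [MeasurableSpace M] [BorelSpace M] (ν : Measure M)
    (S : Diffeomorph I I M M ∞) (hν1 : IsProbabilityMeasure ν)
    (hν : Crest.AnalysisR.HasSmoothPositiveDensity I ν) (hS : MeasurePreserving S ν ν) :
    ¬ Crest.AnalysisR.AreMeasConjugate μ T ν S := by
  rintro ⟨X₀, M₀, F, G, hX₀, hM₀, hX₀c, hM₀c, hTX, hSM, hF, hG, hbij, hGF, hmap, hconj⟩
  obtain ⟨D, f, F', G', hD1, hSMf, hF', hG', hGF', hfF'⟩ := mfd hI ν hν S hS
  have hae : ∀ᵐ x ∂μ, x ∈ X₀ := by
    rw [ae_iff]; exact hX₀c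
  refine hno D f (F' ∘ F) (G ∘ G') hD1 ?_ (hF'.comp hF) (hG.comp hG') ?_ ?_
  · rw [← Measure.map_map hF' hF, hmap]; exact hSMf
  · filter_upwards [hae] with x hx
    simp only [Function.comp, hGF', hGF x hx]
  · filter_upwards [hae] with x hx
    simp only [Function.comp, hfF', hconj x hx]

end

end Crest.Agent.R133.Mfd

namespace Crest.Agent.R133

open Mfd

/-- THE MANIFOLD LAYER -/
theorem stNoModel : StNoModel := by
  intro X _ μ _ T hstd hno
  refine ⟨?_, ?_⟩
  · intro d M _ _ _ _ _ _ _ ν S hν1 hν hS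
    rcases d with _ | d
    · exact noModel_dim_zero μ T hstd M ν S
    · exact noConj (goodRange_univ (d + 1)) μ T (hno d) ν S hν1 hν hS
  · intro d M _ _ _ _ _ _ _ ν S hν1 hν hS
    exact noConj (goodRange_half d) μ T (hno d) ν S hν1 hν hS

end Crest.Agent.R133
end

-- ▼ part R133/Main2
section

/-!
# Row 133 (S0182): the final assembly, smooth side discharged
-/

set_option autoImplicit false

open MeasureTheory Filter Set Metric
open scoped ENNReal Topology

namespace Crest.Agent.R133.XF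

/-- S0182 from the three remaining nodes. -/
theorem main' (hComb : StComb) (hA : StTheoremA) (hPot : StPot) :
    ∃ (X : Type) (_ : MeasurableSpace X) (μ : Measure X) (T : X ≃ᵐ X),
      IsProbabilityMeasure μ ∧ Crest.AnalysisR.IsStandardProbability μ ∧
      MeasurePreserving T μ μ ∧ Ergodic T μ ∧ Crest.AnalysisR.HasZeroEntropy μ T ∧
      Crest.AnalysisR.NoSmoothPositiveVolumeModel μ T :=
  main hComb hA hPot (fun d i => smoothAt (QSet.measurableSet_qs (d + 1) i) (QSet.qs_thin (d + 1) i))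
    stNoModel

end Crest.Agent.R133.XF
end

-- ▼ part R133/CombZeta
section

/-!
Row 133 (S0182), section 3: the CONSEQUENCE of (B): `log Z_s(λ_s) ≤ 0.01 log K_s` (helper943),
and the ball bound `E_w log |{w' : ham ≤ k}| ≤ λ_s k + log Z_s(λ_s)`.
-/

set_option autoImplicit false

open Finset

namespace Crest.Agent.R133

theorem Z_zero (τ : Tau) : Z τ 0 (lam 0) = 1 + 1 / 512 := by
  have hlam : lam 0 = Real.log 512 := by
    have h512 : (512 : ℝ) = 2 ^ 9 := by norm_num
    simp only [lam, hh, KK, NN]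
    rw [h512, Real.log_pow]; push_cast; ring
  have hexp : Real.exp (-Real.log 512) = 1 / 512 := by
    rw [Real.exp_neg, Real.exp_log (by norm_num)]; norm_num
  have key : ∀ b b' : Bool, ham 1 (fun _ => b) (fun _ => b') = if b = b' then 0 else 1 := by
    intro b b'
    rw [ham_eq_sum]
    by_cases h : b = b' <;> simp [h]
  rw [hlam]
  have hZ : Z τ 0 (Real.log 512) = (1 / (2 : ℝ)) * ∑ w : Bool, ∑ w' : Bool,
      Real.exp (-(Real.log 512) * (ham 1 (fun _ => w) (fun _ => w') : ℝ)) := by
    rfl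
  rw [hZ]
  simp only [Fintype.sum_bool, key]
  simp [hexp]
  norm_num

theorem logKK_zero : Real.log ((KK 0 : ℕ) : ℝ) = Real.log 2 := by simp [KK]

/-- power mean inequality with consecutive exponents. -/
theorem powmean {ι : Type*} (s : Finset ι) (hs : s.Nonempty) (y : ι → ℝ) (hy : ∀ i ∈ s, 0 ≤ y i)
    (n : ℕ) (hn : 1 ≤ n) :
    ((∑ i ∈ s, y i ^ n) / s.card) ^ (n + 1) ≤ ((∑ i ∈ s, y i ^ (n + 1)) / s.card) ^ n := by
  have hc : (0 : ℝ) < s.card := by exact_mod_cast hs.card_pos
  have hn0 : (0 : ℝ) < n := by exact_mod_cast hn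
  have hp : (1 : ℝ) ≤ (n + 1 : ℝ) / n := by
    rw [le_div_iff₀ hn0]; linarith
  have h := Real.rpow_arith_mean_le_arith_mean_rpow s (fun _ => 1 / (s.card : ℝ))
    (fun i => y i ^ n) (fun i _ => by positivity) (by
      rw [Finset.sum_const, nsmul_eq_mul]; field_simp) (fun i hi => pow_nonneg (hy i hi) n) hp
  have e1 : ∑ i ∈ s, (1 / (s.card : ℝ)) * (y i ^ n) = (∑ i ∈ s, y i ^ n) / s.card := by
    rw [← Finset.mul_sum]; ring
  have e2 : ∑ i ∈ s, (1 / (s.card : ℝ)) * ((y i ^ n) ^ ((n + 1 : ℝ) / n))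
      = (∑ i ∈ s, y i ^ (n + 1)) / s.card := by
    rw [← Finset.mul_sum, one_div, inv_mul_eq_div]
    congr 1
    apply Finset.sum_congr rfl
    intro i hi
    rw [← Real.rpow_natCast (y i) n, ← Real.rpow_mul (hy i hi)]
    rw [mul_div_cancel₀ _ hn0.ne']
    exact_mod_cast Real.rpow_natCast (y i) (n + 1)
  rw [e1, e2] at h
  have hA : 0 ≤ (∑ i ∈ s, y i ^ n) / (s.card : ℝ) :=
    div_nonneg (Finset.sum_nonneg (fun i hi => pow_nonneg (hy i hi) n)) hc.le
  have h2 := pow_le_pow_left₀ (Real.rpow_nonneg hA _) h n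
  refine le_trans (le_of_eq ?_) h2
  rw [← Real.rpow_natCast _ n, ← Real.rpow_mul hA, div_mul_cancel₀ _ hn0.ne']
  exact_mod_cast (Real.rpow_natCast _ (n + 1)).symm

theorem hh_succ (s : ℕ) : hh (s + 1) * (mm s : ℝ) = ((mm s - 1 : ℕ) : ℝ) * hh s := by
  have hN : (NN s : ℝ) ≠ 0 := by exact_mod_cast (NN_pos s).ne'
  have hm : (mm s : ℝ) ≠ 0 := by exact_mod_cast (mm_pos s).ne'
  unfold hh
  rw [KK_succ, NN_succ]
  push_cast
  rw [Real.log_pow]
  field_simp

theorem logKK_succ (s : ℕ) :
    Real.log (KK (s + 1)) = ((mm s - 1 : ℕ) : ℝ) * Real.log (KK s) := by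
  rw [KK_succ]; push_cast; rw [Real.log_pow]

attribute [local irreducible] NN KK mm nn

/-- Hölder: `Z_s(λ_{s+1})^m ≤ Z_s(λ_s)^{m-1} K_s`. -/
theorem Z_holder (τ : Tau) (s : ℕ) :
    Z τ s (lam (s + 1)) ^ (mm s) ≤ Z τ s (lam s) ^ (mm s - 1) * KK s := by
  have hm := mm_ge s
  have hK : (0 : ℝ) < KK s := by exact_mod_cast KK_pos s
  have hmpos : (0 : ℝ) < mm s := by exact_mod_cast mm_pos s
  obtain ⟨n, hn⟩ : ∃ n, mm s = n + 1 := ⟨mm s - 1, by omega⟩
  have hn1 : mm s - 1 = n := by omega
  let y : W s × W s → ℝ := fun p =>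
    Real.exp (-(lam s / mm s) * (ham (NN s) (nm τ s p.1) (nm τ s p.2) : ℝ))
  have hy : ∀ p ∈ (univ : Finset (W s × W s)), 0 ≤ y p := fun p _ => (Real.exp_pos _).le
  have h := powmean (univ : Finset (W s × W s)) ⟨(default, default), mem_univ _⟩ y hy n (by omega)
  have hcard : ((univ : Finset (W s × W s)).card : ℝ) = (KK s : ℝ) * KK s := by
    rw [card_univ, Fintype.card_prod, card_W]; push_cast; ring
  have e1 : (∑ p ∈ (univ : Finset (W s × W s)), y p ^ n) / ((univ : Finset (W s × W s)).card : ℝ)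
      = Z τ s (lam (s + 1)) / KK s := by
    rw [hcard, Z, ← Finset.univ_product_univ, Finset.sum_product]
    have : ∀ w w' : W s, y (w, w') ^ n
        = Real.exp (-(lam (s + 1)) * (ham (NN s) (nm τ s w) (nm τ s w') : ℝ)) := by
      intro w w'
      simp only [y]
      rw [← Real.exp_nat_mul]
      congr 1
      have h1 := hh_succ s
      rw [hn1] at h1
      unfold lam
      have h2 : hh (s + 1) = (n : ℝ) * hh s / mm s := by
        rw [eq_div_iff hmpos.ne']; exact h1
      rw [h2]; ring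
    simp only [this]
    rw [one_div, inv_mul_eq_div, div_div]
  have e2 : (∑ p ∈ (univ : Finset (W s × W s)), y p ^ (n + 1)) / ((univ : Finset (W s × W s)).card : ℝ)
      = Z τ s (lam s) / KK s := by
    rw [hcard, Z, ← Finset.univ_product_univ, Finset.sum_product]
    have : ∀ w w' : W s, y (w, w') ^ (n + 1)
        = Real.exp (-(lam s) * (ham (NN s) (nm τ s w) (nm τ s w') : ℝ)) := by
      intro w w'
      simp only [y]
      rw [← Real.exp_nat_mul]
      congr 1
      have : ((n + 1 : ℕ) : ℝ) = mm s := by rw [hn]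
      rw [this]
      field_simp
    simp only [this]
    rw [one_div, inv_mul_eq_div, div_div]
  rw [e1, e2, div_pow, div_pow] at h
  rw [hn1, hn]
  rw [div_le_div_iff₀ (by positivity) (by positivity)] at h
  have h3 : Z τ s (lam (s + 1)) ^ (n + 1) * (KK s : ℝ) ^ n
      ≤ (Z τ s (lam s) ^ n * KK s) * (KK s : ℝ) ^ n := by
    calc _ ≤ _ := h
      _ = _ := by ring
  exact le_of_mul_le_mul_right h3 (by positivity)

/-- CONSEQUENCE of (B). -/
theorem stZeta : StZeta := by
  intro τ hB
  have hmain : ∀ s, Real.log (Z τ s (lam s)) ≤ 0.01 * Real.log (KK s) - 0.002 := by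
    intro s
    induction s with
    | zero =>
      rw [Z_zero]
      have h1 : Real.log (1 + 1 / 512 : ℝ) ≤ 1 / 512 := by
        have := Real.log_le_sub_one_of_pos (show (0 : ℝ) < 1 + 1 / 512 by norm_num)
        linarith
      have h2 : (0.6931471803 : ℝ) < Real.log 2 := Real.log_two_gt_d9
      rw [logKK_zero]
      norm_num at h1 ⊢
      linarith
    | succ s ih =>
      have hm := mm_ge s
      have hK : (0 : ℝ) < KK s := by exact_mod_cast KK_pos s
      have hZ1 : 1 ≤ Z τ s (lam s) := Z_ge_one τ s _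
      have hZ2 : 1 ≤ Z τ (s + 1) (lam (s + 1)) := Z_ge_one τ (s + 1) _
      have h1 : Z τ (s + 1) (lam (s + 1)) ≤ 5 * Z τ s (lam s) ^ (mm s - 1) := by
        have h2 : 4 * Z τ s (lam (s + 1)) ^ (mm s) / KK s ≤ 4 * Z τ s (lam s) ^ (mm s - 1) := by
          rw [div_le_iff₀ hK]
          have := Z_holder τ s
          nlinarith
        have h3 : (1 : ℝ) ≤ Z τ s (lam s) ^ (mm s - 1) := one_le_pow₀ hZ1
        have := hB s
        linarith
      have h4 : Real.log (Z τ (s + 1) (lam (s + 1)))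
          ≤ Real.log 5 + ((mm s - 1 : ℕ) : ℝ) * Real.log (Z τ s (lam s)) := by
        have h5 := Real.log_le_log (by linarith) h1
        rw [Real.log_mul (by norm_num) (by positivity), Real.log_pow] at h5
        exact h5
      have h6 : Real.log 5 ≤ 2 := by
        have : Real.log 5 ≤ Real.log (Real.exp 1 ^ 2) := by
          apply Real.log_le_log (by norm_num)
          have := Real.exp_one_gt_d9
          nlinarith
        rwa [Real.log_pow, Real.log_exp, mul_one] at this
      have h7 : (1599 : ℝ) ≤ ((mm s - 1 : ℕ) : ℝ) := by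
        exact_mod_cast (by omega : 1599 ≤ mm s - 1)
      rw [logKK_succ]
      have h8 : ((mm s - 1 : ℕ) : ℝ) * Real.log (Z τ s (lam s))
          ≤ ((mm s - 1 : ℕ) : ℝ) * (0.01 * Real.log (KK s) - 0.002) :=
        mul_le_mul_of_nonneg_left ih (by linarith)
      nlinarith
  intro s
  have := hmain s
  linarith


end Crest.Agent.R133
end

-- ▼ part R133/PotMain
section

set_option autoImplicit false

namespace Crest.Agent.R133

/-- THEOREM POT -/
theorem stPot : StPot := Pot.stPot_of_zeta stZeta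

end Crest.Agent.R133
end

-- ▼ part R133/TA1
section

/-! Row 133, Theorem A, part 1: the path space of a tower system and its `ℤ`-action.

Generic data: types `W s`, integers `m s ≥ 2`, block maps `blk s : W (s+1) → ℕ → W s`
(only the indices `j < m s` matter).  `N 0 = 1`, `N (s+1) = m s * N s`. -/

set_option autoImplicit false

namespace Crest.Agent.R133.TA

open MeasureTheory

section det

variable {W : ℕ → Type} (m : ℕ → ℕ) (blk : ∀ s, W (s + 1) → ℕ → W s)

/-- the heights of the towers -/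
def Nn (m : ℕ → ℕ) : ℕ → ℕ
  | 0 => 1
  | (s + 1) => m s * Nn m s

@[simp] lemma Nn_zero : Nn m 0 = 1 := rfl

lemma Nn_succ (s : ℕ) : Nn m (s + 1) = m s * Nn m s := rfl

/-- the projection from level `s+1` to level `s` -/
def pr (s : ℕ) (a : W (s + 1) × ℕ) : W s × ℕ :=
  (blk s a.1 (a.2 / Nn m s), a.2 % Nn m s)

/-- the projection from level `r` to level `s ≤ r` -/
def P {s r : ℕ} (h : s ≤ r) (a : W r × ℕ) : W s × ℕ :=
  Nat.decreasingInduction (motive := fun s _ => W s × ℕ) (fun k _ b => pr m blk k b) a h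

@[simp] lemma P_self (r : ℕ) (a : W r × ℕ) : P m blk (le_refl r) a = a :=
  Nat.decreasingInduction_self ..

lemma P_succ {s r : ℕ} (h : s ≤ r) (a : W (r + 1) × ℕ) :
    P m blk (h.trans (Nat.le_succ r)) a = P m blk h (pr m blk r a) :=
  Nat.decreasingInduction_succ ..

lemma P_left {s r : ℕ} (h : s + 1 ≤ r) (a : W r × ℕ) :
    P m blk (Nat.le_of_succ_le h) a = pr m blk s (P m blk h a) :=
  Nat.decreasingInduction_succ_left ..

lemma P_trans {s r t : ℕ} (h1 : s ≤ r) (h2 : r ≤ t) (a : W t × ℕ) :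
    P m blk (h1.trans h2) a = P m blk h1 (P m blk h2 a) :=
  Nat.decreasingInduction_trans ..

variable (hm : ∀ s, 2 ≤ m s)

include hm in
lemma Nn_pos (s : ℕ) : 0 < Nn m s := by
  induction s with
  | zero => simp
  | succ s ih => rw [Nn_succ]; exact Nat.mul_pos (by have := hm s; omega) ih

include hm in
lemma Nn_ge (s : ℕ) : 2 ^ s ≤ Nn m s := by
  induction s with
  | zero => simp
  | succ s ih =>
    rw [Nn_succ, pow_succ, mul_comm]
    exact Nat.mul_le_mul (hm s) ih

lemma Nn_dvd_succ (s : ℕ) : Nn m s ∣ Nn m (s + 1) := ⟨m s, by rw [Nn_succ, mul_comm]⟩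

lemma Nn_dvd {s r : ℕ} (h : s ≤ r) : Nn m s ∣ Nn m r := by
  induction r, h using Nat.le_induction with
  | base => exact dvd_rfl
  | succ r h ih => exact ih.trans (Nn_dvd_succ m r)

/-- second component of an iterated projection -/
lemma P_snd {s r : ℕ} (h : s ≤ r) (a : W r × ℕ) (ha : a.2 < Nn m r) :
    (P m blk h a).2 = a.2 % Nn m s := by
  induction r, h using Nat.le_induction with
  | base => rw [P_self, Nat.mod_eq_of_lt ha]
  | succ r h ih =>
    rw [P_succ m blk h]
    rcases Nat.eq_zero_or_pos (Nn m r) with h0 | h0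
    · rw [Nn_succ, h0] at ha; omega
    rw [ih _ (Nat.mod_lt _ h0)]
    simp only [pr]
    exact Nat.mod_mod_of_dvd _ (Nn_dvd m h)

/-- the path space -/
structure IsPath (z : ∀ s, W s × ℕ) : Prop where
  lt : ∀ s, (z s).2 < Nn m s
  pr : ∀ s, pr m blk s (z (s + 1)) = z s
  up : ∀ M, ∃ s, M ≤ (z s).2
  dn : ∀ M, ∃ s, (z s).2 + M < Nn m s

variable {m blk}

/-- consistency over several levels -/
lemma P_consistent {z : ∀ s, W s × ℕ} (hz : ∀ s, pr m blk s (z (s + 1)) = z s) {s r : ℕ}
    (h : s ≤ r) : P m blk h (z r) = z s := by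
  induction r, h using Nat.le_induction with
  | base => simp
  | succ r h ih => rw [P_succ m blk h, hz, ih]

lemma IsPath.P {z : ∀ s, W s × ℕ} (hz : IsPath m blk z) {s r : ℕ} (h : s ≤ r) :
    TA.P m blk h (z r) = z s := P_consistent hz.pr h

/-- `φ_{s+1} = j N_s + φ_s` -/
lemma IsPath.decomp {z : ∀ s, W s × ℕ} (hz : IsPath m blk z) (s : ℕ) :
    (z (s + 1)).2 = Nn m s * ((z (s + 1)).2 / Nn m s) + (z s).2 := by
  have h : (z (s + 1)).2 % Nn m s = (z s).2 := congrArg Prod.snd (hz.pr s)
  rw [← h]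
  simp only [Nat.div_add_mod]

variable (m) in
/-- `k` can be applied at level `r` -/
def Good (k : ℤ) (r : ℕ) (n : ℕ) : Prop := 0 ≤ (n : ℤ) + k ∧ (n : ℤ) + k < Nn m r

instance (k : ℤ) (r n : ℕ) : Decidable (Good m k r n) := by unfold Good; infer_instance

lemma IsPath.good_succ {z : ∀ s, W s × ℕ} (hz : IsPath m blk z) {k : ℤ} {r : ℕ}
    (h : Good m k r (z r).2) : Good m k (r + 1) (z (r + 1)).2 := by
  have h1 := hz.decomp r
  have h2 := hz.lt (r + 1)
  rw [Nn_succ] at h2
  set q := (z (r + 1)).2 / Nn m r with hq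
  have hqm : q < m r := by
    by_contra hcon
    push Not at hcon
    have : m r * Nn m r ≤ q * Nn m r := Nat.mul_le_mul hcon le_rfl
    nlinarith
  refine ⟨?_, ?_⟩
  · have := h.1
    rw [h1]; push_cast
    have : (0 : ℤ) ≤ (Nn m r : ℤ) * q := by positivity
    omega
  · have h3 := h.2
    rw [h1, Nn_succ]; push_cast
    have h4 : (q : ℤ) + 1 ≤ m r := by exact_mod_cast hqm
    have h5 : (0 : ℤ) ≤ Nn m r := by positivity
    nlinarith

lemma IsPath.good_mono {z : ∀ s, W s × ℕ} (hz : IsPath m blk z) {k : ℤ} {r t : ℕ}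
    (h : Good m k r (z r).2) (hrt : r ≤ t) : Good m k t (z t).2 := by
  induction t, hrt using Nat.le_induction with
  | base => exact h
  | succ t ht ih => exact hz.good_succ ih

lemma IsPath.exists_good {z : ∀ s, W s × ℕ} (hz : IsPath m blk z) (k : ℤ) :
    ∃ r, Good m k r (z r).2 := by
  rcases le_or_gt 0 k with hk | hk
  · obtain ⟨r, hr⟩ := hz.dn k.toNat
    refine ⟨r, by positivity, ?_⟩
    have : (k.toNat : ℤ) = k := Int.toNat_of_nonneg hk
    have h2 : ((z r).2 : ℤ) + k.toNat < Nn m r := by exact_mod_cast hr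
    omega
  · obtain ⟨r, hr⟩ := hz.up (-k).toNat
    have : ((-k).toNat : ℤ) = -k := Int.toNat_of_nonneg (by omega)
    have h2 : ((-k).toNat : ℤ) ≤ (z r).2 := by exact_mod_cast hr
    have h3 := hz.lt r
    have h4 : ((z r).2 : ℤ) < Nn m r := by exact_mod_cast h3
    exact ⟨r, by omega, by omega⟩

/-- the shifted point at a good level -/
def sh (k : ℤ) (a : ∀ s, W s × ℕ) (r : ℕ) : W r × ℕ := ((a r).1, ((a r).2 + k).toNat)

lemma sh_lt {z : ∀ s, W s × ℕ} {k : ℤ} {r : ℕ} (h : Good m k r (z r).2) :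
    (sh k z r).2 < Nn m r := by
  unfold sh
  simp only
  have h1 := Int.toNat_of_nonneg h.1
  have h2 := h.2
  omega

lemma IsPath.pr_sh {z : ∀ s, W s × ℕ} (hz : IsPath m blk z) {k : ℤ} {r : ℕ}
    (h : Good m k r (z r).2) : TA.pr m blk r (sh k z (r + 1)) = sh k z r := by
  have h1 := hz.decomp r
  have h0 := hz.pr r
  have hpos : 0 < Nn m r := lt_of_le_of_lt (Nat.zero_le _) (hz.lt r)
  set q := (z (r + 1)).2 / Nn m r with hq
  obtain ⟨u, hu⟩ : ∃ u : ℕ, ((z r).2 : ℤ) + k = u := ⟨(((z r).2 : ℤ) + k).toNat,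
    (Int.toNat_of_nonneg h.1).symm⟩
  have hu2 : u < Nn m r := by
    have := h.2
    rw [hu] at this
    exact_mod_cast this
  have e1 : (((z (r + 1)).2 : ℤ) + k).toNat = Nn m r * q + u := by
    rw [h1]
    have : (((Nn m r * q + (z r).2 : ℕ) : ℤ) + k) = ((Nn m r * q + u : ℕ) : ℤ) := by
      push_cast
      rw [add_assoc, hu]
    rw [this, Int.toNat_natCast]
  have e2 : (((z r).2 : ℤ) + k).toNat = u := by rw [hu, Int.toNat_natCast]
  have hd : (Nn m r * q + u) / Nn m r = q := by
    rw [Nat.mul_add_div hpos, Nat.div_eq_of_lt hu2, add_zero]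
  have hmod : (Nn m r * q + u) % Nn m r = u := by
    rw [Nat.mul_add_mod, Nat.mod_eq_of_lt hu2]
  unfold TA.pr sh
  simp only [e1, e2, hd, hmod]
  have := congrArg Prod.fst h0
  unfold TA.pr at this
  simp only at this
  rw [Prod.mk.injEq]
  exact ⟨this, rfl⟩

lemma IsPath.P_sh {z : ∀ s, W s × ℕ} (hz : IsPath m blk z) {k : ℤ} {s r : ℕ}
    (h : Good m k s (z s).2) (hsr : s ≤ r) : TA.P m blk hsr (sh k z r) = sh k z s := by
  induction r, hsr using Nat.le_induction with
  | base => simp
  | succ r hr ih => rw [P_succ m blk hr, hz.pr_sh (hz.good_mono h hr), ih]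

/-- existence of a good level above `s` -/
lemma IsPath.exists_good_ge {z : ∀ s, W s × ℕ} (hz : IsPath m blk z) (k : ℤ) (s : ℕ) :
    ∃ r, s ≤ r ∧ Good m k r (z r).2 := by
  obtain ⟨r, hr⟩ := hz.exists_good k
  exact ⟨max s r, le_max_left _ _, hz.good_mono hr (le_max_right _ _)⟩

variable (m blk) in
/-- the path space as a type -/
abbrev X : Type := {z : ∀ s, W s × ℕ // IsPath m blk z}

/-- the action, on the level of sequences -/
noncomputable def act (k : ℤ) (z : X m blk) (s : ℕ) : W s × ℕ :=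
  P m blk (Nat.find_spec (z.2.exists_good_ge k s)).1 (sh k z.1 _)

lemma act_eq (k : ℤ) (z : X m blk) {s r : ℕ} (hsr : s ≤ r) (h : Good m k r (z.1 r).2) :
    act k z s = P m blk hsr (sh k z.1 r) := by
  unfold act
  have hsp := Nat.find_spec (z.2.exists_good_ge k s)
  have hle : Nat.find (z.2.exists_good_ge k s) ≤ r := Nat.find_min' _ ⟨hsr, h⟩
  rw [← z.2.P_sh hsp.2 hle, ← P_trans]

lemma act_eq0 (k : ℤ) (z : X m blk) (s : ℕ) (h : Good m k s (z.1 s).2) :
    act k z s = sh k z.1 s := by
  rw [act_eq k z le_rfl h, P_self]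

/-- compatibility -/
lemma act_pr (k : ℤ) (z : X m blk) (s : ℕ) :
    pr m blk s (act k z (s + 1)) = act k z s := by
  obtain ⟨r, hr, hd⟩ := z.2.exists_good_ge k (s + 1)
  rw [act_eq k z hr hd, act_eq k z ((Nat.le_succ s).trans hr) hd]
  exact (P_left m blk hr _).symm

lemma act_lt (k : ℤ) (z : X m blk) (s : ℕ) : (act k z s).2 < Nn m s := by
  obtain ⟨r, hr, hd⟩ := z.2.exists_good_ge k s
  rw [act_eq k z hr hd, P_snd _ _ _ _ (sh_lt hd)]
  exact Nat.mod_lt _ (lt_of_le_of_lt (Nat.zero_le _) (z.2.lt s))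

lemma act_isPath (k : ℤ) (z : X m blk) : IsPath m blk (act k z) where
  lt := act_lt k z
  pr := act_pr k z
  up := by
    intro M
    obtain ⟨r0, hr0⟩ := z.2.up (M + (-k).toNat)
    obtain ⟨r, hr, hd⟩ := z.2.exists_good_ge k r0
    refine ⟨r, ?_⟩
    rw [act_eq0 k z r hd]
    unfold sh
    simp only
    have h1 := Int.toNat_of_nonneg hd.1
    have h2 : (z.1 r0).2 ≤ (z.1 r).2 := by
      have := congrArg Prod.snd (z.2.P hr)
      rw [P_snd _ _ _ _ (z.2.lt r)] at this
      rw [← this]
      exact Nat.mod_le _ _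
    omega
  dn := by
    intro M
    obtain ⟨r, hr⟩ := z.2.exists_good (k + M)
    obtain ⟨r1, hr1⟩ := z.2.exists_good k
    have g1 := z.2.good_mono hr (le_max_left r r1)
    have g2 := z.2.good_mono hr1 (le_max_right r r1)
    refine ⟨max r r1, ?_⟩
    rw [act_eq0 k z _ g2]
    unfold sh
    simp only
    have h1 := Int.toNat_of_nonneg g2.1
    have h2 := g1.2
    omega

/-- the action -/
noncomputable def actX (k : ℤ) (z : X m blk) : X m blk := ⟨act k z, act_isPath k z⟩

lemma actX_val (k : ℤ) (z : X m blk) (s : ℕ) (h : Good m k s (z.1 s).2) :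
    (actX k z).1 s = sh k z.1 s := act_eq0 k z s h

/-- two points of the path space which agree at infinitely many levels are equal -/
lemma X.ext' {z z' : X m blk} (h : ∀ s, ∃ r, s ≤ r ∧ z.1 r = z'.1 r) : z = z' := by
  apply Subtype.ext
  funext s
  obtain ⟨r, hr, he⟩ := h s
  rw [← z.2.P hr, ← z'.2.P hr, he]

lemma actX_add (k l : ℤ) (z : X m blk) : actX l (actX k z) = actX (k + l) z := by
  apply X.ext'
  intro s
  obtain ⟨r1, hr1, h1⟩ := z.2.exists_good_ge k s
  obtain ⟨r2, hr2, h2⟩ := z.2.exists_good_ge (k + l) r1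
  obtain ⟨r3, hr3, h3⟩ := (actX k z).2.exists_good_ge l r2
  refine ⟨r3, by omega, ?_⟩
  have g1 := z.2.good_mono h1 (hr2.trans hr3)
  have g2 := z.2.good_mono h2 hr3
  rw [actX_val l _ _ h3, actX_val (k + l) _ _ g2]
  unfold sh
  rw [actX_val k _ _ g1]
  unfold sh
  simp only
  have e1 := Int.toNat_of_nonneg g1.1
  rw [e1, add_assoc]

lemma actX_zero (z : X m blk) : actX 0 z = z := by
  apply X.ext'
  intro s
  have hg : Good m 0 s (z.1 s).2 := ⟨by simp, by
    have := z.2.lt s
    omega⟩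
  refine ⟨s, le_rfl, ?_⟩
  rw [actX_val 0 z s hg]
  unfold sh
  simp

/-- the bijection `T` of the path space -/
noncomputable def Tequiv : X m blk ≃ X m blk where
  toFun := actX 1
  invFun := actX (-1)
  left_inv z := by rw [actX_add]; exact actX_zero z
  right_inv z := by rw [actX_add]; exact actX_zero z

/-- (T2a) -/
lemma T_step (z : X m blk) (s : ℕ) (h : (z.1 s).2 + 1 < Nn m s) :
    (Tequiv z).1 s = ((z.1 s).1, (z.1 s).2 + 1) := by
  have hg : Good m 1 s (z.1 s).2 := ⟨by positivity, by exact_mod_cast h⟩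
  change (actX 1 z).1 s = _
  rw [actX_val 1 z s hg]
  unfold sh
  rw [Prod.mk.injEq]
  refine ⟨rfl, ?_⟩
  omega

/-- (T2b) -/
lemma T_top (z : X m blk) (s : ℕ) (h : (z.1 s).2 + 1 = Nn m s) :
    ((Tequiv z).1 s).2 = 0 := by
  obtain ⟨r, hr, hd⟩ := z.2.exists_good_ge 1 s
  change (act 1 z s).2 = 0
  rw [act_eq 1 z hr hd, P_snd _ _ _ _ (sh_lt hd)]
  have h1 : (z.1 r).2 % Nn m s = (z.1 s).2 := by
    have := congrArg Prod.snd (z.2.P hr)
    rwa [P_snd _ _ _ _ (z.2.lt r)] at this
  have h2 : (sh 1 z.1 r).2 = (z.1 r).2 + 1 := by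
    unfold sh
    simp only
    omega
  rw [h2, Nat.add_mod, h1]
  rcases Nat.lt_or_ge 1 (Nn m s) with h3 | h3
  · rw [Nat.mod_eq_of_lt h3, h, Nat.mod_self]
  · have : Nn m s = 1 := by omega
    rw [this]; omega

/-- inverse step -/
lemma Tinv_step (z : X m blk) (s : ℕ) (h : 0 < (z.1 s).2) :
    (Tequiv.symm z).1 s = ((z.1 s).1, (z.1 s).2 - 1) := by
  have hl := z.2.lt s
  have hg : Good m (-1) s (z.1 s).2 := ⟨by omega, by omega⟩
  change (actX (-1) z).1 s = _
  rw [actX_val (-1) z s hg]
  unfold sh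
  rw [Prod.mk.injEq]
  refine ⟨rfl, ?_⟩
  omega

/-! ### measurability -/

section meas

variable [∀ s, MeasurableSpace (W s)] [∀ s, Countable (W s)]
  [∀ s, MeasurableSingletonClass (W s)]

lemma measurable_coord (s : ℕ) : Measurable (fun z : X m blk => z.1 s) :=
  (measurable_pi_apply s).comp measurable_subtype_coe

lemma measurableSet_isPath : MeasurableSet {z : ∀ s, W s × ℕ | IsPath m blk z} := by
  have : {z : ∀ s, W s × ℕ | IsPath m blk z} =
      (⋂ s, {z | (z s).2 < Nn m s}) ∩ (⋂ s, {z | pr m blk s (z (s + 1)) = z s}) ∩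
      (⋂ M : ℕ, ⋃ s, {z | M ≤ (z s).2}) ∩ (⋂ M : ℕ, ⋃ s, {z | (z s).2 + M < Nn m s}) := by
    ext z
    simp only [Set.mem_ofPred_eq, Set.mem_inter_iff, Set.mem_iInter, Set.mem_iUnion]
    constructor
    · intro h
      exact ⟨⟨⟨h.lt, h.pr⟩, h.up⟩, h.dn⟩
    · intro h
      exact ⟨h.1.1.1, h.1.1.2, h.1.2, h.2⟩
  rw [this]
  have hc : ∀ (s : ℕ) (A : Set (W s × ℕ)), MeasurableSet {z : ∀ s, W s × ℕ | z s ∈ A} :=
    fun s A => (measurable_pi_apply s) (Set.to_countable A).measurableSet
  refine (((MeasurableSet.iInter fun s => ?_).inter (MeasurableSet.iInter fun s => ?_)).inter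
    (MeasurableSet.iInter fun M => MeasurableSet.iUnion fun s => ?_)).inter
    (MeasurableSet.iInter fun M => MeasurableSet.iUnion fun s => ?_)
  · exact hc s {a | a.2 < Nn m s}
  · have : Measurable (fun z : ∀ s, W s × ℕ => (z (s + 1), z s)) :=
      (measurable_pi_apply _).prodMk (measurable_pi_apply _)
    exact this (Set.to_countable {p : (W (s + 1) × ℕ) × (W s × ℕ) |
      pr m blk s p.1 = p.2}).measurableSet
  · exact hc s {a | M ≤ a.2}
  · exact hc s {a | a.2 + M < Nn m s}

lemma measurable_act (k : ℤ) (s : ℕ) : Measurable (fun z : X m blk => act k z s) := by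
  apply measurable_to_countable'
  intro a
  have : (fun z : X m blk => act k z s) ⁻¹' {a} =
      ⋃ r, {z : X m blk | ∃ h : s ≤ r, Good m k r (z.1 r).2 ∧ P m blk h (sh k z.1 r) = a} := by
    ext z
    simp only [Set.mem_preimage, Set.mem_singleton_iff, Set.mem_iUnion, Set.mem_ofPred_eq]
    constructor
    · intro h
      obtain ⟨r, hr, hd⟩ := z.2.exists_good_ge k s
      exact ⟨r, hr, hd, by rw [← act_eq k z hr hd, h]⟩
    · rintro ⟨r, hr, hd, h⟩
      rw [act_eq k z hr hd, h]
  rw [this]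
  refine MeasurableSet.iUnion fun r => ?_
  exact measurable_coord r (Set.to_countable {b : W r × ℕ | ∃ h : s ≤ r, Good m k r b.2 ∧
    P m blk h (b.1, (b.2 + k).toNat) = a}).measurableSet

lemma measurable_actX (k : ℤ) : Measurable (actX k : X m blk → X m blk) := by
  refine Measurable.subtype_mk ?_
  exact measurable_pi_lambda _ (fun s => measurable_act k s)

variable (m blk) in
/-- `T` as a measurable equivalence -/
noncomputable def T : X m blk ≃ᵐ X m blk where
  toEquiv := Tequiv
  measurable_toFun := measurable_actX 1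
  measurable_invFun := measurable_actX (-1)



instance [∀ s, Finite (W s)] : StandardBorelSpace (X m blk) := by
  have : ∀ s, StandardBorelSpace (W s) := fun s => inferInstance
  exact measurableSet_isPath.standardBorel

/-- the σ-algebra is generated by the coordinates -/
lemma generateFrom_eq : (inferInstance : MeasurableSpace (X m blk)) =
    MeasurableSpace.generateFrom {A | ∃ (s : ℕ) (a : W s × ℕ), A = {z : X m blk | z.1 s = a}} := by
  apply le_antisymm
  · have h : (inferInstance : MeasurableSpace (X m blk)) =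
      ⨆ s, MeasurableSpace.comap (fun z : X m blk => z.1 s) inferInstance := by
      change MeasurableSpace.comap (fun z : X m blk => (z.1 : ∀ s, W s × ℕ))
        (⨆ s, MeasurableSpace.comap (fun b : ∀ s, W s × ℕ => b s) inferInstance) = _
      rw [MeasurableSpace.comap_iSup]
      simp only [MeasurableSpace.comap_comp]
      rfl
    rw [h]
    refine iSup_le fun s => ?_
    rw [← measurable_iff_comap_le]
    refine @measurable_to_countable' _ _ _ _ (MeasurableSpace.generateFrom _) _ ?_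
    intro a
    exact MeasurableSpace.measurableSet_generateFrom ⟨s, a, rfl⟩
  · refine MeasurableSpace.generateFrom_le ?_
    rintro _ ⟨s, a, rfl⟩
    exact measurable_coord s (measurableSet_singleton a)

end meas

end det

end Crest.Agent.R133.TA
end

-- ▼ part R133/TA2
section

/-! Row 133, Theorem A, part 2: the measure on the path space. -/

set_option autoImplicit false

namespace Crest.Agent.R133.TA

open MeasureTheory Set

section enum

variable {W : ℕ → Type} [∀ s, Fintype (W s)] [∀ s, DecidableEq (W s)]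
  {m : ℕ → ℕ} {blk : ∀ s, W (s + 1) → ℕ → W s}

variable (m blk) in
/-- uniformity of all block coordinates -/
def Unif : Prop := ∀ s, ∀ j < m s, ∀ v : W s,
  (Finset.univ.filter (fun w => blk s w j = v)).card * Fintype.card (W s) =
    Fintype.card (W (s + 1))

variable (W m) in
/-- number of states at level `s` -/
def q (s : ℕ) : ℕ := Fintype.card (W s) * Nn m s

variable (W m) in
/-- number of extensions of a state -/
def cc (s : ℕ) : ℕ := m s * (Fintype.card (W (s + 1)) / Fintype.card (W s))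

variable (W m) in
/-- states -/
def St (s : ℕ) : Finset (W s × ℕ) := Finset.univ ×ˢ Finset.range (Nn m s)

omit [∀ s, DecidableEq (W s)] in
lemma mem_St {s : ℕ} {a : W s × ℕ} : a ∈ St W m s ↔ a.2 < Nn m s := by
  simp [St]

omit [∀ s, DecidableEq (W s)] in
lemma card_St (s : ℕ) : (St W m s).card = q W m s := by
  simp [St, q]

variable (m blk) in
/-- extensions of a state -/
def Fib (s : ℕ) (a : W s × ℕ) : Finset (W (s + 1) × ℕ) :=
  (St W m (s + 1)).filter (fun b => pr m blk s b = a)

lemma card_div (hm : ∀ s, 2 ≤ m s) (hU : Unif m blk) [∀ s, Nonempty (W s)] (s : ℕ) :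
    Fintype.card (W (s + 1)) / Fintype.card (W s) * Fintype.card (W s) =
      Fintype.card (W (s + 1)) := by
  obtain ⟨v⟩ : Nonempty (W s) := inferInstance
  have h := hU s 0 (by have := hm s; omega) v
  rw [← h, Nat.mul_div_cancel _ Fintype.card_pos]

lemma card_Fib (hm : ∀ s, 2 ≤ m s) (hU : Unif m blk) [∀ s, Nonempty (W s)] (s : ℕ)
    (a : W s × ℕ) (ha : a.2 < Nn m s) : (Fib m blk s a).card = cc W m s := by
  have hN := Nn_pos m hm s
  have h1 : (Fib m blk s a).card = ∑ j ∈ Finset.range (m s),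
      ((Fib m blk s a).filter (fun b => b.2 / Nn m s = j)).card := by
    refine Finset.card_eq_sum_card_fiberwise ?_
    intro b hb
    have hb' : b.2 < Nn m (s + 1) := mem_St.1 (Finset.mem_filter.1 hb).1
    rw [Nn_succ] at hb'
    simp only [Finset.coe_range, mem_Iio]
    exact Nat.div_lt_of_lt_mul (by rwa [mul_comm] at hb')
  have h2 : ∀ j ∈ Finset.range (m s),
      ((Fib m blk s a).filter (fun b => b.2 / Nn m s = j)).card =
      (Finset.univ.filter (fun w => blk s w j = a.1)).card := by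
    intro j hj
    rw [Finset.mem_range] at hj
    refine Finset.card_nbij' (fun b => b.1) (fun w => (w, Nn m s * j + a.2)) ?_ ?_ ?_ ?_
    · intro b hb
      simp only [Fib, Finset.coe_filter, Finset.mem_filter, mem_ofPred_eq] at hb ⊢
      obtain ⟨⟨_, h⟩, hj⟩ := hb
      refine ⟨Finset.mem_univ _, ?_⟩
      rw [← hj]
      exact congrArg Prod.fst h
    · intro w hw
      simp only [Fib, Finset.coe_filter, Finset.mem_filter, mem_ofPred_eq] at hw ⊢
      have e1 : (Nn m s * j + a.2) / Nn m s = j := by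
        rw [Nat.mul_add_div hN, Nat.div_eq_of_lt ha, add_zero]
      have e2 : (Nn m s * j + a.2) % Nn m s = a.2 := by
        rw [Nat.mul_add_mod, Nat.mod_eq_of_lt ha]
      refine ⟨⟨mem_St.2 ?_, ?_⟩, e1⟩
      · simp only
        rw [Nn_succ]
        have : j + 1 ≤ m s := hj
        nlinarith
      · unfold pr
        simp only [e1, e2, hw.2]
    · intro b hb
      simp only [Fib, Finset.coe_filter, Finset.mem_filter, mem_ofPred_eq] at hb
      obtain ⟨⟨_, h⟩, hj⟩ := hb
      have h2 : b.2 % Nn m s = a.2 := congrArg Prod.snd h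
      apply Prod.ext
      · rfl
      · simp only
        rw [← hj, ← h2, Nat.div_add_mod]
    · intro w hw
      rfl
  have h3 : (Fib m blk s a).card * Fintype.card (W s) = cc W m s * Fintype.card (W s) := by
    rw [h1, Finset.sum_congr rfl h2, Finset.sum_mul,
      Finset.sum_congr rfl (fun j hj => hU s j (Finset.mem_range.1 hj) a.1), Finset.sum_const,
      Finset.card_range, smul_eq_mul, cc, mul_assoc, card_div hm hU]
  exact Nat.eq_of_mul_eq_mul_right Fintype.card_pos h3

lemma q_succ (hm : ∀ s, 2 ≤ m s) (hU : Unif m blk) [∀ s, Nonempty (W s)] (s : ℕ) :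
    q W m (s + 1) = cc W m s * q W m s := by
  unfold q cc
  rw [← card_div hm hU s, Nn_succ]
  simp only [card_div hm hU s]
  conv_lhs => rw [← card_div hm hU s]
  ring

omit [∀ s, DecidableEq (W s)] in
lemma q_pos (hm : ∀ s, 2 ≤ m s) [∀ s, Nonempty (W s)] (s : ℕ) : 0 < q W m s :=
  Nat.mul_pos Fintype.card_pos (Nn_pos m hm s)

lemma cc_pos (hm : ∀ s, 2 ≤ m s) (hU : Unif m blk) [∀ s, Nonempty (W s)] (s : ℕ) :
    0 < cc W m s := by
  have h1 := q_pos (W := W) (m := m) hm (s + 1)
  rw [q_succ hm hU] at h1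
  exact Nat.pos_of_mul_pos_right h1 |> fun h => by
    rcases Nat.eq_zero_or_pos (cc W m s) with h0 | h0
    · rw [h0] at h1; omega
    · exact h0

/-- enumeration of a finset by an initial segment -/
lemma exists_bijOn_Iio {α : Type*} [Nonempty α] (F : Finset α) :
    ∃ g : ℕ → α, BijOn g (Iio F.card) F := by
  classical
  obtain ⟨x0⟩ : Nonempty α := inferInstance
  let e := F.equivFin
  refine ⟨fun k => if h : k < F.card then (e.symm ⟨k, h⟩ : α) else x0, ?_, ?_, ?_⟩
  · intro k hk
    simp only [mem_Iio] at hk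
    simp only [hk, dif_pos, Finset.mem_coe]
    exact (e.symm ⟨k, hk⟩).2
  · intro k hk k' hk' h
    simp only [mem_Iio] at hk hk'
    simp only [hk, hk', dif_pos] at h
    have := e.symm.injective (Subtype.ext h)
    exact congrArg Fin.val this
  · intro b hb
    have hb' : b ∈ F := hb
    refine ⟨(e ⟨b, hb'⟩ : ℕ), (e ⟨b, hb'⟩).2, ?_⟩
    simp

/-- one step of the enumeration -/
lemma enum_step (hm : ∀ s, 2 ≤ m s) (hU : Unif m blk) [∀ s, Nonempty (W s)] (s : ℕ)
    (e : ℕ → W s × ℕ) (he : BijOn e (Iio (q W m s)) {a | a.2 < Nn m s}) :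
    ∃ e' : ℕ → W (s + 1) × ℕ, BijOn e' (Iio (q W m (s + 1))) {a | a.2 < Nn m (s + 1)} ∧
      ∀ k < q W m (s + 1), pr m blk s (e' k) = e (k / cc W m s) := by
  have hg : ∀ a : W s × ℕ, ∃ g : ℕ → W (s + 1) × ℕ, a.2 < Nn m s →
      BijOn g (Iio (cc W m s)) (Fib m blk s a) := by
    intro a
    obtain ⟨g, hg⟩ := exists_bijOn_Iio (Fib m blk s a)
    refine ⟨g, fun ha => ?_⟩
    rwa [card_Fib hm hU s a ha] at hg
  choose g hg using hg
  have hc := cc_pos hm hU s (W := W)
  have hq := q_succ hm hU s (W := W)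
  have hmem : ∀ k, k < q W m (s + 1) → (k / cc W m s) ∈ Iio (q W m s) := by
    intro k hk
    rw [hq] at hk
    exact Nat.div_lt_of_lt_mul hk
  have hG : ∀ k, k < q W m (s + 1) →
      g (e (k / cc W m s)) (k % cc W m s) ∈ Fib m blk s (e (k / cc W m s)) := by
    intro k hk
    exact (hg _ (he.mapsTo (hmem k hk))).mapsTo (Nat.mod_lt _ hc)
  have hpr : ∀ k, k < q W m (s + 1) →
      pr m blk s (g (e (k / cc W m s)) (k % cc W m s)) = e (k / cc W m s) := by
    intro k hk
    exact (Finset.mem_filter.1 (hG k hk)).2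
  refine ⟨fun k => g (e (k / cc W m s)) (k % cc W m s), ⟨?_, ?_, ?_⟩, hpr⟩
  · intro k hk
    exact mem_St.1 (Finset.mem_filter.1 (hG k hk)).1
  · intro k hk k' hk' h
    have h1 : e (k / cc W m s) = e (k' / cc W m s) := by
      rw [← hpr k hk, ← hpr k' hk']
      exact congrArg _ h
    have h2 := he.injOn (hmem k hk) (hmem k' hk') h1
    simp only at h
    rw [h2] at h
    have h3 := (hg _ (he.mapsTo (hmem k' hk'))).injOn (Nat.mod_lt _ hc) (Nat.mod_lt _ hc) h
    rw [← Nat.div_add_mod k (cc W m s), ← Nat.div_add_mod k' (cc W m s), h2, h3]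
  · intro b hb
    have hb' : b.2 < Nn m (s + 1) := hb
    have ha : (pr m blk s b).2 < Nn m s := Nat.mod_lt _ (Nn_pos m hm s)
    obtain ⟨i, hi, hie⟩ := he.surjOn ha
    have hbF : b ∈ (Fib m blk s (pr m blk s b) : Set (W (s + 1) × ℕ)) :=
      Finset.mem_coe.2 (Finset.mem_filter.2 ⟨mem_St.2 hb', rfl⟩)
    obtain ⟨r, hr, hre⟩ := (hg _ ha).surjOn hbF
    simp only [mem_Iio] at hi hr
    refine ⟨cc W m s * i + r, ?_, ?_⟩
    · simp only [mem_Iio]
      rw [hq]
      have : i + 1 ≤ q W m s := hi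
      nlinarith
    · simp only
      rw [Nat.mul_add_div hc, Nat.div_eq_of_lt hr, add_zero, Nat.mul_add_mod,
        Nat.mod_eq_of_lt hr, hie, hre]

/-- existence of compatible enumerations -/
lemma exists_enum (hm : ∀ s, 2 ≤ m s) (hU : Unif m blk) [∀ s, Nonempty (W s)] :
    ∃ e : ∀ s, ℕ → W s × ℕ, (∀ s, BijOn (e s) (Iio (q W m s)) {a | a.2 < Nn m s}) ∧
      ∀ s, ∀ k < q W m (s + 1), pr m blk s (e (s + 1) k) = e s (k / cc W m s) := by
  classical
  have h0 : ∃ e : ℕ → W 0 × ℕ, BijOn e (Iio (q W m 0)) {a | a.2 < Nn m 0} := by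
    obtain ⟨e, he⟩ := exists_bijOn_Iio (St W m 0)
    refine ⟨e, ?_⟩
    rw [card_St] at he
    convert he using 1
    ext a
    simp [mem_St]
  obtain ⟨e0, he0⟩ := h0
  choose F hF using (fun s (e : {e : ℕ → W s × ℕ // BijOn e (Iio (q W m s)) {a | a.2 < Nn m s}}) =>
    enum_step hm hU s e.1 e.2)
  let E : ∀ s, {e : ℕ → W s × ℕ // BijOn e (Iio (q W m s)) {a | a.2 < Nn m s}} :=
    fun s => Nat.rec (motive := fun s =>
      {e : ℕ → W s × ℕ // BijOn e (Iio (q W m s)) {a | a.2 < Nn m s}})
      ⟨e0, he0⟩ (fun s e => ⟨F s e, (hF s e).1⟩) s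
  refine ⟨fun s => (E s).1, fun s => (E s).2, fun s k hk => ?_⟩
  exact (hF s (E s)).2 k hk

end enum

section measure

variable {W : ℕ → Type} [∀ s, Fintype (W s)] [∀ s, DecidableEq (W s)]
  [∀ s, MeasurableSpace (W s)] [∀ s, MeasurableSingletonClass (W s)]
  {m : ℕ → ℕ} {blk : ∀ s, W (s + 1) → ℕ → W s}

/-- the coding of a real number -/
noncomputable def code (W : ℕ → Type) [∀ s, Fintype (W s)] (m : ℕ → ℕ) (e : ∀ s, ℕ → W s × ℕ)
    (y : ℝ) (s : ℕ) : W s × ℕ := e s ⌊y * q W m s⌋₊

omit [∀ s, DecidableEq (W s)] [∀ s, MeasurableSingletonClass (W s)] in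
lemma measurable_code (e : ∀ s, ℕ → W s × ℕ) : Measurable (code W m e) := by
  refine measurable_pi_lambda _ fun s => ?_
  have h1 : Measurable (fun y : ℝ => ⌊y * q W m s⌋₊) :=
    Nat.measurable_floor.comp (measurable_id.mul_const _)
  exact (measurable_of_countable (e s)).comp h1

omit [∀ s, DecidableEq (W s)] in
lemma meas_coord (s : ℕ) (A : Set (W s × ℕ)) : MeasurableSet {z : ∀ s, W s × ℕ | z s ∈ A} :=
  (measurable_pi_apply s) (Set.to_countable A).measurableSet

/-- the measure on sequences -/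
noncomputable def mu0 (W : ℕ → Type) [∀ s, Fintype (W s)] [∀ s, MeasurableSpace (W s)]
    (m : ℕ → ℕ) (e : ∀ s, ℕ → W s × ℕ) : Measure (∀ s, W s × ℕ) :=
  ((volume : Measure ℝ).restrict (Ico 0 1)).map (code W m e)

/-- the measure on the path space -/
noncomputable def mu (blk : ∀ s, W (s + 1) → ℕ → W s) (e : ∀ s, ℕ → W s × ℕ) :
    Measure (X m blk) := (mu0 W m e).comap Subtype.val

variable (m blk) in
/-- good enumerations -/
structure Enum (e : ∀ s, ℕ → W s × ℕ) : Prop where
  bij : ∀ s, BijOn (e s) (Iio (q W m s)) {a | a.2 < Nn m s}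
  pr : ∀ s, ∀ k < q W m (s + 1), pr m blk s (e (s + 1) k) = e s (k / cc W m s)

variable {e : ∀ s, ℕ → W s × ℕ}

lemma floor_lt {y : ℝ} (hy : y ∈ Ico (0 : ℝ) 1) {n : ℕ} (hn : 0 < n) : ⌊y * n⌋₊ < n := by
  rw [Nat.floor_lt (mul_nonneg hy.1 (Nat.cast_nonneg _))]
  have : (0 : ℝ) < n := by exact_mod_cast hn
  nlinarith [hy.2]

lemma code_lt (hm : ∀ s, 2 ≤ m s) [∀ s, Nonempty (W s)] (he : Enum m blk e) {y : ℝ}
    (hy : y ∈ Ico (0 : ℝ) 1) (s : ℕ) : (code W m e y s).2 < Nn m s :=
  (he.bij s).mapsTo (floor_lt hy (q_pos hm s))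

lemma code_pr (hm : ∀ s, 2 ≤ m s) (hU : Unif m blk) [∀ s, Nonempty (W s)]
    (he : Enum m blk e) {y : ℝ} (hy : y ∈ Ico (0 : ℝ) 1) (s : ℕ) :
    pr m blk s (code W m e y (s + 1)) = code W m e y s := by
  unfold code
  rw [he.pr s _ (floor_lt hy (q_pos hm (s + 1)))]
  congr 1
  rw [← Nat.floor_div_natCast]
  congr 1
  rw [q_succ hm hU s]
  have h1 : (cc W m s : ℝ) ≠ 0 := by
    have := cc_pos hm hU s (W := W)
    positivity
  push_cast
  field_simp

/-- the law of the coordinates -/
lemma law (hm : ∀ s, 2 ≤ m s) [∀ s, Nonempty (W s)] (he : Enum m blk e) (s : ℕ)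
    (a : W s × ℕ) (ha : a.2 < Nn m s) :
    mu0 W m e {z | z s = a} = ENNReal.ofReal (1 / q W m s) := by
  have hmeas : MeasurableSet {z : ∀ s, W s × ℕ | z s = a} := meas_coord s {b | b = a}
  rw [mu0, Measure.map_apply (measurable_code e) hmeas,
    Measure.restrict_apply ((measurable_code e) hmeas)]
  obtain ⟨k, hk, hke⟩ := (he.bij s).surjOn ha
  simp only [mem_Iio] at hk
  have hq : (0 : ℝ) < q W m s := by exact_mod_cast q_pos (W := W) hm s
  have : code W m e ⁻¹' {z | z s = a} ∩ Ico 0 1 =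
      Ico ((k : ℝ) / q W m s) (((k : ℝ) + 1) / q W m s) := by
    ext y
    simp only [mem_inter_iff, mem_preimage, mem_ofPred_eq]
    constructor
    · rintro ⟨h1, h2⟩
      have h3 : ⌊y * q W m s⌋₊ = k := by
        apply (he.bij s).injOn (floor_lt h2 (q_pos hm s)) hk
        rw [hke]; exact h1
      have h4 := Nat.floor_le (mul_nonneg h2.1 hq.le)
      have h5 := Nat.lt_floor_add_one (y * q W m s)
      rw [h3] at h4 h5
      rw [mem_Ico, div_le_iff₀ hq, lt_div_iff₀ hq]
      exact ⟨h4, h5⟩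
    · intro h
      rw [mem_Ico, div_le_iff₀ hq, lt_div_iff₀ hq] at h
      have h0 : 0 ≤ y := by
        have : (0 : ℝ) ≤ k := Nat.cast_nonneg _
        by_contra hcon
        push Not at hcon
        nlinarith
      have h1 : y < 1 := by
        have : (k : ℝ) + 1 ≤ q W m s := by exact_mod_cast hk
        by_contra hcon
        push Not at hcon
        nlinarith
      refine ⟨?_, h0, h1⟩
      unfold code
      have : ⌊y * q W m s⌋₊ = k := by
        rw [Nat.floor_eq_iff (mul_nonneg h0 hq.le)]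
        exact h
      rw [this, hke]
  rw [this, Real.volume_Ico]
  congr 1
  field_simp
  ring

lemma law_zero (hm : ∀ s, 2 ≤ m s) [∀ s, Nonempty (W s)] (he : Enum m blk e) (s : ℕ)
    (a : W s × ℕ) (ha : ¬ a.2 < Nn m s) :
    mu0 W m e {z | z s = a} = 0 := by
  have hmeas : MeasurableSet {z : ∀ s, W s × ℕ | z s = a} := meas_coord s {b | b = a}
  rw [mu0, Measure.map_apply (measurable_code e) hmeas,
    Measure.restrict_apply ((measurable_code e) hmeas)]
  convert measure_empty (μ := (volume : Measure ℝ))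
  ext y
  simp only [mem_inter_iff, mem_preimage, mem_ofPred_eq, mem_empty_iff_false, iff_false, not_and]
  intro h1 h2
  exact ha (h1 ▸ code_lt hm he h2 s)

instance : IsProbabilityMeasure (mu0 W m e) := by
  have : IsProbabilityMeasure ((volume : Measure ℝ).restrict (Ico 0 1)) := ⟨by simp⟩
  exact Measure.isProbabilityMeasure_map (measurable_code e).aemeasurable

/-- probability of the set of height values in a finset -/
lemma mu0_snd (hm : ∀ s, 2 ≤ m s) [∀ s, Nonempty (W s)] (he : Enum m blk e) (s : ℕ)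
    (A : Finset ℕ) (p : ℕ → Prop) (hp : ∀ i < Nn m s, p i → i ∈ A) :
    mu0 W m e {z | p (z s).2} ≤ ENNReal.ofReal (A.card / Nn m s) := by
  have h1 : mu0 W m e {z | p (z s).2} ≤
      ∑ b ∈ (Finset.univ : Finset (W s)) ×ˢ A, ENNReal.ofReal (1 / q W m s) := by
    have h2 : mu0 W m e {z | p (z s).2} ≤
        mu0 W m e ({z | ¬ (z s).2 < Nn m s} ∪
          ⋃ b ∈ (Finset.univ : Finset (W s)) ×ˢ A, {z | z s = b}) := by
      refine measure_mono ?_
      intro z hz
      by_cases h : (z s).2 < Nn m s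
      · right
        simp only [mem_iUnion]
        exact ⟨z s, Finset.mem_product.2 ⟨Finset.mem_univ _, hp _ h hz⟩, rfl⟩
      · left; exact h
    have h3 : mu0 W m e {z | ¬ (z s).2 < Nn m s} = 0 := by
      have : {z : ∀ s, W s × ℕ | ¬ (z s).2 < Nn m s} ⊆
          ⋃ b : {b : W s × ℕ // ¬ b.2 < Nn m s}, {z | z s = b.1} := by
        intro z hz
        simp only [mem_iUnion]
        exact ⟨⟨z s, hz⟩, rfl⟩
      refine measure_mono_null this ?_
      rw [measure_iUnion_null_iff]
      rintro ⟨b, hb⟩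
      exact law_zero hm he s b hb
    refine h2.trans ((measure_union_le _ _).trans ?_)
    rw [h3, zero_add]
    refine (measure_biUnion_finset_le _ _).trans ?_
    refine Finset.sum_le_sum fun b hb => ?_
    by_cases h : b.2 < Nn m s
    · rw [law hm he s b h]
    · rw [law_zero hm he s b h]; exact bot_le
  refine h1.trans ?_
  rw [Finset.sum_const, Finset.card_product, Finset.card_univ, nsmul_eq_mul,
    ← ENNReal.ofReal_natCast, ← ENNReal.ofReal_mul (Nat.cast_nonneg _)]
  apply ENNReal.ofReal_le_ofReal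
  unfold q
  have h4 : (0 : ℝ) < Fintype.card (W s) := by exact_mod_cast Fintype.card_pos
  have h5 : (0 : ℝ) < Nn m s := by exact_mod_cast Nn_pos m hm s
  push_cast
  apply le_of_eq
  field_simp

lemma tendsto_const_div (hm : ∀ s, 2 ≤ m s) (M : ℕ) :
    Filter.Tendsto (fun s => ENNReal.ofReal ((M : ℝ) / Nn m s)) Filter.atTop (nhds 0) := by
  rw [← ENNReal.ofReal_zero]
  refine ENNReal.tendsto_ofReal ?_
  have h : Filter.Tendsto (fun s => (Nn m s : ℝ)) Filter.atTop Filter.atTop := by
    refine Filter.tendsto_atTop_mono (f := fun s => (2 : ℝ) ^ s) (fun s => ?_)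
      (tendsto_pow_atTop_atTop_of_one_lt one_lt_two)
    exact_mod_cast Nn_ge m hm s
  exact h.const_div_atTop _

lemma ae_isPath (hm : ∀ s, 2 ≤ m s) (hU : Unif m blk) [∀ s, Nonempty (W s)]
    (he : Enum m blk e) : ∀ᵐ z ∂(mu0 W m e), IsPath m blk z := by
  have hcons : ∀ᵐ z ∂(mu0 W m e), (∀ s, (z s).2 < Nn m s) ∧
      (∀ s, pr m blk s (z (s + 1)) = z s) := by
    unfold mu0
    have hmeas : MeasurableSet {z : ∀ s, W s × ℕ | (∀ s, (z s).2 < Nn m s) ∧
        (∀ s, pr m blk s (z (s + 1)) = z s)} := by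
      have : {z : ∀ s, W s × ℕ | (∀ s, (z s).2 < Nn m s) ∧
        (∀ s, pr m blk s (z (s + 1)) = z s)} = (⋂ s, {z | (z s).2 < Nn m s}) ∩
        (⋂ s, {z | pr m blk s (z (s + 1)) = z s}) := by
        ext z; simp
      rw [this]
      refine (MeasurableSet.iInter fun s => ?_).inter (MeasurableSet.iInter fun s => ?_)
      · exact meas_coord s {a : W s × ℕ | a.2 < Nn m s}
      · have : Measurable (fun z : ∀ s, W s × ℕ => (z (s + 1), z s)) :=
          (measurable_pi_apply _).prodMk (measurable_pi_apply _)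
        exact this (Set.to_countable {p : (W (s + 1) × ℕ) × (W s × ℕ) |
          pr m blk s p.1 = p.2}).measurableSet
    rw [ae_map_iff (measurable_code e).aemeasurable hmeas]
    filter_upwards [ae_restrict_mem measurableSet_Ico] with y hy
    exact ⟨fun s => code_lt hm he hy s, fun s => code_pr hm hU he hy s⟩
  have hup : ∀ᵐ z ∂(mu0 W m e), ∀ M : ℕ, ∃ s, M ≤ (z s).2 := by
    rw [ae_all_iff]
    intro M
    rw [ae_iff]
    have h : ∀ s, mu0 W m e {z | ¬ ∃ s, M ≤ (z s).2} ≤ ENNReal.ofReal ((M : ℝ) / Nn m s) := by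
      intro s
      have h1 : mu0 W m e {z | ¬ ∃ s, M ≤ (z s).2} ≤ mu0 W m e {z | (z s).2 < M} := by
        refine measure_mono fun z hz => ?_
        simp only [mem_ofPred_eq, not_exists, not_le] at hz ⊢
        exact hz s
      refine h1.trans ?_
      have h2 := mu0_snd hm he s (Finset.range M) (fun i => i < M)
        (fun i _ hi => Finset.mem_range.2 hi)
      rwa [Finset.card_range] at h2
    exact le_antisymm (ge_of_tendsto' (tendsto_const_div hm M) h) bot_le
  have hdn : ∀ᵐ z ∂(mu0 W m e), ∀ M : ℕ, ∃ s, (z s).2 + M < Nn m s := by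
    rw [ae_all_iff]
    intro M
    rw [ae_iff]
    have h : ∀ s, mu0 W m e {z | ¬ ∃ s, (z s).2 + M < Nn m s} ≤
        ENNReal.ofReal ((M : ℝ) / Nn m s) := by
      intro s
      have h1 : mu0 W m e {z | ¬ ∃ s, (z s).2 + M < Nn m s} ≤
          mu0 W m e {z | Nn m s ≤ (z s).2 + M} := by
        refine measure_mono fun z hz => ?_
        simp only [mem_ofPred_eq, not_exists, not_lt] at hz ⊢
        exact hz s
      refine h1.trans ?_
      have h2 := mu0_snd hm he s (Finset.Ico (Nn m s - M) (Nn m s)) (fun i => Nn m s ≤ i + M)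
        (fun i hi h => Finset.mem_Ico.2 ⟨by omega, hi⟩)
      refine h2.trans (ENNReal.ofReal_le_ofReal ?_)
      rw [Nat.card_Ico]
      gcongr
      omega
    exact le_antisymm (ge_of_tendsto' (tendsto_const_div hm M) h) bot_le
  filter_upwards [hcons, hup, hdn] with z h1 h2 h3
  exact ⟨h1.1, h1.2, h2, h3⟩

lemma mu_apply (A : Set (X m blk)) : mu blk e A = mu0 W m e (Subtype.val '' A) :=
  (MeasurableEmbedding.subtype_coe measurableSet_isPath).comap_apply _ _

lemma mu_preimage (hm : ∀ s, 2 ≤ m s) (hU : Unif m blk) [∀ s, Nonempty (W s)]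
    (he : Enum m blk e) (A : Set (∀ s, W s × ℕ)) :
    mu blk e {z : X m blk | z.1 ∈ A} = mu0 W m e A := by
  rw [mu_apply]
  have h1 : Subtype.val '' {z : X m blk | z.1 ∈ A} = {z | IsPath m blk z} ∩ A := by
    ext z
    constructor
    · rintro ⟨y, hy, rfl⟩
      exact ⟨y.2, hy⟩
    · rintro ⟨h1, h2⟩
      exact ⟨⟨z, h1⟩, h2, rfl⟩
  rw [h1]
  apply measure_congr
  filter_upwards [ae_isPath hm hU he] with z hz
  apply propext
  exact ⟨fun h => h.2, fun h => ⟨hz, h⟩⟩

/-- cylinders -/
def cyl (m : ℕ → ℕ) (blk : ∀ s, W (s + 1) → ℕ → W s) (s : ℕ) (a : W s × ℕ) : Set (X m blk) :=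
  {z | z.1 s = a}

lemma isProb_mu (hm : ∀ s, 2 ≤ m s) (hU : Unif m blk) [∀ s, Nonempty (W s)]
    (he : Enum m blk e) : IsProbabilityMeasure (mu (m := m) blk e) := by
  constructor
  have := mu_preimage hm hU he Set.univ
  simpa using this

/-- (T1) -/
lemma mu_cyl (hm : ∀ s, 2 ≤ m s) (hU : Unif m blk) [∀ s, Nonempty (W s)]
    (he : Enum m blk e) (s : ℕ) (a : W s × ℕ) (ha : a.2 < Nn m s) :
    mu blk e (cyl m blk s a) = ENNReal.ofReal (1 / q W m s) := by
  rw [← law hm he s a ha]
  exact mu_preimage hm hU he {z | z s = a}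

lemma cyl_empty (s : ℕ) (a : W s × ℕ) (ha : ¬ a.2 < Nn m s) : cyl m blk s a = ∅ := by
  ext z
  simp only [cyl, mem_ofPred_eq, mem_empty_iff_false, iff_false]
  intro h
  exact ha (h ▸ z.2.lt s)

lemma measurableSet_cyl (s : ℕ) (a : W s × ℕ) : MeasurableSet (cyl m blk s a) :=
  (measurable_coord s) (measurableSet_singleton a)

end measure

end Crest.Agent.R133.TA
end

-- ▼ part R133/TA3
section

/-! Row 133, Theorem A, part 3: measure preservation, no atoms, ergodicity. -/

set_option autoImplicit false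
set_option linter.unusedSectionVars false

namespace Crest.Agent.R133.TA

open MeasureTheory Set

section

variable {W : ℕ → Type} [∀ s, Fintype (W s)] [∀ s, DecidableEq (W s)]
  [∀ s, MeasurableSpace (W s)] [∀ s, MeasurableSingletonClass (W s)]
  {m : ℕ → ℕ} {blk : ∀ s, W (s + 1) → ℕ → W s} {e : ∀ s, ℕ → W s × ℕ}

lemma T_preimage_cyl (r : ℕ) (b : W r × ℕ) (h1 : 1 ≤ b.2) (h2 : b.2 < Nn m r) :
    (T m blk) ⁻¹' cyl m blk r b = cyl m blk r (b.1, b.2 - 1) := by
  ext z
  constructor
  · intro h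
    have h' : (Tequiv z).1 r = b := h
    have h3 := Tinv_step (Tequiv z) r (by rw [h']; omega)
    rw [Equiv.symm_apply_apply, h'] at h3
    exact h3
  · intro h
    have h' : z.1 r = (b.1, b.2 - 1) := h
    have h3 := T_step z r (by rw [h']; simp only; omega)
    rw [h'] at h3
    change (Tequiv z).1 r = b
    rw [h3]
    apply Prod.ext
    · rfl
    · simp only; omega

/-- the set where `φ_r ≥ 1` -/
def DD (m : ℕ → ℕ) (blk : ∀ s, W (s + 1) → ℕ → W s) (r : ℕ) : Set (X m blk) :=
  {z | 1 ≤ (z.1 r).2}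

/-- decomposition of a cylinder intersected with `D_r` -/
lemma cyl_inter_DD {s r : ℕ} (hsr : s ≤ r) (a : W s × ℕ) :
    cyl m blk s a ∩ DD m blk r =
      ⋃ b ∈ (St W m r).filter (fun b => P m blk hsr b = a ∧ 1 ≤ b.2), cyl m blk r b := by
  ext z
  simp only [mem_inter_iff, mem_iUnion, Finset.mem_filter]
  constructor
  · rintro ⟨h1, h2⟩
    refine ⟨z.1 r, ⟨mem_St.2 (z.2.lt r), ?_, h2⟩, rfl⟩
    rw [z.2.P hsr]; exact h1
  · rintro ⟨b, ⟨_, hb2, hb3⟩, hz⟩
    have hz' : z.1 r = b := hz
    refine ⟨?_, ?_⟩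
    · change z.1 s = a
      rw [← z.2.P hsr, hz', hb2]
    · change 1 ≤ (z.1 r).2
      rw [hz']; exact hb3

lemma cyl_disjoint {r : ℕ} {b b' : W r × ℕ} (h : b ≠ b') :
    Disjoint (cyl m blk r b) (cyl m blk r b') := by
  rw [Set.disjoint_left]
  intro z h1 h2
  exact h (h1.symm.trans h2)

lemma IsPath.snd_mono {z : ∀ s, W s × ℕ} (hz : IsPath m blk z) {s r : ℕ} (h : s ≤ r) :
    (z s).2 ≤ (z r).2 := by
  have := congrArg Prod.snd (hz.P h)
  rw [P_snd _ _ _ _ (hz.lt r)] at this
  rw [← this]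
  exact Nat.mod_le _ _

lemma cyl_eq_iUnion (s : ℕ) (a : W s × ℕ) :
    cyl m blk s a = ⋃ r, cyl m blk s a ∩ DD m blk (s + r) := by
  ext z
  simp only [mem_iUnion, mem_inter_iff]
  constructor
  · intro h
    obtain ⟨r, hr⟩ := z.2.up 1
    exact ⟨r, h, hr.trans (z.2.snd_mono (Nat.le_add_left r s))⟩
  · rintro ⟨r, h, _⟩
    exact h

lemma monotone_inter_DD (s : ℕ) (a : W s × ℕ) :
    Monotone (fun r => cyl m blk s a ∩ DD m blk (s + r)) := by
  intro r r' h z hz
  exact ⟨hz.1, le_trans (hz.2 : 1 ≤ (z.1 (s + r)).2) (z.2.snd_mono (by omega))⟩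

lemma isPiSystem_cyl : IsPiSystem {A | ∃ (s : ℕ) (a : W s × ℕ), A = {z : X m blk | z.1 s = a}} := by
  have key : ∀ (s r : ℕ) (hsr : s ≤ r) (a : W s × ℕ) (b : W r × ℕ),
      ({z : X m blk | z.1 s = a} ∩ {z : X m blk | z.1 r = b}).Nonempty →
      {z : X m blk | z.1 s = a} ∩ {z : X m blk | z.1 r = b} = {z : X m blk | z.1 r = b} := by
    intro s r hsr a b hne
    obtain ⟨y, hy1, hy2⟩ := hne
    have hy1' : y.1 s = a := hy1
    have hy2' : y.1 r = b := hy2
    apply inter_eq_self_of_subset_right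
    intro z hz
    have hz' : z.1 r = b := hz
    change z.1 s = a
    rw [← z.2.P hsr, hz', ← hy2', y.2.P hsr, hy1']
  rintro _ ⟨s, a, rfl⟩ _ ⟨r, b, rfl⟩ hne
  rcases le_total s r with h | h
  · exact ⟨r, b, key s r h a b hne⟩
  · refine ⟨s, a, ?_⟩
    rw [inter_comm]
    exact key r s h b a (by rwa [inter_comm] at hne)

variable (hm : ∀ s, 2 ≤ m s) (hU : Unif m blk) [∀ s, Nonempty (W s)] (he : Enum m blk e)

include hm hU he in
theorem measurePreserving_T : MeasurePreserving (T m blk) (mu (m := m) blk e) (mu blk e) := by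
  have : IsProbabilityMeasure (mu (m := m) blk e) := isProb_mu hm hU he
  refine ⟨(T m blk).measurable, ?_⟩
  have : IsProbabilityMeasure (Measure.map (T m blk) (mu (m := m) blk e)) :=
    Measure.isProbabilityMeasure_map (T m blk).measurable.aemeasurable
  refine ext_of_generate_finite _ generateFrom_eq isPiSystem_cyl ?_ (by simp)
  rintro _ ⟨s, a, rfl⟩
  change Measure.map (T m blk) (mu blk e) (cyl m blk s a) = mu blk e (cyl m blk s a)
  rw [cyl_eq_iUnion s a, (monotone_inter_DD s a).measure_iUnion,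
    (monotone_inter_DD s a).measure_iUnion]
  congr 1
  funext r
  rw [cyl_inter_DD (Nat.le_add_right s r) a]
  have hd : Set.PairwiseDisjoint (↑((St W m (s + r)).filter
      (fun b => P m blk (Nat.le_add_right s r) b = a ∧ 1 ≤ b.2)) : Set (W (s + r) × ℕ))
      (fun b => cyl m blk (s + r) b) := fun b _ b' _ h => cyl_disjoint h
  rw [measure_biUnion_finset hd (fun b _ => measurableSet_cyl _ b),
    measure_biUnion_finset hd (fun b _ => measurableSet_cyl _ b)]
  refine Finset.sum_congr rfl fun b hb => ?_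
  rw [Finset.mem_filter] at hb
  have hlt := mem_St.1 hb.1
  rw [(T m blk).map_apply, T_preimage_cyl _ b hb.2.2 hlt, mu_cyl hm hU he _ b hlt,
    mu_cyl hm hU he]
  simp only
  omega

include hm hU he in
lemma noAtoms_mu : ∀ z : X m blk, mu (m := m) blk e {z} = 0 := by
  intro z
  have h : ∀ s, mu (m := m) blk e {z} ≤ ENNReal.ofReal (((1 : ℕ) : ℝ) / Nn m s) := by
    intro s
    have h1 : ({z} : Set (X m blk)) ⊆ cyl m blk s (z.1 s) := by
      rintro _ rfl
      rfl
    refine (measure_mono h1).trans ?_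
    rw [mu_cyl hm hU he s _ (z.2.lt s)]
    apply ENNReal.ofReal_le_ofReal
    unfold q
    have h4 : (1 : ℝ) ≤ Fintype.card (W s) := by exact_mod_cast Fintype.card_pos
    have h5 : (0 : ℝ) < Nn m s := by exact_mod_cast Nn_pos m hm s
    push_cast
    rw [div_le_div_iff₀ (by positivity) h5]
    nlinarith
  exact le_antisymm (ge_of_tendsto' (tendsto_const_div hm 1) h) bot_le

end

/-! ### the abstract contraction argument -/

section contr

variable {W : ℕ → Type} [∀ s, Fintype (W s)] [∀ s, DecidableEq (W s)]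
  {m : ℕ → ℕ} {blk : ∀ s, W (s + 1) → ℕ → W s}

variable (m blk) in
/-- the contraction hypothesis -/
def Contr : Prop := ∀ s, ∀ g : W s → ℝ, ∑ w, g w = 0 →
  4 * Fintype.card (W s) * ∑ w' : W (s + 1), (∑ j ∈ Finset.range (m s), g (blk s w' j)) ^ 2 ≤
    (m s : ℝ) ^ 2 * Fintype.card (W (s + 1)) * ∑ w, g w ^ 2

lemma sum_blk (hU : Unif m blk) [∀ s, Nonempty (W s)] (s : ℕ) (j : ℕ) (hj : j < m s)
    (g : W s → ℝ) (hg : ∑ w, g w = 0) : ∑ w' : W (s + 1), g (blk s w' j) = 0 := by
  have h1 : ∑ w' : W (s + 1), g (blk s w' j) =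
      ∑ v : W s, ((Finset.univ.filter (fun w => blk s w j = v)).card : ℝ) * g v := by
    rw [← Finset.sum_fiberwise_of_maps_to (s := (Finset.univ : Finset (W (s + 1))))
      (t := (Finset.univ : Finset (W s))) (g := fun w' => blk s w' j)
      (fun _ _ => Finset.mem_univ _)]
    refine Finset.sum_congr rfl fun v _ => ?_
    rw [Finset.sum_congr rfl (g := fun _ => g v)]
    · rw [Finset.sum_const, nsmul_eq_mul]
    · intro w hw
      rw [(Finset.mem_filter.1 hw).2]
  have h2 : (Fintype.card (W s) : ℝ) ≠ 0 := by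
    have : 0 < Fintype.card (W s) := Fintype.card_pos
    positivity
  apply mul_left_cancel₀ h2
  rw [h1, Finset.mul_sum, mul_zero]
  have h3 : ∀ v : W s, (Fintype.card (W s) : ℝ) *
      (((Finset.univ.filter (fun w => blk s w j = v)).card : ℝ) * g v) =
      Fintype.card (W (s + 1)) * g v := by
    intro v
    have := hU s j hj v
    rw [← this]; push_cast; ring
  rw [Finset.sum_congr rfl (fun v _ => h3 v), ← Finset.mul_sum, hg, mul_zero]

lemma contraction (hm : ∀ s, 2 ≤ m s) (hU : Unif m blk) [∀ s, Nonempty (W s)]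
    (hC : Contr m blk) (b : ∀ s, W s → ℝ) (h0 : ∀ s w, 0 ≤ b s w)
    (h1 : ∀ s w, b s w ≤ 1 / (q W m s : ℝ))
    (hE : ∀ s, ∀ g : W s → ℝ, ∑ w, g w * b s w =
      ∑ w' : W (s + 1), (∑ j ∈ Finset.range (m s), g (blk s w' j)) * b (s + 1) w') :
    ∀ s, ∃ c : ℝ, ∀ w, b s w = c := by
  -- means and variances
  let K : ℕ → ℝ := fun s => Fintype.card (W s)
  have hK : ∀ s, 0 < K s := fun s => by
    have h : (0 : ℝ) < (Fintype.card (W s) : ℝ) := by exact_mod_cast Fintype.card_pos
    exact h
  let mn : ℕ → ℝ := fun s => (∑ w, b s w) / K s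
  let V : ℕ → ℝ := fun s => ∑ w, (b s w - mn s) ^ 2
  have hV0 : ∀ s, 0 ≤ V s := fun s => Finset.sum_nonneg fun w _ => sq_nonneg _
  have hg0 : ∀ s, ∑ w, (b s w - mn s) = 0 := by
    intro s
    rw [Finset.sum_sub_distrib, Finset.sum_const, Finset.card_univ, nsmul_eq_mul]
    simp only [mn]
    rw [mul_div_cancel₀ _ (hK s).ne', sub_self]
  have hstep : ∀ s, 4 * K s * V s ≤ (m s : ℝ) ^ 2 * K (s + 1) * V (s + 1) := by
    intro s
    set g : W s → ℝ := fun w => b s w - mn s with hg
    set R : W (s + 1) → ℝ := fun w' => ∑ j ∈ Finset.range (m s), g (blk s w' j) with hR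
    have hR0 : ∑ w', R w' = 0 := by
      simp only [hR]
      rw [Finset.sum_comm]
      exact Finset.sum_eq_zero fun j hj => sum_blk hU s j (Finset.mem_range.1 hj) g (hg0 s)
    have e1 : V s = ∑ w', R w' * (b (s + 1) w' - mn (s + 1)) := by
      have e2 : V s = ∑ w, g w * b s w := by
        have : ∑ w, g w * mn s = 0 := by rw [← Finset.sum_mul, hg0 s, zero_mul]
        simp only [V]
        rw [← sub_zero (∑ w, g w * b s w), ← this, ← Finset.sum_sub_distrib]
        refine Finset.sum_congr rfl fun w _ => ?_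
        simp only [hg]; ring
      rw [e2, hE s g]
      have : ∑ w', R w' * mn (s + 1) = 0 := by rw [← Finset.sum_mul, hR0, zero_mul]
      rw [← sub_zero (∑ w', _), ← this, ← Finset.sum_sub_distrib]
      refine Finset.sum_congr rfl fun w' _ => ?_
      simp only [hR]; ring
    have hCS : V s ^ 2 ≤ (∑ w', R w' ^ 2) * V (s + 1) := by
      rw [e1]
      exact Finset.sum_mul_sq_le_sq_mul_sq _ _ _
    have hcon := hC s g (hg0 s)
    have hcon' : 4 * K s * ∑ w', R w' ^ 2 ≤ (m s : ℝ) ^ 2 * K (s + 1) * V s := hcon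
    rcases (hV0 s).eq_or_lt with hz | hpos
    · rw [← hz, mul_zero]
      have := hK (s + 1)
      have := hV0 (s + 1)
      positivity
    · have h2 : 4 * K s * V s ^ 2 ≤ ((m s : ℝ) ^ 2 * K (s + 1) * V s) * V (s + 1) := by
        calc 4 * K s * V s ^ 2 ≤ 4 * K s * ((∑ w', R w' ^ 2) * V (s + 1)) := by
              have := hK s
              gcongr
          _ = (4 * K s * ∑ w', R w' ^ 2) * V (s + 1) := by ring
          _ ≤ _ := mul_le_mul_of_nonneg_right hcon' (hV0 _)
      nlinarith
  -- normalised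
  have hv : ∀ s, K s * (Nn m s : ℝ) ^ 2 * V s ≤
      (1 / 4) * (K (s + 1) * (Nn m (s + 1) : ℝ) ^ 2 * V (s + 1)) := by
    intro s
    have h2 := hstep s
    rw [Nn_succ]
    push_cast
    have h3 : 0 ≤ (Nn m s : ℝ) ^ 2 := by positivity
    nlinarith [mul_le_mul_of_nonneg_left h2 h3]
  have hv1 : ∀ s, K s * (Nn m s : ℝ) ^ 2 * V s ≤ 4 := by
    intro s
    have hN : (0 : ℝ) < Nn m s := by exact_mod_cast Nn_pos m hm s
    have hq : (q W m s : ℝ) = K s * Nn m s := by simp [q, K]
    have hmn : 0 ≤ mn s ∧ mn s ≤ 1 / (q W m s : ℝ) := by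
      constructor
      · exact div_nonneg (Finset.sum_nonneg fun w _ => h0 s w) (hK s).le
      · simp only [mn]
        rw [div_le_iff₀ (hK s)]
        calc ∑ w, b s w ≤ ∑ w : W s, 1 / (q W m s : ℝ) := Finset.sum_le_sum fun w _ => h1 s w
          _ = 1 / (q W m s : ℝ) * K s := by
            rw [Finset.sum_const, Finset.card_univ, nsmul_eq_mul]
            simp only [K]; ring
    have hVle : V s ≤ K s * (1 / (q W m s : ℝ)) ^ 2 := by
      simp only [V]
      calc ∑ w, (b s w - mn s) ^ 2 ≤ ∑ w : W s, (1 / (q W m s : ℝ)) ^ 2 := by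
            refine Finset.sum_le_sum fun w _ => ?_
            apply sq_le_sq'
            · have := h0 s w; linarith [hmn.2]
            · have := h1 s w; linarith [hmn.1]
        _ = _ := by
            rw [Finset.sum_const, Finset.card_univ, nsmul_eq_mul]
    have : K s * (Nn m s : ℝ) ^ 2 * V s ≤ K s * (Nn m s : ℝ) ^ 2 *
        (K s * (1 / (q W m s : ℝ)) ^ 2) := by
      have := hK s
      gcongr
    refine this.trans ?_
    rw [hq]
    have := hK s
    have h5 : K s * (Nn m s : ℝ) ^ 2 * (K s * (1 / (K s * Nn m s)) ^ 2) = 1 := by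
      field_simp
    rw [h5]; norm_num
  have hv2 : ∀ k s, K s * (Nn m s : ℝ) ^ 2 * V s ≤ (1 / 4) ^ k * 4 := by
    intro k
    induction k with
    | zero => intro s; simpa using hv1 s
    | succ k ih =>
      intro s
      refine (hv s).trans ?_
      rw [pow_succ (1 / 4 : ℝ) k]
      have := ih (s + 1)
      linarith
  intro s
  refine ⟨mn s, fun w => ?_⟩
  have hV : V s = 0 := by
    have hN : (0 : ℝ) < Nn m s := by exact_mod_cast Nn_pos m hm s
    have hlim : Filter.Tendsto (fun k : ℕ => ((1 : ℝ) / 4) ^ k * 4) Filter.atTop (nhds (0 * 4)) :=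
      (tendsto_pow_atTop_nhds_zero_of_lt_one (by norm_num) (by norm_num)).mul_const 4
    rw [zero_mul] at hlim
    have h3 := ge_of_tendsto' hlim (fun k => hv2 k s)
    have h4 : 0 < K s * (Nn m s : ℝ) ^ 2 := by
      have := hK s
      positivity
    have h5 := hV0 s
    by_contra hne
    have h6 : 0 < V s := lt_of_le_of_ne h5 (Ne.symm hne)
    have := mul_pos h4 h6
    linarith
  have h7 := (Finset.sum_eq_zero_iff_of_nonneg (fun w _ => sq_nonneg (b s w - mn s))).1 hV w
    (Finset.mem_univ _)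
  have h8 := pow_eq_zero_iff (two_ne_zero) |>.1 h7
  linarith

end contr

section erg

variable {W : ℕ → Type} [∀ s, Fintype (W s)] [∀ s, DecidableEq (W s)]
  [∀ s, MeasurableSpace (W s)] [∀ s, MeasurableSingletonClass (W s)]
  {m : ℕ → ℕ} {blk : ∀ s, W (s + 1) → ℕ → W s} {e : ∀ s, ℕ → W s × ℕ}

lemma cyl_eq_union_succ (s : ℕ) (a : W s × ℕ) :
    cyl m blk s a = ⋃ b ∈ Fib m blk s a, cyl m blk (s + 1) b := by
  ext z
  simp only [mem_iUnion]
  constructor
  · intro h
    have h' : z.1 s = a := h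
    exact ⟨z.1 (s + 1), Finset.mem_filter.2 ⟨mem_St.2 (z.2.lt _), by rw [z.2.pr, h']⟩, rfl⟩
  · rintro ⟨b, hb, hz⟩
    have hz' : z.1 (s + 1) = b := hz
    change z.1 s = a
    rw [← z.2.pr s, hz', (Finset.mem_filter.1 hb).2]

lemma univ_eq_union (s : ℕ) : (univ : Set (X m blk)) = ⋃ b ∈ St W m s, cyl m blk s b := by
  ext z
  simp only [mem_univ, mem_iUnion, true_iff]
  exact ⟨z.1 s, mem_St.2 (z.2.lt _), rfl⟩

/-- sum of a block function -/
lemma sum_range_mul_div (M N : ℕ) (hN : 0 < N) (G : ℕ → ℝ) :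
    ∑ i ∈ Finset.range (M * N), G (i / N) = N * ∑ j ∈ Finset.range M, G j := by
  induction M with
  | zero => simp
  | succ M ih =>
    rw [Nat.succ_mul, Finset.sum_range_add, ih, Finset.sum_range_succ, mul_add]
    congr 1
    rw [Finset.sum_congr rfl (g := fun _ => G M)]
    · rw [Finset.sum_const, Finset.card_range, nsmul_eq_mul]
    · intro i hi
      rw [mul_comm M N, Nat.mul_add_div hN, Nat.div_eq_of_lt (Finset.mem_range.1 hi), add_zero]

variable (hm : ∀ s, 2 ≤ m s) (hU : Unif m blk) [∀ s, Nonempty (W s)] (he : Enum m blk e)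

include hm hU he in
/-- a `T`-invariant set is independent of every cylinder -/
lemma indep_cyl (hC : Contr m blk) (B : Set (X m blk)) (hB : MeasurableSet B)
    (hinv : (T m blk) ⁻¹' B = B) (s : ℕ) (a : W s × ℕ) :
    (mu (m := m) blk e).real (B ∩ cyl m blk s a) =
      (mu (m := m) blk e).real B * (mu (m := m) blk e).real (cyl m blk s a) := by
  have hprob : IsProbabilityMeasure (mu (m := m) blk e) := isProb_mu hm hU he
  have hT := measurePreserving_T (m := m) (blk := blk) hm hU he
  have hcyl : ∀ s (a : W s × ℕ), a.2 < Nn m s →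
      (mu (m := m) blk e).real (cyl m blk s a) = 1 / (q W m s : ℝ) := by
    intro s a ha
    rw [measureReal_def, mu_cyl hm hU he s a ha, ENNReal.toReal_ofReal (by positivity)]
  -- independence of the height
  have hi : ∀ s (w : W s) (i : ℕ), i < Nn m s →
      (mu (m := m) blk e).real (B ∩ cyl m blk s (w, i)) =
      (mu (m := m) blk e).real (B ∩ cyl m blk s (w, 0)) := by
    intro s w i
    induction i with
    | zero => intro _; rfl
    | succ i ih =>
      intro hi
      rw [← ih (by omega)]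
      have h1 : (T m blk) ⁻¹' (B ∩ cyl m blk s (w, i + 1)) = B ∩ cyl m blk s (w, i) := by
        rw [preimage_inter, hinv, T_preimage_cyl s (w, i + 1) (by simp) hi]
        rfl
      rw [← h1, measureReal_def, measureReal_def,
        hT.measure_preimage (hB.inter (measurableSet_cyl _ _)).nullMeasurableSet]
  let b : ∀ s, W s → ℝ := fun s w => (mu (m := m) blk e).real (B ∩ cyl m blk s (w, 0))
  have hb0 : ∀ s w, 0 ≤ b s w := fun s w => measureReal_nonneg
  have hb1 : ∀ s w, b s w ≤ 1 / (q W m s : ℝ) := by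
    intro s w
    rw [← hcyl s (w, 0) (Nn_pos m hm s)]
    exact measureReal_mono inter_subset_right
  -- sums over states
  have hE : ∀ s, ∀ g : W s → ℝ, ∑ w, g w * b s w =
      ∑ w' : W (s + 1), (∑ j ∈ Finset.range (m s), g (blk s w' j)) * b (s + 1) w' := by
    intro s g
    have hNpos : (0 : ℝ) < Nn m s := by exact_mod_cast Nn_pos m hm s
    have e1 : (Nn m s : ℝ) * ∑ w, g w * b s w =
        ∑ a ∈ St W m s, g a.1 * (mu (m := m) blk e).real (B ∩ cyl m blk s a) := by
      rw [St, Finset.sum_product, Finset.mul_sum]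
      refine Finset.sum_congr rfl fun w _ => ?_
      rw [Finset.sum_congr rfl (g := fun _ => g w * b s w)]
      · rw [Finset.sum_const, Finset.card_range, nsmul_eq_mul]
      · intro i hi'
        simp only
        rw [hi s w i (Finset.mem_range.1 hi')]
    have e2 : ∀ a ∈ St W m s, (mu (m := m) blk e).real (B ∩ cyl m blk s a) =
        ∑ b ∈ Fib m blk s a, (mu (m := m) blk e).real (B ∩ cyl m blk (s + 1) b) := by
      intro a _
      rw [cyl_eq_union_succ s a, inter_iUnion₂, measureReal_biUnion_finset]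
      · intro b _ b' _ h
        exact (cyl_disjoint h).mono inter_subset_right inter_subset_right
      · intro b _
        exact hB.inter (measurableSet_cyl _ _)
    have e3 : ∑ a ∈ St W m s, g a.1 * (mu (m := m) blk e).real (B ∩ cyl m blk s a) =
        ∑ b ∈ St W m (s + 1), g (pr m blk s b).1 *
          (mu (m := m) blk e).real (B ∩ cyl m blk (s + 1) b) := by
      rw [← Finset.sum_fiberwise_of_maps_to (s := St W m (s + 1)) (t := St W m s)
        (g := fun b => pr m blk s b)
        (fun b _ => mem_St.2 (Nat.mod_lt _ (Nn_pos m hm s)))]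
      refine Finset.sum_congr rfl fun a ha => ?_
      rw [e2 a ha, Finset.mul_sum]
      refine Finset.sum_congr rfl fun b hb => ?_
      rw [(Finset.mem_filter.1 hb).2]
    have e4 : ∑ b ∈ St W m (s + 1), g (pr m blk s b).1 *
          (mu (m := m) blk e).real (B ∩ cyl m blk (s + 1) b) =
        (Nn m s : ℝ) * ∑ w' : W (s + 1), (∑ j ∈ Finset.range (m s), g (blk s w' j)) *
          b (s + 1) w' := by
      rw [St, Finset.sum_product, Finset.mul_sum]
      refine Finset.sum_congr rfl fun w' _ => ?_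
      rw [← mul_assoc, ← sum_range_mul_div (m s) (Nn m s) (Nn_pos m hm s)
        (fun j => g (blk s w' j)), Finset.sum_mul, ← Nn_succ]
      refine Finset.sum_congr rfl fun i hi' => ?_
      rw [hi (s + 1) w' i (Finset.mem_range.1 hi')]
      rfl
    have e5 : (Nn m s : ℝ) * ∑ w, g w * b s w = (Nn m s : ℝ) *
        ∑ w' : W (s + 1), (∑ j ∈ Finset.range (m s), g (blk s w' j)) * b (s + 1) w' := by
      rw [e1, e3, e4]
    exact mul_left_cancel₀ hNpos.ne' e5
  obtain ⟨c, hc⟩ := contraction hm hU hC b hb0 hb1 hE s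
  have hq : (0 : ℝ) < q W m s := by exact_mod_cast q_pos (W := W) hm s
  -- total mass
  have htot : (mu (m := m) blk e).real B = q W m s * c := by
    have h1 : B = ⋃ a ∈ St W m s, B ∩ cyl m blk s a := by
      rw [← inter_iUnion₂, ← univ_eq_union, inter_univ]
    rw [h1, measureReal_biUnion_finset]
    · rw [Finset.sum_congr rfl (g := fun _ => c)]
      · rw [Finset.sum_const, card_St, nsmul_eq_mul]
      · intro a ha
        rw [show a = (a.1, a.2) from rfl, hi s a.1 a.2 (mem_St.1 ha)]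
        exact hc a.1
    · intro b _ b' _ h
      exact (cyl_disjoint h).mono inter_subset_right inter_subset_right
    · intro b _
      exact hB.inter (measurableSet_cyl _ _)
  by_cases ha : a.2 < Nn m s
  · rw [hcyl s a ha, htot, show a = (a.1, a.2) from rfl, hi s a.1 a.2 ha]
    have : (mu (m := m) blk e).real (B ∩ cyl m blk s (a.1, 0)) = c := hc a.1
    rw [this]
    field_simp
  · rw [cyl_empty s a ha, inter_empty]
    simp

include hm hU he in
theorem ergodic_T (hC : Contr m blk) : Ergodic (T m blk) (mu (m := m) blk e) := by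
  have hprob : IsProbabilityMeasure (mu (m := m) blk e) := isProb_mu hm hU he
  refine ⟨measurePreserving_T (m := m) (blk := blk) hm hU he, ⟨?_⟩⟩
  intro B hB hinv
  have hfin : IsFiniteMeasure ((mu (m := m) blk e B) • (mu (m := m) blk e)) := by
    constructor
    rw [Measure.smul_apply, smul_eq_mul]
    exact ENNReal.mul_lt_top (measure_lt_top _ _) (measure_lt_top _ _)
  have h1 : (mu (m := m) blk e).restrict B = (mu (m := m) blk e B) • (mu (m := m) blk e) := by
    refine ext_of_generate_finite _ generateFrom_eq isPiSystem_cyl ?_ (by simp)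
    rintro _ ⟨s, a, rfl⟩
    change (mu (m := m) blk e).restrict B (cyl m blk s a) = _
    rw [Measure.restrict_apply (measurableSet_cyl s a), Measure.smul_apply, smul_eq_mul,
      inter_comm]
    have h2 := indep_cyl hm hU he hC B hB hinv s a
    rw [measureReal_def, measureReal_def, measureReal_def, ← ENNReal.toReal_mul] at h2
    exact (ENNReal.toReal_eq_toReal_iff' (measure_ne_top _ _)
      (ENNReal.mul_ne_top (measure_ne_top _ _) (measure_ne_top _ _))).1 h2
  have h3 : (mu (m := m) blk e) B * (mu (m := m) blk e) Bᶜ = 0 := by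
    have h4 := congrArg (fun ν : Measure (X m blk) => ν Bᶜ) h1
    simp only [Measure.smul_apply, smul_eq_mul] at h4
    rw [← h4, Measure.restrict_apply hB.compl, compl_inter_self, measure_empty]
  rw [Filter.eventuallyConst_set']
  rcases mul_eq_zero.1 h3 with h | h
  · left
    exact ae_eq_empty.2 h
  · right
    exact ae_eq_univ.2 h

end erg

end Crest.Agent.R133.TA
end

-- ▼ part R133/Ent
section

/-!
Row 133 (S0182), node TA3 : zero entropy from towers (helper148).
Abstract Gibbs-inequality estimate + the counting of names in a tower system.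
-/

set_option autoImplicit false
open MeasureTheory Filter Topology
open Crest.AnalysisR

namespace Crest.Agent.R133.Ent

/-- Gibbs inequality, one term. -/
lemma negMulLog_le {p q : ℝ} (hp : 0 ≤ p) (hq : 0 < q) :
    Real.negMulLog p ≤ p * (-Real.log q) + (q - p) := by
  rcases hp.eq_or_lt with h0 | h0
  · subst h0
    simp [Real.negMulLog]
    exact hq.le
  · have h1 : Real.log (q / p) ≤ q / p - 1 := Real.log_le_sub_one_of_pos (by positivity)
    rw [Real.log_div hq.ne' h0.ne'] at h1
    have h2 : p * (Real.log q - Real.log p) ≤ p * (q / p - 1) :=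
      mul_le_mul_of_nonneg_left h1 h0.le
    have h3 : p * (q / p - 1) = q - p := by field_simp
    rw [h3] at h2
    simp only [Real.negMulLog]
    nlinarith

/-- The channel. -/
noncomputable def kap (m : ℕ) (ε : ℝ) (a b : Fin m) : ℝ := (if a = b then 1 - ε else 0) + ε / m

lemma kap_pos {m : ℕ} {ε : ℝ} (hm : 0 < m) (h0 : 0 < ε) (h1 : ε < 1) (a b : Fin m) :
    0 < kap m ε a b := by
  have : (0:ℝ) < m := by exact_mod_cast hm
  unfold kap
  split_ifs
  · have : 0 < ε / m := by positivity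
    linarith
  · simp; positivity

lemma kap_sum {m : ℕ} {ε : ℝ} (hm : 0 < m) (a : Fin m) : ∑ b, kap m ε a b = 1 := by
  have : (0:ℝ) < m := by exact_mod_cast hm
  unfold kap
  rw [Finset.sum_add_distrib]
  simp
  field_simp
  ring

lemma neg_log_kap_le {m : ℕ} {ε : ℝ} (hm : 0 < m) (h0 : 0 < ε) (h1 : ε < 1) (a b : Fin m) :
    -Real.log (kap m ε a b) ≤ -Real.log (1 - ε) + (if a = b then 0 else Real.log (m / ε)) := by
  have hm' : (1:ℝ) ≤ m := by exact_mod_cast hm
  have hm0 : (0:ℝ) < m := by linarith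
  have he : 0 < ε / m := by positivity
  have hl : 0 ≤ -Real.log (1 - ε) := by
    have := Real.log_nonpos (x := 1 - ε) (by linarith) (by linarith)
    linarith
  unfold kap
  split_ifs with h
  · have : Real.log (1 - ε) ≤ Real.log (1 - ε + ε / m) := Real.log_le_log (by linarith) (by linarith)
    linarith
  · rw [zero_add, Real.log_div h0.ne' hm0.ne', Real.log_div hm0.ne' h0.ne']
    linarith

theorem labelEntropy_le {X : Type*} [MeasurableSpace X] (μ : Measure X) [IsProbabilityMeasure μ]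
    {m n : ℕ} (hm : 0 < m) (Y Y' : X → Fin n → Fin m) (hY : Measurable Y)
    (hY' : Measurable Y') (S : Finset (Fin n → Fin m)) (hS : ∀ᵐ x ∂μ, Y' x ∈ S)
    {ε δ : ℝ} (h0 : 0 < ε) (h1 : ε < 1) (hδ : ∀ j, μ.real {x | Y' x j ≠ Y x j} ≤ δ) :
    labelEntropy μ Y ≤ Real.log S.card + n * (-Real.log (1 - ε)) + n * δ * Real.log (m / ε) := by
  classical
  have hm' : (1:ℝ) ≤ m := by exact_mod_cast hm
  have hSne : S.Nonempty := by
    obtain ⟨x, hx⟩ := hS.exists
    exact ⟨_, hx⟩
  have hSc : (0:ℝ) < S.card := by exact_mod_cast hSne.card_pos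
  set q : (Fin n → Fin m) → ℝ := fun y => ∑ y' ∈ S, (1 / (S.card : ℝ)) * ∏ j, kap m ε (y' j) (y j)
    with hq
  have hqpos : ∀ y, 0 < q y := by
    intro y
    refine Finset.sum_pos (fun y' _ => ?_) hSne
    have : 0 < ∏ j, kap m ε (y' j) (y j) := Finset.prod_pos (fun j _ => kap_pos hm h0 h1 _ _)
    positivity
  have hqsum : ∑ y, q y = 1 := by
    simp only [hq]
    rw [Finset.sum_comm]
    have : ∀ y' ∈ S, ∑ y : Fin n → Fin m, (1 / (S.card : ℝ)) * ∏ j, kap m ε (y' j) (y j)
        = 1 / (S.card : ℝ) := by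
      intro y' _
      rw [← Finset.mul_sum]
      have h2 := Finset.prod_univ_sum (fun _ : Fin n => (Finset.univ : Finset (Fin m)))
        (fun j b => kap m ε (y' j) b)
      rw [Fintype.piFinset_univ] at h2
      rw [← h2]
      simp [kap_sum hm]
    rw [Finset.sum_congr rfl this]
    simp
    field_simp
  have hqlow : ∀ y y', y' ∈ S → -Real.log (q y) ≤ Real.log S.card +
      ∑ j, (-Real.log (1 - ε) + (if y' j = y j then 0 else Real.log (m / ε))) := by
    intro y y' hy'
    have h2 : (1 / (S.card : ℝ)) * ∏ j, kap m ε (y' j) (y j) ≤ q y := by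
      refine Finset.single_le_sum (f := fun y' => (1 / (S.card : ℝ)) * ∏ j, kap m ε (y' j) (y j))
        (fun z _ => ?_) hy'
      have : 0 < ∏ j, kap m ε (z j) (y j) := Finset.prod_pos (fun j _ => kap_pos hm h0 h1 _ _)
      positivity
    have h3 : 0 < ∏ j, kap m ε (y' j) (y j) := Finset.prod_pos (fun j _ => kap_pos hm h0 h1 _ _)
    have h4 : Real.log ((1 / (S.card : ℝ)) * ∏ j, kap m ε (y' j) (y j)) ≤ Real.log (q y) :=
      Real.log_le_log (by positivity) h2
    rw [Real.log_mul (by positivity) h3.ne', Real.log_prod (fun j _ => (kap_pos hm h0 h1 _ _).ne'),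
      one_div, Real.log_inv] at h4
    have h5 : ∑ j, -Real.log (kap m ε (y' j) (y j)) ≤
        ∑ j, (-Real.log (1 - ε) + (if y' j = y j then 0 else Real.log (m / ε))) :=
      Finset.sum_le_sum (fun j _ => neg_log_kap_le hm h0 h1 _ _)
    rw [Finset.sum_neg_distrib] at h5
    linarith
  -- Gibbs
  have hpsum : ∑ y, μ.real (Y ⁻¹' {y}) = 1 := by
    have : ∑ y, μ.real (Y ⁻¹' {y}) = ∑ y, (μ.map Y).real {y} := by
      refine Finset.sum_congr rfl (fun y _ => ?_)
      rw [map_measureReal_apply hY (measurableSet_singleton _)]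
    rw [this]
    have : IsProbabilityMeasure (μ.map Y) := Measure.isProbabilityMeasure_map hY.aemeasurable
    rw [sum_measureReal_singleton]
    simp
  have hG : labelEntropy μ Y ≤ ∑ y, μ.real (Y ⁻¹' {y}) * (-Real.log (q y)) := by
    have : labelEntropy μ Y ≤ ∑ y, (μ.real (Y ⁻¹' {y}) * (-Real.log (q y))
        + (q y - μ.real (Y ⁻¹' {y}))) :=
      Finset.sum_le_sum (fun y _ => negMulLog_le ENNReal.toReal_nonneg (hqpos y))
    rw [Finset.sum_add_distrib, Finset.sum_sub_distrib, hqsum, hpsum] at this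
    linarith
  have hint : ∑ y, μ.real (Y ⁻¹' {y}) * (-Real.log (q y)) = ∫ x, -Real.log (q (Y x)) ∂μ := by
    have : IsProbabilityMeasure (μ.map Y) := Measure.isProbabilityMeasure_map hY.aemeasurable
    rw [← integral_map (φ := Y) (f := fun y => -Real.log (q y)) hY.aemeasurable
      (measurable_of_countable _).aestronglyMeasurable]
    rw [integral_fintype Integrable.of_finite]
    refine Finset.sum_congr rfl (fun y _ => ?_)
    rw [map_measureReal_apply hY (measurableSet_singleton _), smul_eq_mul]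
  rw [hint] at hG
  refine hG.trans ?_
  have hmeasD : ∀ j, MeasurableSet {x | Y' x j ≠ Y x j} := by
    intro j
    have h2 : Measurable fun x => Y' x j := (measurable_pi_apply j).comp hY'
    have h3 : Measurable fun x => Y x j := (measurable_pi_apply j).comp hY
    exact (measurableSet_eq_fun h2 h3).compl
  have hintg : ∀ j, Integrable (fun x => if Y' x j = Y x j then 0 else Real.log (m / ε)) μ := by
    intro j
    have : (fun x => if Y' x j = Y x j then 0 else Real.log (m / ε)) =
        Set.indicator {x | Y' x j ≠ Y x j} (fun _ => Real.log (m / ε)) := by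
      ext x
      by_cases h : Y' x j = Y x j <;> simp [h]
    rw [this]
    exact (integrable_const _).indicator (hmeasD j)
  have hval : ∀ j, ∫ x, (if Y' x j = Y x j then 0 else Real.log (m / ε)) ∂μ =
      μ.real {x | Y' x j ≠ Y x j} * Real.log (m / ε) := by
    intro j
    have : (fun x => if Y' x j = Y x j then 0 else Real.log (m / ε)) =
        Set.indicator {x | Y' x j ≠ Y x j} (fun _ => Real.log (m / ε)) := by
      ext x
      by_cases h : Y' x j = Y x j <;> simp [h]
    rw [this, integral_indicator (hmeasD j)]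
    simp
  have hmono : ∫ x, -Real.log (q (Y x)) ∂μ ≤ ∫ x, (Real.log S.card +
      ∑ j, (-Real.log (1 - ε) + (if Y' x j = Y x j then 0 else Real.log (m / ε)))) ∂μ := by
    refine integral_mono_ae ?_ ?_ ?_
    · have : IsProbabilityMeasure (μ.map Y) := Measure.isProbabilityMeasure_map hY.aemeasurable
      have h2 : Integrable (fun y => -Real.log (q y)) (μ.map Y) := Integrable.of_finite
      exact h2.comp_measurable hY
    · refine (integrable_const _).add (integrable_finsetSum _ (fun j _ => ?_))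
      exact (integrable_const _).add (hintg j)
    · filter_upwards [hS] with x hx
      exact hqlow _ _ hx
  refine hmono.trans ?_
  have hi1 : ∀ j, Integrable (fun x => -Real.log (1 - ε) +
      (if Y' x j = Y x j then 0 else Real.log (m / ε))) μ :=
    fun j => (integrable_const _).add (hintg j)
  have hi2 : Integrable (fun x => ∑ j, (-Real.log (1 - ε) +
      (if Y' x j = Y x j then 0 else Real.log (m / ε)))) μ :=
    integrable_finsetSum _ (fun j _ => hi1 j)
  rw [integral_add (integrable_const _) hi2, integral_finsetSum _ (fun j _ => hi1 j)]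
  have h7 : ∀ j ∈ (Finset.univ : Finset (Fin n)), ∫ x, (-Real.log (1 - ε) +
      (if Y' x j = Y x j then 0 else Real.log (m / ε))) ∂μ
      ≤ -Real.log (1 - ε) + δ * Real.log (m / ε) := by
    intro j _
    rw [integral_add (integrable_const _) (hintg j), hval j]
    have hl : 0 ≤ Real.log (m / ε) := by
      apply Real.log_nonneg
      rw [le_div_iff₀ h0]
      linarith
    have := mul_le_mul_of_nonneg_right (hδ j) hl
    simp only [integral_const, probReal_univ, smul_eq_mul, one_mul]
    linarith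
  have h6 := Finset.sum_le_sum h7
  simp only [Finset.sum_const, Finset.card_univ, Fintype.card_fin, nsmul_eq_mul] at h6
  simp only [integral_const, probReal_univ, smul_eq_mul, one_mul]
  nlinarith

/-- Zero entropy from approximation by partitions with few names. -/
theorem hasZeroEntropy_of_approx {X : Type*} [MeasurableSpace X] (μ : Measure X)
    [IsProbabilityMeasure μ] (T : X → X) (hT : MeasurePreserving T μ μ)
    (H : ∀ (m : ℕ) (P : X → Fin m), Measurable P → ∀ δ : ℝ, 0 < δ →
      ∃ P' : X → Fin m, Measurable P' ∧ μ.real {x | P' x ≠ P x} ≤ δ ∧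
        ∀ η : ℝ, 0 < η → ∀ᶠ n : ℕ in atTop, ∃ S : Finset (Fin n → Fin m),
          (∀ᵐ x ∂μ, (fun j : Fin n => P' (T^[(j:ℕ)] x)) ∈ S) ∧ Real.log S.card ≤ η * n) :
    HasZeroEntropy μ T := by
  intro m P hP
  have hm : 0 < m := by
    rcases Nat.eq_zero_or_pos m with h | h
    · subst h
      obtain ⟨x⟩ := (inferInstance : NeZero μ) |>.out |> (fun h => by
        by_contra hne
        rw [not_nonempty_iff] at hne
        exact h (Measure.eq_zero_of_isEmpty μ) : μ ≠ 0 → Nonempty X)
      exact (P x).elim0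
    · exact h
  have hm' : (1:ℝ) ≤ m := by exact_mod_cast hm
  rw [Metric.tendsto_atTop]
  intro γ hγ
  -- choose ε
  obtain ⟨ε, h0, h1, hε⟩ : ∃ ε : ℝ, 0 < ε ∧ ε < 1 ∧ -Real.log (1 - ε) ≤ γ / 4 := by
    refine ⟨1 - Real.exp (-(γ/4)), ?_, ?_, ?_⟩
    · have := Real.exp_lt_exp.2 (show -(γ/4) < 0 by linarith)
      rw [Real.exp_zero] at this
      linarith
    · have := Real.exp_pos (-(γ/4))
      linarith
    · simp
  have hl : 0 ≤ Real.log (m / ε) := by
    apply Real.log_nonneg
    rw [le_div_iff₀ h0]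
    linarith
  obtain ⟨P', hP', hd, hS⟩ := H m P hP (γ / 4 / (1 + Real.log (m / ε))) (by positivity)
  have hd' : γ / 4 / (1 + Real.log (m / ε)) * Real.log (m / ε) ≤ γ / 4 := by
    rw [div_mul_eq_mul_div, div_le_iff₀ (by positivity)]
    nlinarith
  obtain ⟨n0, hn0⟩ := eventually_atTop.1 (hS (γ/8) (by positivity))
  refine ⟨max n0 1, fun n hn => ?_⟩
  have hn1 : 1 ≤ n := le_trans (le_max_right _ _) hn
  have hn1' : (0:ℝ) < n := by exact_mod_cast hn1
  obtain ⟨S, hS1, hS2⟩ := hn0 n (le_trans (le_max_left _ _) hn)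
  have hYm : ∀ Q : X → Fin m, Measurable Q →
      Measurable (fun x : X => fun j : Fin n => Q (T^[(j : ℕ)] x)) := by
    intro Q hQ
    exact measurable_pi_lambda _ (fun j => hQ.comp (hT.measurable.iterate _))
  have hb := labelEntropy_le μ hm (fun x : X => fun j : Fin n => P (T^[(j : ℕ)] x))
    (fun x : X => fun j : Fin n => P' (T^[(j : ℕ)] x)) (hYm P hP) (hYm P' hP') S hS1 h0 h1
    (δ := γ / 4 / (1 + Real.log (m / ε))) (by
      intro j
      have hms : MeasurableSet {x | P' x ≠ P x} := (measurableSet_eq_fun hP' hP).compl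
      have := (hT.iterate (j:ℕ)).measure_preimage hms.nullMeasurableSet
      have h2 : μ.real {x | P' (T^[(j:ℕ)] x) ≠ P (T^[(j:ℕ)] x)} = μ.real {x | P' x ≠ P x} := by
        simp only [Measure.real]
        congr 1
      rw [h2]
      exact hd)
  have hnn : 0 ≤ labelEntropy μ (fun x : X => fun j : Fin n => P (T^[(j : ℕ)] x)) := by
    refine Finset.sum_nonneg (fun y _ => Real.negMulLog_nonneg ENNReal.toReal_nonneg ?_)
    have := prob_le_one (μ := μ) (s := (fun x : X => fun j : Fin n => P (T^[(j : ℕ)] x)) ⁻¹' {y})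
    exact ENNReal.toReal_le_of_le_ofReal zero_le_one (by simpa using this)
  rw [Real.dist_eq, sub_zero, abs_of_nonneg (div_nonneg hnn hn1'.le), div_lt_iff₀ hn1']
  calc _ ≤ _ := hb
    _ ≤ γ/8 * n + n * (γ/4) + n * (γ/4) := by
        have e1 := mul_le_mul_of_nonneg_left hε hn1'.le
        have e2 := mul_le_mul_of_nonneg_left hd' hn1'.le
        nlinarith
    _ < γ * n := by nlinarith

/-- Counting of names: along an orbit segment the names are determined by `φ` and the words. -/
theorem name_decode {X V : Type*} (T : X → X) (w : X → V) (φ : X → ℕ) {N : ℕ} (hN : 1 ≤ N) (x : X)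
    (hlt : ∀ j, φ (T^[j] x) < N)
    (T2a : ∀ j, φ (T^[j] x) + 1 < N → φ (T (T^[j] x)) = φ (T^[j] x) + 1 ∧
      w (T (T^[j] x)) = w (T^[j] x))
    (T2b : ∀ j, φ (T^[j] x) + 1 = N → φ (T (T^[j] x)) = 0) (j : ℕ) :
    φ (T^[j] x) = (φ x + j) % N ∧ w (T^[j] x) = w (T^[((φ x + j) / N) * N - φ x] x) := by
  induction j with
  | zero =>
    have h := hlt 0
    simp only [Function.iterate_zero, id] at h
    simp [Nat.mod_eq_of_lt h, Nat.div_eq_of_lt h]
  | succ j ih =>
    obtain ⟨ih1, ih2⟩ := ih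
    have hNpos : 0 < N := hN
    rw [Function.iterate_succ_apply']
    by_cases h : φ (T^[j] x) + 1 < N
    · obtain ⟨h1, h2⟩ := T2a j h
      rw [h1, h2, ih2, ih1]
      rw [ih1] at h
      have e1 : (φ x + (j+1)) % N = (φ x + j) % N + 1 := by
        rw [← add_assoc, Nat.add_mod]
        rcases Nat.lt_or_ge 1 N with h3 | h3
        · rw [Nat.mod_eq_of_lt h3, Nat.mod_eq_of_lt h]
        · omega
      have e2 : (φ x + (j+1)) / N = (φ x + j) / N := by
        have a1 := Nat.div_add_mod (φ x + (j+1)) N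
        have a2 := Nat.div_add_mod (φ x + j) N
        have : N * ((φ x + (j+1)) / N) = N * ((φ x + j) / N) := by omega
        exact Nat.eq_of_mul_eq_mul_left hNpos this
      rw [e1, e2]
      exact ⟨rfl, rfl⟩
    · have h' : φ (T^[j] x) + 1 = N := by
        have := hlt j
        omega
      have h1 := T2b j h'
      rw [h1]
      rw [ih1] at h'
      have a2 := Nat.div_add_mod (φ x + j) N
      have e0 : φ x + (j+1) = N * ((φ x + j) / N + 1) := by
        rw [mul_add, mul_one]; omega
      rw [e0, Nat.mul_mod_right, Nat.mul_div_cancel_left _ hNpos]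
      refine ⟨rfl, ?_⟩
      have e3 : ((φ x + j) / N + 1) * N - φ x = j + 1 := by
        rw [mul_comm, ← e0]; omega
      rw [e3, Function.iterate_succ_apply']

/-- The set of names has at most `N * K^(n/N+2)` elements. -/
theorem exists_names {X V : Type*} [Fintype V] [MeasurableSpace X] (μ : Measure X) (T : X → X)
    (hT : MeasurePreserving T μ μ) (w : X → V) (φ : X → ℕ) {N : ℕ} (hN : 1 ≤ N)
    (hlt : ∀ᵐ x ∂μ, φ x < N)
    (T2a : ∀ᵐ x ∂μ, φ x + 1 < N → φ (T x) = φ x + 1 ∧ w (T x) = w x)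
    (T2b : ∀ᵐ x ∂μ, φ x + 1 = N → φ (T x) = 0)
    {m : ℕ} (P' : X → Fin m) (G : V × ℕ → Fin m) (hG : ∀ᵐ x ∂μ, P' x = G (w x, φ x)) (n : ℕ) :
    ∃ S : Finset (Fin n → Fin m), (∀ᵐ x ∂μ, (fun j : Fin n => P' (T^[(j:ℕ)] x)) ∈ S) ∧
      S.card ≤ N * (Fintype.card V) ^ (n / N + 2) := by
  classical
  have hNpos : 0 < N := hN
  have hidx : ∀ (p : Fin N) (j : Fin n), ((p:ℕ) + j) / N < n / N + 2 := by
    intro p j
    have hp := p.2
    have hj := j.2
    have : ((p:ℕ) + j) / N ≤ (n + N) / N := Nat.div_le_div_right (by omega)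
    rw [Nat.add_div_right _ hNpos] at this
    omega
  let dec : Fin N × (Fin (n / N + 2) → V) → (Fin n → Fin m) :=
    fun z j => G (z.2 ⟨((z.1:ℕ) + j) / N, hidx z.1 j⟩, ((z.1:ℕ) + j) % N)
  refine ⟨Finset.univ.image dec, ?_, ?_⟩
  · have a1 : ∀ᵐ x ∂μ, ∀ j : ℕ, φ (T^[j] x) < N :=
      ae_all_iff.2 (fun j => (hT.iterate j).quasiMeasurePreserving.ae hlt)
    have a2 : ∀ᵐ x ∂μ, ∀ j : ℕ, φ (T^[j] x) + 1 < N → φ (T (T^[j] x)) = φ (T^[j] x) + 1 ∧
        w (T (T^[j] x)) = w (T^[j] x) :=
      ae_all_iff.2 (fun j => (hT.iterate j).quasiMeasurePreserving.ae T2a)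
    have a3 : ∀ᵐ x ∂μ, ∀ j : ℕ, φ (T^[j] x) + 1 = N → φ (T (T^[j] x)) = 0 :=
      ae_all_iff.2 (fun j => (hT.iterate j).quasiMeasurePreserving.ae T2b)
    have a4 : ∀ᵐ x ∂μ, ∀ j : ℕ, P' (T^[j] x) = G (w (T^[j] x), φ (T^[j] x)) :=
      ae_all_iff.2 (fun j => (hT.iterate j).quasiMeasurePreserving.ae hG)
    filter_upwards [a1, a2, a3, a4] with x h1 h2 h3 h4
    rw [Finset.mem_image]
    have h10 : φ x < N := h1 0
    refine ⟨(⟨φ x, h10⟩, fun i => w (T^[(i:ℕ) * N - φ x] x)), Finset.mem_univ _, ?_⟩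
    ext j
    have := name_decode T w φ hN x h1 h2 h3 (j:ℕ)
    simp only [dec]
    rw [h4, this.1, this.2]
  · refine Finset.card_image_le.trans ?_
    rw [Finset.card_univ, Fintype.card_prod, Fintype.card_fin, Fintype.card_fun, Fintype.card_fin]

/-- Sets depending on finitely many levels. -/
def levelSets {X : Type*} {V : ℕ → Type*} (v : ∀ s, X → V s) : Set (Set X) :=
  {B | ∃ (s : ℕ) (C : Set (∀ r : Fin (s+1), V r)), B = {x | (fun r : Fin (s+1) => v r x) ∈ C}}

lemma levelSets_mono {X : Type*} {V : ℕ → Type*} (v : ∀ s, X → V s) {s t : ℕ} (hst : s ≤ t)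
    (C : Set (∀ r : Fin (s+1), V r)) : ∃ C' : Set (∀ r : Fin (t+1), V r),
      {x | (fun r : Fin (s+1) => v r x) ∈ C} = {x | (fun r : Fin (t+1) => v r x) ∈ C'} :=
  ⟨{u | (fun r : Fin (s+1) => u ⟨r, by omega⟩) ∈ C}, rfl⟩

lemma isSetAlgebra_levelSets {X : Type*} {V : ℕ → Type*} (v : ∀ s, X → V s) :
    IsSetAlgebra (levelSets v) where
  empty_mem := ⟨0, ∅, by simp⟩
  compl_mem := by
    rintro B ⟨s, C, rfl⟩
    exact ⟨s, Cᶜ, rfl⟩
  union_mem := by
    rintro B B' ⟨s, C, rfl⟩ ⟨t, D, rfl⟩
    obtain ⟨C', hC⟩ := levelSets_mono v (le_max_left s t) C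
    obtain ⟨D', hD⟩ := levelSets_mono v (le_max_right s t) D
    rw [hC, hD]
    exact ⟨max s t, C' ∪ D', rfl⟩

/-- Approximation of a finite partition by one depending on finitely many levels. -/
theorem exists_level_partition {X : Type*} [mX : MeasurableSpace X] (μ : Measure X)
    [IsProbabilityMeasure μ] {V : ℕ → Type*} [∀ s, Countable (V s)] (v : ∀ s, X → V s)
    (hv : ∀ s u, MeasurableSet {x | v s x = u})
    (hgen : mX ≤ MeasurableSpace.generateFrom {B | ∃ s u, B = {x | v s x = u}})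
    {m : ℕ} (hm : 0 < m) (P : X → Fin m) (hP : Measurable P) {δ : ℝ} (hδ : 0 < δ) :
    ∃ (s : ℕ) (G : (∀ r : Fin (s+1), V r) → Fin m),
      Measurable (fun x => G (fun r : Fin (s+1) => v r x)) ∧
      μ.real {x | G (fun r : Fin (s+1) => v r x) ≠ P x} ≤ δ := by
  classical
  have hmeas : ∀ (s : ℕ) (C : Set (∀ r : Fin (s+1), V r)),
      MeasurableSet {x | (fun r : Fin (s+1) => v r x) ∈ C} := by
    intro s C
    have : {x | (fun r : Fin (s+1) => v r x) ∈ C} =
        ⋃ c ∈ C, ⋂ r : Fin (s+1), {x | v r x = c r} := by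
      ext x
      simp only [Set.mem_setOf_eq, Set.mem_iUnion, Set.mem_iInter]
      constructor
      · intro h
        exact ⟨_, h, fun r => rfl⟩
      · rintro ⟨c, hc, h⟩
        have : (fun r : Fin (s+1) => v r x) = c := funext h
        rwa [this]
    rw [this]
    exact MeasurableSet.biUnion (Set.to_countable C)
      (fun c _ => MeasurableSet.iInter (fun r => hv r (c r)))
  have hg : mX = MeasurableSpace.generateFrom (levelSets v) := by
    apply le_antisymm
    · refine hgen.trans (MeasurableSpace.generateFrom_mono ?_)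
      rintro B ⟨s, u, rfl⟩
      exact ⟨s, {c | c ⟨s, Nat.lt_succ_self s⟩ = u}, rfl⟩
    · refine MeasurableSpace.generateFrom_le ?_
      rintro B ⟨s, C, rfl⟩
      exact hmeas s C
  have hd := Measure.MeasureDense.of_generateFrom_isSetAlgebra_finite μ
    (isSetAlgebra_levelSets v) hg
  have hm' : (0:ℝ) < m := by exact_mod_cast hm
  have hch : ∀ a : Fin m, ∃ (s : ℕ) (C : Set (∀ r : Fin (s+1), V r)),
      μ (symmDiff (P ⁻¹' {a}) {x | (fun r : Fin (s+1) => v r x) ∈ C}) < ENNReal.ofReal (δ / m) := by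
    intro a
    obtain ⟨t, ⟨s, C, rfl⟩, h⟩ := hd.approx (P ⁻¹' {a}) (hP (measurableSet_singleton a))
      (measure_ne_top _ _) (δ / m) (by positivity)
    exact ⟨s, C, h⟩
  choose s C hC using hch
  obtain ⟨t, ht⟩ : ∃ t, ∀ a, s a ≤ t := ⟨Finset.univ.sup s, fun a => Finset.le_sup (Finset.mem_univ a)⟩
  have hch2 : ∀ a : Fin m, ∃ C' : Set (∀ r : Fin (t+1), V r),
      {x | (fun r : Fin (s a+1) => v r x) ∈ C a} = {x | (fun r : Fin (t+1) => v r x) ∈ C'} :=
    fun a => levelSets_mono v (ht a) (C a)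
  choose D hD using hch2
  let G : (∀ r : Fin (t+1), V r) → Fin m := fun c =>
    if h : ∃ a, c ∈ D a then h.choose else ⟨0, hm⟩
  refine ⟨t, G, ?_, ?_⟩
  · refine measurable_to_countable' (fun a => ?_)
    exact hmeas t (G ⁻¹' {a})
  · have hsub : {x | G (fun r : Fin (t+1) => v r x) ≠ P x} ⊆
        ⋃ a : Fin m, symmDiff (P ⁻¹' {a}) {x | (fun r : Fin (t+1) => v r x) ∈ D a} := by
      intro x hx
      by_contra hcon
      simp only [Set.mem_iUnion, not_exists] at hcon
      apply hx
      have hiff : ∀ a, P x = a ↔ (fun r : Fin (t+1) => v r x) ∈ D a := by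
        intro a
        have := hcon a
        rw [Set.mem_symmDiff] at this
        simp only [Set.mem_preimage, Set.mem_singleton_iff, Set.mem_setOf_eq] at this
        tauto
      have hex : ∃ a, (fun r : Fin (t+1) => v r x) ∈ D a := ⟨P x, (hiff _).1 rfl⟩
      simp only [G, dif_pos hex]
      exact ((hiff _).2 hex.choose_spec).symm
    calc μ.real {x | G (fun r : Fin (t+1) => v r x) ≠ P x}
        ≤ μ.real (⋃ a : Fin m, symmDiff (P ⁻¹' {a}) {x | (fun r : Fin (t+1) => v r x) ∈ D a}) :=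
          measureReal_mono hsub
      _ ≤ ∑ a : Fin m, μ.real (symmDiff (P ⁻¹' {a}) {x | (fun r : Fin (t+1) => v r x) ∈ D a}) :=
          measureReal_iUnion_fintype_le _
      _ ≤ ∑ _a : Fin m, δ / m := by
          refine Finset.sum_le_sum (fun a _ => ?_)
          have := hC a
          rw [hD a] at this
          have h2 := ENNReal.toReal_mono ENNReal.ofReal_ne_top this.le
          rwa [ENNReal.toReal_ofReal (by positivity)] at h2
      _ = δ := by
          simp
          field_simp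

/-- MAIN THEOREM of the node, set version. -/
theorem hasZeroEntropy_of_towers' {X : Type*} [mX : MeasurableSpace X] (μ : Measure X)
    [IsProbabilityMeasure μ] (T : X → X) (hT : MeasurePreserving T μ μ)
    (N K : ℕ → ℕ) (W : ℕ → Type*) [∀ s, Fintype (W s)] (hK : ∀ s, Fintype.card (W s) ≤ K s)
    (hN : ∀ s, 1 ≤ N s) (w : ∀ s, X → W s) (φ : ∀ s, X → ℕ)
    (hw : ∀ s u, MeasurableSet {x | w s x = u}) (hφ : ∀ s i, MeasurableSet {x | φ s x = i})
    (hlt : ∀ s, ∀ᵐ x ∂μ, φ s x < N s)
    (T2a : ∀ s, ∀ᵐ x ∂μ, φ s x + 1 < N s → φ s (T x) = φ s x + 1 ∧ w s (T x) = w s x)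
    (T2b : ∀ s, ∀ᵐ x ∂μ, φ s x + 1 = N s → φ s (T x) = 0)
    (T3 : ∀ s, ∃ g : W (s+1) × ℕ → W s × ℕ, ∀ᵐ x ∂μ, (w s x, φ s x) = g (w (s+1) x, φ (s+1) x))
    (hgen : mX ≤ MeasurableSpace.generateFrom {B | ∃ s u i, B = {x | w s x = u ∧ φ s x = i}})
    (h0 : Tendsto (fun s => Real.log (K s) / N s) atTop (𝓝 0)) : HasZeroEntropy μ T := by
  classical
  refine hasZeroEntropy_of_approx μ T hT ?_
  intro m P hP δ hδ
  have hm : 0 < m := by
    rcases Nat.eq_zero_or_pos m with h | h
    · subst h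
      have hne : Nonempty X := by
        by_contra hne
        rw [not_nonempty_iff] at hne
        exact (NeZero.ne μ) (Measure.eq_zero_of_isEmpty μ)
      exact (P hne.some).elim0
    · exact h
  have hne : Nonempty X := by
    by_contra hne
    rw [not_nonempty_iff] at hne
    exact (NeZero.ne μ) (Measure.eq_zero_of_isEmpty μ)
  let v : ∀ s, X → W s × ℕ := fun s x => (w s x, φ s x)
  have hv : ∀ s u, MeasurableSet {x | v s x = u} := by
    rintro s ⟨u, i⟩
    have : {x | v s x = (u, i)} = {x | w s x = u} ∩ {x | φ s x = i} := by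
      ext x; simp [v]
    rw [this]
    exact (hw s u).inter (hφ s i)
  have hgen' : mX ≤ MeasurableSpace.generateFrom {B | ∃ s u, B = {x | v s x = u}} := by
    refine hgen.trans (MeasurableSpace.generateFrom_mono ?_)
    rintro B ⟨s, u, i, rfl⟩
    exact ⟨s, (u, i), by ext x; simp [v]⟩
  obtain ⟨s, G, hGm, hGd⟩ := exists_level_partition μ v hv hgen' hm P hP hδ
  refine ⟨_, hGm, hGd, ?_⟩
  -- determined by level R for all R ≥ s
  choose g hg using T3
  have hdet : ∀ R r, r ≤ R → ∃ f : W R × ℕ → W r × ℕ, ∀ᵐ x ∂μ, v r x = f (v R x) := by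
    intro R
    induction R with
    | zero =>
      intro r hr
      obtain rfl : r = 0 := by omega
      exact ⟨id, Eventually.of_forall (fun x => rfl)⟩
    | succ R ih =>
      intro r hr
      rcases Nat.lt_or_ge r (R+1) with h | h
      · obtain ⟨f, hf⟩ := ih r (by omega)
        refine ⟨f ∘ g R, ?_⟩
        filter_upwards [hf, hg R] with x h1 h2
        rw [h1]
        simp only [Function.comp]
        congr 1
      · obtain rfl : r = R + 1 := by omega
        exact ⟨id, Eventually.of_forall (fun x => rfl)⟩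
  intro η hη
  obtain ⟨R, hR1, hR2⟩ : ∃ R, s ≤ R ∧ Real.log (K R) / N R ≤ η / 2 := by
    have := (h0.eventually (gt_mem_nhds (show (0:ℝ) < η/2 by positivity))).and (eventually_ge_atTop s)
    obtain ⟨R, h1, h2⟩ := this.exists
    exact ⟨R, h2, h1.le⟩
  have hdet2 : ∃ G' : W R × ℕ → Fin m, ∀ᵐ x ∂μ, G (fun r : Fin (s+1) => v r x) = G' (w R x, φ R x) := by
    have : ∀ r : Fin (s+1), ∃ f : W R × ℕ → W r × ℕ, ∀ᵐ x ∂μ, v r x = f (v R x) :=
      fun r => hdet R r (by omega)
    choose f hf using this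
    refine ⟨fun z => G (fun r => f r z), ?_⟩
    filter_upwards [ae_all_iff.2 hf] with x hx
    congr 1
    funext r
    exact hx r
  obtain ⟨G', hG'⟩ := hdet2
  have hKpos : 1 ≤ K R := by
    have : 0 < Fintype.card (W R) := Fintype.card_pos_iff.2 ⟨w R hne.some⟩
    exact le_trans this (hK R)
  have hKr : (1:ℝ) ≤ K R := by exact_mod_cast hKpos
  have hNr : (1:ℝ) ≤ N R := by exact_mod_cast hN R
  have hlK : 0 ≤ Real.log (K R) := Real.log_nonneg hKr
  have hlN : 0 ≤ Real.log (N R) := Real.log_nonneg hNr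
  obtain ⟨n0, hn0⟩ := exists_nat_ge ((Real.log (N R) + 2 * Real.log (K R)) / (η/2))
  filter_upwards [eventually_ge_atTop n0] with n hn
  obtain ⟨S, hS1, hS2⟩ := exists_names μ T hT (w R) (φ R) (hN R) (hlt R) (T2a R) (T2b R)
    (fun x => G (fun r : Fin (s+1) => v r x)) G' hG' n
  refine ⟨S, hS1, ?_⟩
  have hSne : 0 < S.card := by
    obtain ⟨x, hx⟩ := hS1.exists
    exact Finset.card_pos.2 ⟨_, hx⟩
  have h3 : S.card ≤ N R * (K R) ^ (n / N R + 2) :=
    hS2.trans (Nat.mul_le_mul_left _ (Nat.pow_le_pow_left (hK R) _))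
  have h4 : Real.log S.card ≤ Real.log (N R) + (n / N R + 2 : ℕ) * Real.log (K R) := by
    have h5 : (S.card : ℝ) ≤ (N R : ℝ) * (K R : ℝ) ^ (n / N R + 2) := by exact_mod_cast h3
    have h6 := Real.log_le_log (by exact_mod_cast hSne) h5
    rwa [Real.log_mul (by positivity) (by positivity), Real.log_pow] at h6
  have h7 : ((n / N R + 2 : ℕ) : ℝ) ≤ (n:ℝ) / N R + 2 := by
    push_cast
    have := Nat.cast_div_le (α := ℝ) (m := n) (n := N R)
    linarith
  have h8 : (Real.log (N R) + 2 * Real.log (K R)) ≤ (η/2) * n := by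
    have : (n0:ℝ) ≤ n := by exact_mod_cast hn
    rw [div_le_iff₀ (by positivity)] at hn0
    nlinarith
  have h9 : (n:ℝ) / N R * Real.log (K R) ≤ (η/2) * n := by
    rw [div_mul_eq_mul_div, mul_div_assoc]
    rw [mul_comm]
    exact mul_le_mul_of_nonneg_right hR2 (Nat.cast_nonneg n)
  nlinarith

/-- MAIN THEOREM of the node (interface of note 12124). -/
theorem hasZeroEntropy_of_towers {X : Type*} [mX : MeasurableSpace X] (μ : Measure X)
    [IsProbabilityMeasure μ] (T : X → X) (hT : MeasurePreserving T μ μ)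
    (N K : ℕ → ℕ) (W : ℕ → Type*) [∀ s, Fintype (W s)] [∀ s, MeasurableSpace (W s)]
    [∀ s, MeasurableSingletonClass (W s)] (hK : ∀ s, Fintype.card (W s) ≤ K s)
    (hN : ∀ s, 1 ≤ N s) (w : ∀ s, X → W s) (φ : ∀ s, X → ℕ)
    (hw : ∀ s, Measurable (w s)) (hφ : ∀ s, Measurable (φ s))
    (hlt : ∀ s, ∀ᵐ x ∂μ, φ s x < N s)
    (T2a : ∀ s, ∀ᵐ x ∂μ, φ s x + 1 < N s → φ s (T x) = φ s x + 1 ∧ w s (T x) = w s x)
    (T2b : ∀ s, ∀ᵐ x ∂μ, φ s x + 1 = N s → φ s (T x) = 0)
    (T3 : ∀ s, ∃ g : W (s+1) × ℕ → W s × ℕ, ∀ᵐ x ∂μ, (w s x, φ s x) = g (w (s+1) x, φ (s+1) x))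
    (hgen : mX ≤ ⨆ s, MeasurableSpace.comap (fun x => (w s x, φ s x)) inferInstance)
    (h0 : Tendsto (fun s => Real.log (K s) / N s) atTop (𝓝 0)) : HasZeroEntropy μ T := by
  refine hasZeroEntropy_of_towers' μ T hT N K W hK hN w φ
    (fun s u => hw s (measurableSet_singleton u)) (fun s i => hφ s (measurableSet_singleton i))
    hlt T2a T2b T3 (hgen.trans (iSup_le fun s => ?_)) h0
  rintro B ⟨C, -, rfl⟩
  have : (fun x => (w s x, φ s x)) ⁻¹' C = ⋃ c ∈ C, {x | w s x = c.1 ∧ φ s x = c.2} := by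
    ext x
    simp only [Set.mem_preimage, Set.mem_iUnion, Set.mem_setOf_eq]
    constructor
    · intro h
      exact ⟨_, h, rfl, rfl⟩
    · rintro ⟨c, hc, h1, h2⟩
      rwa [h1, h2]
  rw [this]
  refine MeasurableSet.biUnion (Set.to_countable C) (fun c _ => ?_)
  exact MeasurableSpace.measurableSet_generateFrom ⟨s, c.1, c.2, rfl⟩

end Crest.Agent.R133.Ent
end

-- ▼ part R133/Std
section

/-! Row 133, piece STD: every atomless probability measure on a standard Borel space is
a standard probability in the sense of the frozen definition. -/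

set_option autoImplicit false

namespace Crest.Agent.R133.Std

open MeasureTheory Filter ProbabilityTheory Set Topology

theorem continuous_cdf (ν : Measure ℝ) [IsProbabilityMeasure ν] [NullSingletonClass ν] :
    Continuous (cdf ν) := by
  rw [continuous_iff_continuousAt]
  intro a
  have h1 : (cdf ν).measure {a} = 0 := by rw [measure_cdf]; exact measure_singleton a
  rw [StieltjesFunction.measure_singleton] at h1
  have h2 : cdf ν a - Function.leftLim (cdf ν) a ≤ 0 := by simpa using h1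
  have h3 : Function.leftLim (cdf ν) a ≤ cdf ν a := (monotone_cdf ν).leftLim_le le_rfl
  rw [(monotone_cdf ν).continuousAt_iff_leftLim_eq_rightLim]
  rw [StieltjesFunction.rightLim_eq]
  linarith

theorem exists_cdf_eq (ν : Measure ℝ) [IsProbabilityMeasure ν] [NullSingletonClass ν] {c : ℝ}
    (h0 : 0 < c) (h1 : c < 1) : ∃ b, cdf ν b = c := by
  have ha : ∃ a, cdf ν a < c :=
    ((tendsto_cdf_atBot ν).eventually (eventually_lt_nhds h0)).exists
  have hb : ∃ a, c < cdf ν a :=
    ((tendsto_cdf_atTop ν).eventually (eventually_gt_nhds h1)).exists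
  obtain ⟨a, ha⟩ := ha
  obtain ⟨b, hb⟩ := hb
  exact mem_range_of_exists_le_of_exists_ge (continuous_cdf ν) ⟨a, ha.le⟩ ⟨b, hb.le⟩

theorem level_le (ν : Measure ℝ) [IsProbabilityMeasure ν] [NullSingletonClass ν] {c c' : ℝ}
    (hc : 0 ≤ c) (hcc : c < c') (h1 : c' < 1) :
    ν {t | cdf ν t ≤ c} ≤ ENNReal.ofReal c' := by
  obtain ⟨b, hb⟩ := exists_cdf_eq ν (hc.trans_lt hcc) h1
  rw [← hb, ofReal_cdf]
  apply measure_mono
  intro t ht
  rw [mem_Iic]
  by_contra hlt
  have := monotone_cdf ν (not_le.mp hlt).le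
  simp only [mem_setOf_eq] at ht
  linarith

theorem level_measure (ν : Measure ℝ) [IsProbabilityMeasure ν] [NullSingletonClass ν] {c : ℝ}
    (h0 : 0 ≤ c) (h1 : c ≤ 1) : ν {t | cdf ν t ≤ c} = ENNReal.ofReal c := by
  rcases eq_or_lt_of_le h1 with h1 | h1
  · have : {t | cdf ν t ≤ c} = univ := by
      ext t; simp [h1, cdf_le_one]
    rw [this, measure_univ, h1, ENNReal.ofReal_one]
  apply le_antisymm
  · have ht : Tendsto (fun c' : ℝ => ENNReal.ofReal c') (𝓝[>] c) (𝓝 (ENNReal.ofReal c)) :=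
      (ENNReal.continuous_ofReal.tendsto c).mono_left nhdsWithin_le_nhds
    refine ge_of_tendsto ht ?_
    have : ∀ᶠ c' in 𝓝[>] c, c' < 1 :=
      nhdsWithin_le_nhds (eventually_lt_nhds h1)
    filter_upwards [this, self_mem_nhdsWithin] with c' h h'
    exact level_le ν h0 h' h
  · rcases eq_or_lt_of_le h0 with h0 | h0
    · simp [← h0]
    obtain ⟨b, hb⟩ := exists_cdf_eq ν h0 h1
    rw [← hb, ofReal_cdf]
    apply measure_mono
    intro t ht
    exact monotone_cdf ν ht

/-- the distribution function as a map to the unit interval -/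
noncomputable def cdfI (ν : Measure ℝ) (t : ℝ) : unitInterval :=
  ⟨cdf ν t, cdf_nonneg ν t, cdf_le_one ν t⟩

theorem measurable_cdfI (ν : Measure ℝ) : Measurable (cdfI ν) :=
  Measurable.subtype_mk (monotone_cdf ν).measurable

theorem map_cdfI (ν : Measure ℝ) [IsProbabilityMeasure ν] [NullSingletonClass ν] :
    ν.map (cdfI ν) = volume := by
  haveI : IsProbabilityMeasure (ν.map (cdfI ν)) :=
    Measure.isProbabilityMeasure_map (measurable_cdfI ν).aemeasurable
  apply Measure.ext_of_Iic
  intro u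
  rw [Measure.map_apply (measurable_cdfI ν) measurableSet_Iic, unitInterval.volume_Iic]
  have : cdfI ν ⁻¹' Iic u = {t | cdf ν t ≤ (u : ℝ)} := by
    ext t
    simp [cdfI, ← Subtype.coe_le_coe]
  rw [this, level_measure ν u.2.1 u.2.2]

/-- the flats of the distribution function are null -/
theorem flat_null (ν : Measure ℝ) [IsProbabilityMeasure ν] [NullSingletonClass ν] (q : ℝ) :
    ν {t | cdf ν t = cdf ν q} = 0 := by
  have h : {t | cdf ν t = cdf ν q} = cdfI ν ⁻¹' {cdfI ν q} := by
    ext t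
    simp [cdfI, Subtype.ext_iff]
  rw [h, ← Measure.map_apply (measurable_cdfI ν) (measurableSet_singleton _), map_cdfI]
  exact measure_singleton _

theorem isStandardProbability_of_noAtoms {X : Type*} [MeasurableSpace X] [StandardBorelSpace X]
    (μ : Measure X) [IsProbabilityMeasure μ] [NullSingletonClass μ] :
    Crest.AnalysisR.IsStandardProbability μ := by
  obtain ⟨ι, hι⟩ := exists_measurableEmbedding_real X
  set ν : Measure ℝ := μ.map ι with hν
  haveI : IsProbabilityMeasure ν := Measure.isProbabilityMeasure_map hι.measurable.aemeasurable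
  haveI : NullSingletonClass ν := by
    constructor
    intro a
    rw [hν, Measure.map_apply hι.measurable (measurableSet_singleton a)]
    by_cases ha : ∃ x, ι x = a
    · obtain ⟨x, rfl⟩ := ha
      have : ι ⁻¹' {ι x} = {x} := by
        ext y; simp [hι.injective.eq_iff]
      rw [this]; exact measure_singleton x
    · have : ι ⁻¹' {a} = ∅ := by
        ext y
        simp only [mem_preimage, mem_singleton_iff, mem_empty_iff_false, iff_false]
        exact fun h => ha ⟨y, h⟩
      rw [this]; exact measure_empty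
  let F : X → unitInterval := fun x => cdfI ν (ι x)
  have hF : Measurable F := (measurable_cdfI ν).comp hι.measurable
  let X₀ : Set X := ⋂ q : ℚ, {x | cdf ν (ι x) = cdf ν (q : ℝ)}ᶜ
  have hX₀m : MeasurableSet X₀ := by
    refine MeasurableSet.iInter fun q => MeasurableSet.compl ?_
    exact ((monotone_cdf ν).measurable.comp hι.measurable) (measurableSet_singleton _)
  have hX₀n : μ X₀ᶜ = 0 := by
    simp only [X₀, compl_iInter, compl_compl]
    rw [measure_iUnion_null_iff]
    intro q
    have h1 := flat_null ν (q : ℝ)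
    rw [hν, Measure.map_apply hι.measurable] at h1
    · exact h1
    · exact (monotone_cdf _).measurable (measurableSet_singleton _)
  have hinj : InjOn F X₀ := by
    have key : ∀ x ∈ X₀, ∀ y ∈ X₀, ι x < ι y → F x ≠ F y := by
      intro x hx y hy hlt heq
      obtain ⟨q, hq1, hq2⟩ := exists_rat_btwn hlt
      have h1 := monotone_cdf ν hq1.le
      have h2 := monotone_cdf ν hq2.le
      have h3 : cdf ν (ι x) = cdf ν (ι y) := congrArg Subtype.val heq
      have h4 := mem_iInter.mp hx q
      apply h4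
      simp only [mem_setOf_eq]
      linarith
    intro x hx y hy hxy
    rcases lt_trichotomy (ι x) (ι y) with h | h | h
    · exact absurd hxy (key x hx y hy h)
    · exact hι.injective h
    · exact absurd hxy.symm (key y hy x hx h)
  have hY₀m : MeasurableSet (F '' X₀) := hX₀m.image_of_measurable_injOn hF hinj
  have hmap : μ.map F = volume := by
    have : μ.map F = ν.map (cdfI ν) := by
      rw [hν, Measure.map_map (measurable_cdfI _) hι.measurable]; rfl
    rw [this, map_cdfI]
  have hY₀n : (volume : Measure unitInterval) (F '' X₀)ᶜ = 0 := by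
    rw [← hmap, Measure.map_apply hF hY₀m.compl]
    refine measure_mono_null ?_ hX₀n
    intro x hx hx0
    exact hx (mem_image_of_mem F hx0)
  -- the inverse
  haveI : StandardBorelSpace X₀ := hX₀m.standardBorel
  have hemb : MeasurableEmbedding (fun x : X₀ => F x) :=
    (hF.comp measurable_subtype_coe).measurableEmbedding
      (fun x y hxy => Subtype.ext (hinj x.2 y.2 hxy))
  have hne : Nonempty X := by
    by_contra h
    rw [not_nonempty_iff] at h
    have h1 : μ univ = 1 := measure_univ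
    rw [univ_eq_empty_iff.mpr h, measure_empty] at h1
    exact zero_ne_one h1
  obtain ⟨G, hG, hGF⟩ := hemb.exists_measurable_extend (g := fun x : X₀ => (x : X))
    measurable_subtype_coe (fun _ => hne)
  refine ⟨X₀, F '' X₀, F, G, hX₀m, hY₀m, hX₀n, hY₀n, hF, hG, hinj.bijOn_image, ?_, hmap⟩
  intro x hx
  exact congrFun hGF ⟨x, hx⟩

end Crest.Agent.R133.Std
end

-- ▼ part R133/TA4

/-! Row 133, Theorem A, part 4: the tower system of a balanced sequence `τ`. -/

set_option autoImplicit false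

namespace Crest.Agent.R133.TA

open MeasureTheory Set

/-! ### sums over functions `Fin n → α` -/

section sums

variable {α : Type*} [Fintype α]

lemma sum_cons (n : ℕ) (F : (Fin (n + 1) → α) → ℝ) :
    ∑ w, F w = ∑ a : α, ∑ w : Fin n → α, F (Fin.cons a w) := by
  rw [← (Fin.consEquiv (fun _ : Fin (n + 1) => α)).sum_comp, Fintype.sum_prod_type]
  rfl

lemma sum_sum_eq_zero (g : α → ℝ) (hg : ∑ a, g a = 0) (n : ℕ) :
    ∑ w : Fin n → α, ∑ j, g (w j) = 0 := by
  induction n with
  | zero => simp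
  | succ n ih =>
    rw [sum_cons]
    simp only [Fin.sum_univ_succ, Fin.cons_zero, Fin.cons_succ, Finset.sum_add_distrib, ih,
      add_zero, Finset.sum_const]
    rw [← Finset.smul_sum, hg, smul_zero]

lemma sum_sq_eq (g : α → ℝ) (hg : ∑ a, g a = 0) (n : ℕ) :
    (Fintype.card α : ℝ) * ∑ w : Fin n → α, (∑ j, g (w j)) ^ 2 =
      n * (Fintype.card α : ℝ) ^ n * ∑ a, g a ^ 2 := by
  induction n with
  | zero => simp
  | succ n ih =>
    rw [sum_cons]
    have h1 : ∀ a : α, ∑ w : Fin n → α, (∑ j, g ((Fin.cons a w : Fin (n + 1) → α) j)) ^ 2 =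
        (Fintype.card α : ℝ) ^ n * g a ^ 2 + ∑ w : Fin n → α, (∑ j, g (w j)) ^ 2 := by
      intro a
      simp only [Fin.sum_univ_succ, Fin.cons_zero, Fin.cons_succ, add_sq,
        Finset.sum_add_distrib]
      have h2 : ∑ w : Fin n → α, 2 * g a * ∑ j, g (w j) = 0 := by
        rw [← Finset.mul_sum, sum_sum_eq_zero g hg, mul_zero]
      rw [h2, add_zero, Finset.sum_const, Finset.card_univ, Fintype.card_fun, Fintype.card_fin,
        nsmul_eq_mul]
      push_cast
      ring
    rw [Finset.sum_congr rfl (fun a _ => h1 a), Finset.sum_add_distrib, Finset.sum_const,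
      Finset.card_univ, nsmul_eq_mul, mul_add, ih, ← Finset.mul_sum]
    push_cast
    ring

lemma card_filter_eq [DecidableEq α] (n : ℕ) (j : Fin n) (v : α) :
    (Finset.univ.filter (fun w : Fin n → α => w j = v)).card * Fintype.card α =
      Fintype.card α ^ n := by
  have h1 : Finset.univ.filter (fun w : Fin n → α => w j = v) =
      Fintype.piFinset (fun i => if i = j then {v} else Finset.univ) := by
    ext w
    simp only [Finset.mem_filter, Finset.mem_univ, true_and, Fintype.mem_piFinset]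
    constructor
    · intro h i
      split_ifs with hi
      · rw [hi, h]; simp
      · simp
    · intro h
      have := h j
      simpa using this
  rw [h1, Fintype.card_piFinset]
  have h2 : ∀ i : Fin n, (if i = j then ({v} : Finset α) else Finset.univ).card =
      if i = j then 1 else Fintype.card α := by
    intro i
    split_ifs <;> simp
  simp only [h2]
  have h3 : Fintype.card α = ∏ i : Fin n, if i = j then Fintype.card α else 1 := by
    simp
  conv_lhs => rw [mul_comm]; enter [1]; rw [h3]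
  rw [← Finset.prod_mul_distrib]
  have h4 : ∀ i : Fin n, (if i = j then Fintype.card α else 1) *
      (if i = j then 1 else Fintype.card α) = Fintype.card α := by
    intro i
    split_ifs <;> simp
  simp only [h4, Finset.prod_const, Finset.card_univ, Fintype.card_fin]

end sums

lemma Nn_eq : ∀ s, Nn mm s = NN s
  | 0 => rfl
  | s + 1 => by rw [Nn_succ, NN_succ, Nn_eq s]

lemma mm_two (s : ℕ) : 2 ≤ mm s := by have := mm_ge s; omega

lemma blk_fin (τ : Tau) (s : ℕ) (w : W (s + 1)) (j : Fin (mm s - 1)) :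
    blk τ s w (j : ℕ) = (show Fin (mm s - 1) → W s from w) j := by
  rw [blk_lt τ s w j j.2]

lemma unif_blk (τ : Tau) (hτ : ∀ s, Balanced (τ s)) : Unif mm (blk τ) := by
  intro s j hj v
  rcases lt_or_ge j (mm s - 1) with h | h
  · have h1 : ∀ w : W (s + 1), blk τ s w j = (show Fin (mm s - 1) → W s from w) ⟨j, h⟩ :=
      fun w => blk_lt τ s w j h
    simp only [h1]
    have h2 := card_filter_eq (α := W s) (mm s - 1) ⟨j, h⟩ v
    have h3 : Fintype.card (W (s + 1)) = Fintype.card (W s) ^ (mm s - 1) := by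
      rw [card_W, card_W, KK_succ]
    rw [h3]
    exact h2
  · have h1 : ∀ w : W (s + 1), blk τ s w j = τ s w := fun w => blk_last τ s w j h
    simp only [h1]
    rw [card_W, card_W]
    exact hτ s v

lemma sum_tau_sq (τ : Tau) (hτ : ∀ s, Balanced (τ s)) (s : ℕ) (g : W s → ℝ) :
    (Fintype.card (W s) : ℝ) * ∑ w' : W (s + 1), g (τ s w') ^ 2 =
      Fintype.card (W (s + 1)) * ∑ w, g w ^ 2 := by
  have h1 : ∑ w' : W (s + 1), g (τ s w') ^ 2 =
      ∑ v : W s, ((Finset.univ.filter (fun w => τ s w = v)).card : ℝ) * g v ^ 2 := by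
    rw [← Finset.sum_fiberwise_of_maps_to (s := (Finset.univ : Finset (W (s + 1))))
      (t := (Finset.univ : Finset (W s))) (g := fun w' => τ s w')
      (fun _ _ => Finset.mem_univ _)]
    refine Finset.sum_congr rfl fun v _ => ?_
    rw [Finset.sum_congr rfl (g := fun _ => g v ^ 2)]
    · rw [Finset.sum_const, nsmul_eq_mul]
    · intro w hw
      rw [(Finset.mem_filter.1 hw).2]
  rw [h1, Finset.mul_sum, Finset.mul_sum]
  refine Finset.sum_congr rfl fun v _ => ?_
  have h2 := hτ s v
  rw [card_W, card_W, ← h2]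
  push_cast
  ring

lemma sq_add_le' (a b : ℝ) : (a + b) ^ 2 ≤ 2 * a ^ 2 + 2 * b ^ 2 := by
  nlinarith [sq_nonneg (a - b)]

lemma calc_aux (K M K1 Y A B G : ℝ) (hK : 0 ≤ K) (h2 : Y ≤ 2 * A + 2 * B)
    (h3 : K * A = (M - 1) * K1 * G) (h4 : K * B = K1 * G) (h6 : 0 ≤ K1 * G) (h8 : 1600 ≤ M) :
    4 * K * Y ≤ M ^ 2 * K1 * G := by
  have e1 : 4 * K * Y ≤ 4 * K * (2 * A + 2 * B) :=
    mul_le_mul_of_nonneg_left h2 (by positivity)
  have e2 : 4 * K * (2 * A + 2 * B) = 8 * M * (K1 * G) := by
    have : 4 * K * (2 * A + 2 * B) = 8 * (K * A) + 8 * (K * B) := by ring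
    rw [this, h3, h4]; ring
  have e3 : 8 * M * (K1 * G) ≤ M ^ 2 * (K1 * G) :=
    mul_le_mul_of_nonneg_right (by nlinarith) h6
  calc 4 * K * Y ≤ M ^ 2 * (K1 * G) := by linarith
    _ = _ := by ring

lemma contr_blk (τ : Tau) (hτ : ∀ s, Balanced (τ s)) : Contr mm (blk τ) := by
  intro s g hg
  have hm := mm_ge s
  have h1 : ∀ w' : W (s + 1), ∑ j ∈ Finset.range (mm s), g (blk τ s w' j) =
      (∑ j : Fin (mm s - 1), g ((show Fin (mm s - 1) → W s from w') j)) + g (τ s w') := by
    intro w'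
    have hgen : ∀ (M n : ℕ) (f : ℕ → ℝ), M = n + 1 →
        ∑ j ∈ Finset.range M, f j = (∑ j : Fin n, f j) + f n := by
      rintro M n f rfl
      rw [Finset.sum_range_succ, Finset.sum_range f]
    rw [hgen (mm s) (mm s - 1) (fun j => g (blk τ s w' j)) (by omega),
      blk_last τ s w' (mm s - 1) le_rfl]
    congr 1
    exact Finset.sum_congr rfl fun j _ => by rw [blk_fin]
  have h2 : ∑ w' : W (s + 1), (∑ j ∈ Finset.range (mm s), g (blk τ s w' j)) ^ 2 ≤
      2 * ∑ w' : W (s + 1), (∑ j : Fin (mm s - 1),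
        g ((show Fin (mm s - 1) → W s from w') j)) ^ 2 +
      2 * ∑ w' : W (s + 1), g (τ s w') ^ 2 := by
    rw [Finset.mul_sum, Finset.mul_sum, ← Finset.sum_add_distrib]
    refine Finset.sum_le_sum fun w' _ => ?_
    rw [h1 w']
    exact sq_add_le' _ _
  have h3 : (Fintype.card (W s) : ℝ) * ∑ w' : W (s + 1), (∑ j : Fin (mm s - 1),
        g ((show Fin (mm s - 1) → W s from w') j)) ^ 2 =
      ((mm s : ℝ) - 1) * Fintype.card (W (s + 1)) * ∑ w, g w ^ 2 := by
    have h4 := sum_sq_eq g hg (mm s - 1)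
    have h5 : (Fintype.card (W (s + 1)) : ℝ) = (Fintype.card (W s) : ℝ) ^ (mm s - 1) := by
      rw [card_W, card_W, KK_succ]; push_cast; rfl
    have h7 : ((mm s - 1 : ℕ) : ℝ) = mm s - 1 := by
      rw [Nat.cast_sub (by omega)]; simp
    rw [h5, ← h7]
    exact h4
  have h4 := sum_tau_sq τ hτ s g
  have h5 : (0 : ℝ) ≤ Fintype.card (W s) := Nat.cast_nonneg _
  have h6 : 0 ≤ (Fintype.card (W (s + 1)) : ℝ) * ∑ w, g w ^ 2 :=
    mul_nonneg (Nat.cast_nonneg _) (Finset.sum_nonneg fun w _ => sq_nonneg _)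
  have h8 : (1600 : ℝ) ≤ mm s := by exact_mod_cast hm
  exact calc_aux _ _ _ _ _ _ _ h5 h2 h3 h4 h6 h8

/-- **THEOREM A** (section 1 of note 12067). -/
theorem theoremA (τ : Tau) (hτ : ∀ s, Balanced (τ s)) :
    ∃ (Ω : Type) (_ : MeasurableSpace Ω) (μ : Measure Ω) (T : Ω ≃ᵐ Ω)
      (w : ∀ s, Ω → W s) (φ : ℕ → Ω → ℕ),
      IsProbabilityMeasure μ ∧ Crest.AnalysisR.IsStandardProbability μ ∧
      MeasurePreserving T μ μ ∧ Ergodic T μ ∧ Crest.AnalysisR.HasZeroEntropy μ T ∧
      TowerMaps τ μ T w φ := by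
  classical
  have hm := mm_two
  have hU := unif_blk τ hτ
  have hC := contr_blk τ hτ
  obtain ⟨e, he1, he2⟩ := exists_enum (W := W) (m := mm) (blk := blk τ) hm hU
  have he : Enum mm (blk τ) e := ⟨he1, he2⟩
  have hprob : IsProbabilityMeasure (mu (m := mm) (blk τ) e) := isProb_mu hm hU he
  have hT := measurePreserving_T (m := mm) (blk := blk τ) hm hU he
  have hw : ∀ s, Measurable (fun z : X mm (blk τ) => (z.1 s).1) :=
    fun s => measurable_fst.comp (measurable_coord s)
  have hφ : ∀ s, Measurable (fun z : X mm (blk τ) => (z.1 s).2) :=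
    fun s => measurable_snd.comp (measurable_coord s)
  have hlt : ∀ s (z : X mm (blk τ)), (z.1 s).2 < NN s := by
    intro s z
    rw [← Nn_eq]
    exact z.2.lt s
  have hstep : ∀ s (z : X mm (blk τ)), (z.1 s).2 + 1 < NN s →
      (T mm (blk τ) z).1 s = ((z.1 s).1, (z.1 s).2 + 1) := by
    intro s z h
    rw [← Nn_eq] at h
    exact T_step z s h
  have htop : ∀ s (z : X mm (blk τ)), (z.1 s).2 + 1 = NN s →
      ((T mm (blk τ) z).1 s).2 = 0 := by
    intro s z h
    rw [← Nn_eq] at h
    exact T_top z s h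
  refine ⟨X mm (blk τ), inferInstance, mu (blk τ) e, T mm (blk τ), fun s z => (z.1 s).1,
    fun s z => (z.1 s).2, hprob, ?_, hT, ergodic_T hm hU he hC, ?_, ?_⟩
  · have : NullSingletonClass (mu (m := mm) (blk τ) e) := ⟨noAtoms_mu hm hU he⟩
    exact Std.isStandardProbability_of_noAtoms _
  · refine Ent.hasZeroEntropy_of_towers (mu (m := mm) (blk τ) e) (T mm (blk τ)) hT NN KK W
      (fun s => (card_W s).le) (fun s => NN_pos s) (fun s z => (z.1 s).1) (fun s z => (z.1 s).2)
      hw hφ (fun s => Filter.Eventually.of_forall (hlt s))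
      (fun s => Filter.Eventually.of_forall fun z h => ?_)
      (fun s => Filter.Eventually.of_forall fun z h => htop s z h) (fun s => ?_) ?_ ?_
    · rw [hstep s z h]; exact ⟨rfl, rfl⟩
    · refine ⟨pr mm (blk τ) s, Filter.Eventually.of_forall fun z => ?_⟩
      exact (z.2.pr s).symm
    · refine (generateFrom_eq (m := mm) (blk := blk τ)).le.trans
        (MeasurableSpace.generateFrom_le ?_)
      rintro _ ⟨s, a, rfl⟩
      exact (le_iSup (fun s => MeasurableSpace.comap
        (fun z : X mm (blk τ) => ((z.1 s).1, (z.1 s).2)) inferInstance) s) _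
        ⟨{a}, measurableSet_singleton a, rfl⟩
    · exact Par.hh_tendsto
  · refine ⟨hw, hφ, fun s => Filter.Eventually.of_forall (hlt s), ?_, ?_, ?_, ?_, ?_⟩
    · intro s u i hi
      have h1 := mu_cyl (m := mm) (blk := blk τ) hm hU he s (u, i) (by rw [Nn_eq]; exact hi)
      have h2 : (q W mm s : ℝ) = (KK s : ℝ) * NN s := by
        unfold q
        rw [card_W, Nn_eq]
        push_cast
        rfl
      rw [h2] at h1
      rw [← h1]
      congr 1
      ext z
      constructor
      · rintro ⟨ha, hb⟩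
        exact Prod.ext ha hb
      · intro h
        exact ⟨congrArg Prod.fst h, congrArg Prod.snd h⟩
    · intro s
      refine Filter.Eventually.of_forall fun z => ?_
      have h1 := hlt s z
      rcases Nat.lt_or_ge ((z.1 s).2 + 1) (NN s) with h | h
      · change ((T mm (blk τ) z).1 s).2 = ((z.1 s).2 + 1) % NN s
        rw [hstep s z h, Nat.mod_eq_of_lt h]
      · have h2 : (z.1 s).2 + 1 = NN s := by omega
        change ((T mm (blk τ) z).1 s).2 = ((z.1 s).2 + 1) % NN s
        rw [htop s z h2, h2, Nat.mod_self]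
    · intro s
      refine Filter.Eventually.of_forall fun z h => ?_
      change ((T mm (blk τ) z).1 s).1 = (z.1 s).1
      rw [hstep s z h]
    · intro s
      refine Filter.Eventually.of_forall fun z => ?_
      have := congrArg Prod.snd (z.2.pr s)
      rw [← Nn_eq]
      exact this.symm
    · intro s
      refine Filter.Eventually.of_forall fun z => ?_
      have := congrArg Prod.fst (z.2.pr s)
      rw [← Nn_eq]
      exact this.symm

end Crest.Agent.R133.TA
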